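import Vale.Agent.P283.Z647.Init
import Vale.Agent.P283.H647.Gen

/-!
Generic polynomials with given exponents.
-/

set_option linter.all false

namespace Vale.Agent.P283.Z647

open MvPolynomial Finset
open Vale.Agent.P283.H647 (gen_coeffs cder cder_sum cder_monomial poly coeff_poly)

theorem cder_inFormZ {m : ℕ} (δ : Derivation ℚ ℂ ℂ) (P : MvPolynomial (Fin m) ℂ)
    (hδ : ∀ α, δ (P.coeff α) = 0) (a : Fin m → ℤ) (ξ : Fin m → ℂ)
    (h0 : eval ξ (inFormZ P a) = 0) : ∑ i, eval ξ (pderiv i (inFormZ P a)) * δ (ξ i) = 0 := by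
  classical
  have h1 : cder δ ξ (inFormZ P a) = 0 := by
    unfold inFormZ
    rw [cder_sum]
    refine Finset.sum_eq_zero fun α _ => ?_
    rw [cder_monomial, hδ, zero_mul]
  unfold cder at h1
  rw [h0, map_zero, zero_sub, neg_eq_zero] at h1
  exact h1

/-- Generic polynomials with given exponents are in general position. -/
theorem exists_genericZ {m N s : ℕ} (v : Fin N → Fin m → ℤ) (f : MvPolynomial (Fin m) ℂ)
    (g : Fin s → MvPolynomial (Fin m) ℂ) (hf : NonDegZ v f g) (E : Finset (Fin m →₀ ℕ))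
    (hE : E.Nonempty) : ∃ S : MvPolynomial (Fin m) ℂ, S.support = E ∧
      ∀ a : Fin m → ℤ, InCone v a → ∀ ξ : Fin m → ℂ, (∀ k, ξ k ≠ 0) →
        eval ξ (inFormZ f a) = 0 → ∀ (t₀ : ℂ) (t : Fin s → ℂ) (t' : ℂ),
        (∀ i, eval ξ (inFormZ (g i) a) ≠ 0 → t i = 0) →
        (eval ξ (inFormZ S a) ≠ 0 → t' = 0) →
        (∀ k, t₀ * eval ξ (pderiv k (inFormZ f a)) +
          (t' * eval ξ (pderiv k (inFormZ S a)) +
          ∑ i, t i * eval ξ (pderiv k (inFormZ (g i) a))) = 0) →
        t₀ = 0 ∧ t' = 0 ∧ ∀ i, t i = 0 := by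
  classical
  obtain ⟨c, hc⟩ := gen_coeffs ((f.support.image fun α => f.coeff α) ∪
    Finset.univ.biUnion fun i => (g i).support.image fun α => (g i).coeff α) E
  let c' : (Fin m →₀ ℕ) → ℂ := fun e => if h : e ∈ E then c ⟨e, h⟩ else 0
  have hc' : ∀ e₀ ∈ E, ∃ δ : Derivation ℚ ℂ ℂ, (∀ α, δ (f.coeff α) = 0) ∧
      (∀ i α, δ ((g i).coeff α) = 0) ∧
      δ (c' e₀) = 1 ∧ ∀ e, e ≠ e₀ → δ (c' e) = 0 := by
    intro e₀ he₀
    obtain ⟨δ, h1, h2, h3⟩ := hc ⟨e₀, he₀⟩
    refine ⟨δ, fun α => ?_, fun i α => ?_, ?_, fun e he => ?_⟩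
    · by_cases hα : α ∈ f.support
      · exact h1 _ (Finset.mem_union_left _ (Finset.mem_image_of_mem _ hα))
      · rw [notMem_support_iff.1 hα, map_zero]
    · by_cases hα : α ∈ (g i).support
      · exact h1 _ (Finset.mem_union_right _ (Finset.mem_biUnion.2
          ⟨i, Finset.mem_univ _, Finset.mem_image_of_mem _ hα⟩))
      · rw [notMem_support_iff.1 hα, map_zero]
    · simp only [c', he₀, dif_pos]; exact h2
    · by_cases heE : e ∈ E
      · simp only [c', heE, dif_pos]
        exact h3 ⟨e, heE⟩ fun h => he (congrArg Subtype.val h)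
      · simp only [c', heE, dif_neg, not_false_iff, map_zero]
  have hsupp : (poly E c').support = E := by
    ext e
    rw [mem_support_iff, coeff_poly]
    by_cases he : e ∈ E
    · simp only [he, if_true, ne_eq, iff_true]
      intro h0
      obtain ⟨δ, -, -, h2, -⟩ := hc' e he
      rw [h0, map_zero] at h2
      exact zero_ne_one h2
    · simp [he]
  refine ⟨poly E c', hsupp, fun a ha ξ hξ hf0 t₀ t t' ht ht' hrel => ?_⟩
  have key : t' = 0 := by
    by_cases hs0 : eval ξ (inFormZ (poly E c') a) = 0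
    · obtain ⟨e₀, he₀, hmin⟩ := E.exists_min_image (fun e => wtZ a e) hE
      obtain ⟨δ, hδ1, hδ1', hδ2, hδ3⟩ := hc' e₀ he₀
      have hin0 : e₀ ∈ (poly E c').support.filter
          (fun α => ∀ β ∈ (poly E c').support, wtZ a α ≤ wtZ a β) := by
        rw [Finset.mem_filter, hsupp]; exact ⟨he₀, hmin⟩
      have hdf := cder_inFormZ δ f hδ1 a ξ hf0
      have hds : ∑ i, eval ξ (pderiv i (inFormZ (poly E c') a)) * δ (ξ i) =
          - eval ξ (monomial e₀ 1) := by
        have h1 : cder δ ξ (inFormZ (poly E c') a) = eval ξ (monomial e₀ 1) := by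
          unfold inFormZ
          rw [cder_sum, Finset.sum_eq_single_of_mem e₀ hin0]
          · rw [cder_monomial, coeff_poly, if_pos he₀, hδ2, one_mul]
          · intro α hα hne
            rw [cder_monomial, coeff_poly]
            by_cases hαE : α ∈ E
            · rw [if_pos hαE, hδ3 α hne, zero_mul]
            · rw [if_neg hαE, map_zero, zero_mul]
        unfold cder at h1
        rw [hs0, map_zero, zero_sub] at h1
        rw [← h1, neg_neg]
      have hsum : ∑ k, (t₀ * eval ξ (pderiv k (inFormZ f a)) +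
          (t' * eval ξ (pderiv k (inFormZ (poly E c') a)) +
          ∑ i, t i * eval ξ (pderiv k (inFormZ (g i) a)))) * δ (ξ k) = 0 :=
        Finset.sum_eq_zero fun k _ => by rw [hrel k, zero_mul]
      have hexp : ∑ k, (t₀ * eval ξ (pderiv k (inFormZ f a)) +
          (t' * eval ξ (pderiv k (inFormZ (poly E c') a)) +
          ∑ i, t i * eval ξ (pderiv k (inFormZ (g i) a)))) * δ (ξ k) =
          t₀ * ∑ k, eval ξ (pderiv k (inFormZ f a)) * δ (ξ k) +
          (t' * ∑ k, eval ξ (pderiv k (inFormZ (poly E c') a)) * δ (ξ k) +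
          ∑ i, t i * ∑ k, eval ξ (pderiv k (inFormZ (g i) a)) * δ (ξ k)) := by
        simp only [Finset.mul_sum]
        rw [Finset.sum_comm (s := (Finset.univ : Finset (Fin s))), ← Finset.sum_add_distrib,
          ← Finset.sum_add_distrib]
        refine Finset.sum_congr rfl fun k _ => ?_
        rw [add_mul, add_mul, Finset.sum_mul, mul_assoc, mul_assoc]
        congr 2
        exact Finset.sum_congr rfl fun i _ => by ring
      have hg : ∑ i, t i * ∑ k, eval ξ (pderiv k (inFormZ (g i) a)) * δ (ξ k) = 0 := by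
        refine Finset.sum_eq_zero fun i _ => ?_
        by_cases h0 : eval ξ (inFormZ (g i) a) = 0
        · rw [cder_inFormZ δ (g i) (hδ1' i) a ξ h0, mul_zero]
        · rw [ht i h0, zero_mul]
      rw [hexp, hdf, hds, hg, mul_zero, zero_add, add_zero] at hsum
      have h3 : eval ξ (monomial e₀ (1 : ℂ)) ≠ 0 := by
        rw [eval_monomial, one_mul, Finsupp.prod]
        exact Finset.prod_ne_zero_iff.2 fun i _ => pow_ne_zero _ (hξ i)
      exact (mul_eq_zero.1 hsum).resolve_right (neg_ne_zero.2 h3)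
    · exact ht' hs0
  obtain ⟨h1, h2⟩ := hf a ha ξ hξ hf0 t₀ t ht (fun k => by
    have := hrel k
    rw [key, zero_mul, zero_add] at this
    exact this)
  exact ⟨h1, key, h2⟩

end Vale.Agent.P283.Z647
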