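import Vale.Agent.P283.Z647.Expos2
import Vale.Agent.P283.Z647.Gen
import Vale.Agent.P283.H647.Sec2

/-!
The function defining the complement: values.
-/

set_option linter.all false

namespace Vale.Agent.P283.Z647

open MvPolynomial Finset
open Vale.Agent.P283.H647 (ResForm HypData order_exists order_unique ov_monoT)

variable {m N s M : ℕ}

/-- `S` is in general position with respect to `f` and the `g i`. -/
def GenPos (v : Fin N → Fin m → ℤ) (f : MvPolynomial (Fin m) ℂ)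
    (g : Fin s → MvPolynomial (Fin m) ℂ) (S : MvPolynomial (Fin m) ℂ) : Prop :=
  ∀ a : Fin m → ℤ, InCone v a → ∀ ξ : Fin m → ℂ, (∀ k, ξ k ≠ 0) →
    eval ξ (inFormZ f a) = 0 → ∀ (t₀ : ℂ) (t : Fin s → ℂ) (t' : ℂ),
    (∀ i, eval ξ (inFormZ (g i) a) ≠ 0 → t i = 0) →
    (eval ξ (inFormZ S a) ≠ 0 → t' = 0) →
    (∀ k, t₀ * eval ξ (pderiv k (inFormZ f a)) +
      (t' * eval ξ (pderiv k (inFormZ S a)) +
      ∑ i, t i * eval ξ (pderiv k (inFormZ (g i) a))) = 0) →
    t₀ = 0 ∧ t' = 0 ∧ ∀ i, t i = 0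

theorem inCone_zero (v : Fin N → Fin m → ℤ) : InCone v 0 :=
  ⟨0, fun _ => le_rfl, fun k => by simp⟩

theorem isMinZ_zero {f : MvPolynomial (Fin m) ℂ} (hf : f ≠ 0) : IsMinZ f 0 0 := by
  obtain ⟨α, hα⟩ := support_nonempty.2 hf
  exact ⟨⟨α, hα, by simp [wtZ]⟩, fun β _ => by simp [wtZ]⟩

theorem minWt_zero {f : MvPolynomial (Fin m) ℂ} (hf : f ≠ 0) : minWt f 0 = 0 :=
  (isMinZ_minWt hf 0).unique (isMinZ_zero hf)

theorem inFormZ_zero {f : MvPolynomial (Fin m) ℂ} (hf : f ≠ 0) : inFormZ f 0 = f := by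
  ext α
  rw [coeff_inFormZ (isMinZ_zero hf), if_pos (by simp [wtZ])]

theorem NonDegZ.reg {v : Fin N → Fin m → ℤ} {f : MvPolynomial (Fin m) ℂ}
    {g : Fin s → MvPolynomial (Fin m) ℂ} (h : NonDegZ v f g) {a : Fin m → ℤ} (ha : InCone v a) :
    RegZ f a := by
  intro ξ hξ h0
  by_contra hno
  push Not at hno
  have := (h a ha ξ hξ h0 1 0 (fun _ _ => rfl) (fun k => by simp [hno k])).1
  exact one_ne_zero this

section Basic

variable {L : Type} [Field L] [Algebra ℂ L]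

theorem nonMono_of_zeroZ {w : AddValuation L (WithTop ℤ)}
    (hc : ∀ c : ℂ, c ≠ 0 → w (algebraMap ℂ L c) = 0) {x : Fin m → L} {f : MvPolynomial (Fin m) ℂ}
    (hf0 : f ≠ 0) (hf : aeval x f = 0) {b : Fin m → ℤ}
    (hb : ∀ j, w (x j) = (b j : WithTop ℤ)) : NonMonoZ f b := by
  classical
  have hm := isMinZ_minWt hf0 b
  set μ := minWt f b with hμ
  obtain ⟨α, hα, hαm⟩ := hm.1
  by_contra hno
  have huniq : ∀ β ∈ f.support, β ≠ α → μ + 1 ≤ wtZ b β := by
    intro β hβ hne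
    have h1 := hm.2 β hβ
    by_contra hlt
    have h2 : wtZ b β = μ := by omega
    exact hno ⟨μ, hm, β, hβ, α, hα, hne, h2, hαm⟩
  let g := f - monomial α (f.coeff α)
  have hg : AtLeastZ b g (μ + 1) := by
    intro β hβ
    rw [mem_support_iff] at hβ
    have h1 : g.coeff β = f.coeff β - if α = β then f.coeff α else 0 := by
      simp only [g, coeff_sub, coeff_monomial]
    by_cases hne : α = β
    · rw [h1, if_pos hne, hne, sub_self] at hβ
      exact absurd rfl hβ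
    · rw [h1, if_neg hne, sub_zero] at hβ
      exact huniq β (mem_support_iff.2 hβ) fun h => hne h.symm
  have h1 := val_lowerZ w hc x b hb hg
  have h2 : aeval x g = - (algebraMap ℂ L (f.coeff α) * ∏ i, x i ^ α i) := by
    simp only [g]
    rw [map_sub, hf, zero_sub, aeval_monomial, Finsupp.prod_fintype _ _ (by simp)]
  rw [h2, AddValuation.map_neg, AddValuation.map_mul, hc _ (mem_support_iff.1 hα), zero_add,
    val_monoZ w hc x b hb, hαm] at h1
  have h3 : μ + 1 ≤ μ := by exact_mod_cast h1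
  omega

theorem aeval_neZ {d : ℕ} {v : Fin N → Fin (d + 1) → ℤ} {y : Fin (d + 1) → L}
    {f : MvPolynomial (Fin (d + 1)) ℂ} (H : HypData y f)
    {g : Fin s → MvPolynomial (Fin (d + 1)) ℂ} {S : MvPolynomial (Fin (d + 1)) ℂ} (hS0 : S ≠ 0)
    (hS : GenPos v f g S) : aeval y S ≠ 0 := by
  intro h0
  obtain ⟨G, hG⟩ := (H.ker S).1 h0
  obtain ⟨ξ, hξ, hξ0⟩ := H.torus_zero
  have h2 : ∀ k, eval ξ (pderiv k S) = eval ξ G * eval ξ (pderiv k f) := by
    intro k
    rw [hG, Derivation.leibniz, smul_eq_mul, smul_eq_mul, map_add, map_mul, map_mul, hξ0,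
      zero_mul, zero_add]
  have h3 := hS 0 (inCone_zero v) ξ hξ (by rw [inFormZ_zero H.f0]; exact hξ0)
    (-eval ξ G) 0 1 (fun _ _ => rfl)
    (fun h => by
      exfalso
      apply h
      rw [inFormZ_zero hS0, hG, map_mul, hξ0, zero_mul])
    (fun k => by
      rw [inFormZ_zero H.f0, inFormZ_zero hS0, h2 k]
      simp)
  exact one_ne_zero h3.2.1

end Basic

section Values

variable {e : ℕ} {L : Type} [Field L] [Algebra ℂ L] {v : Fin N → Fin (e + 2) → ℤ}
  {y : Fin (e + 2) → L} {f : MvPolynomial (Fin (e + 2)) ℂ}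
  {g : Fin s → MvPolynomial (Fin (e + 2)) ℂ} {S : MvPolynomial (Fin (e + 2)) ℂ}

/-- The function defining the complement. -/
noncomputable def phiOne {m : ℕ} (y : Fin m → L) (h : L) (g : Fin s → MvPolynomial (Fin m) ℂ)
    (k q : ℕ) (cq : Fin s → ℕ) (S : MvPolynomial (Fin m) ℂ) (σ : Fin m → ℤ) : L :=
  h ^ (k * q) * (∏ i, (aeval y (g i)) ^ (k * cq i)) * aeval y S * monoT y (-σ)

theorem phiOne_ne {m : ℕ} {y : Fin m → L} (hy : ∀ j, y j ≠ 0) {h : L} (h0 : h ≠ 0)
    {g : Fin s → MvPolynomial (Fin m) ℂ} (hg : ∀ i, aeval y (g i) ≠ 0)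
    {k q : ℕ} {cq : Fin s → ℕ} {S : MvPolynomial (Fin m) ℂ} (hS : aeval y S ≠ 0)
    (σ : Fin m → ℤ) : phiOne y h g k q cq S σ ≠ 0 :=
  mul_ne_zero (mul_ne_zero (mul_ne_zero (pow_ne_zero _ h0)
    (Finset.prod_ne_zero_iff.2 fun i _ => pow_ne_zero _ (hg i))) hS) (monoT_ne_zero hy _)

theorem ov_phiOne {m : ℕ} {y : Fin m → L} (hy : ∀ j, y j ≠ 0) {h : L} (h0 : h ≠ 0)
    {g : Fin s → MvPolynomial (Fin m) ℂ} (hg : ∀ i, aeval y (g i) ≠ 0)
    {k q : ℕ} {cq : Fin s → ℕ} {S : MvPolynomial (Fin m) ℂ} (hS : aeval y S ≠ 0)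
    (σ : Fin m → ℤ) (w : AddValuation L (WithTop ℤ)) : ov w (phiOne y h g k q cq S σ) =
      k * q * ov w h + k * ∑ i, cq i * ov w (aeval y (g i)) + ov w (aeval y S) -
        ∑ i, σ i * wts w y i := by
  unfold phiOne
  have h1 : h ^ (k * q) ≠ 0 := pow_ne_zero _ h0
  have h2 : (∏ i, (aeval y (g i)) ^ (k * cq i)) ≠ 0 :=
    Finset.prod_ne_zero_iff.2 fun i _ => pow_ne_zero _ (hg i)
  rw [ov_mul w (mul_ne_zero (mul_ne_zero h1 h2) hS) (monoT_ne_zero hy _),
    ov_mul w (mul_ne_zero h1 h2) hS, ov_mul w h1 h2, ov_pow w h0,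
    ov_prod _ _ fun i _ => pow_ne_zero _ (hg i), ov_monoT w hy]
  have h3 : ∑ i, ov w (aeval y (g i) ^ (k * cq i)) = k * ∑ i, cq i * ov w (aeval y (g i)) := by
    rw [Finset.mul_sum]
    refine Finset.sum_congr rfl fun i _ => ?_
    rw [ov_pow w (hg i)]; push_cast; ring
  have h4 : ∑ j, (-σ) j * ov w (y j) = - ∑ i, σ i * wts w y i := by
    rw [← Finset.sum_neg_distrib]
    refine Finset.sum_congr rfl fun i _ => ?_
    simp only [Pi.neg_apply, wts]; ring
  rw [h3, h4]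
  push_cast
  ring

theorem X_bound_aux (H : HypData y f) {D' : Fin (e + 1) → Derivation ℂ L L} {h : L}
    (R : ResForm y f D' h) (P : Option (Fin s) → MvPolynomial (Fin (e + 2)) ℂ)
    (hP0 : ∀ o, P o ≠ 0) (hPx : ∀ o, aeval y (P o) ≠ 0)
    (a : Fin (e + 2) → ℤ)
    (hP : ∀ ξ : Fin (e + 2) → ℂ, (∀ k, ξ k ≠ 0) →
      eval ξ (inFormZ f a) = 0 → ∀ (t₀ : ℂ) (t : Option (Fin s) → ℂ),
      (∀ o, eval ξ (inFormZ (P o) a) ≠ 0 → t o = 0) →
      (∀ k, t₀ * eval ξ (pderiv k (inFormZ f a)) +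
        ∑ o, t o * eval ξ (pderiv k (inFormZ (P o) a)) = 0) →
      t₀ = 0 ∧ ∀ o, t o = 0)
    {w : AddValuation L (WithTop ℤ)} (hw : Q.IsDivisorial (e + 1) w)
    (hb : ∀ j, w (y j) = (a j : WithTop ℤ)) {m' : ℤ} (hm' : Q.FormOrder w D' m') :
    ov w h + ∑ j, a j - minWt f a + ∑ o, (ov w (aeval y (P o)) - minWt (P o) a) ≤ 1 + m' := by
  classical
  haveI := H.ess
  let I : Finset (Option (Fin s)) :=
    Finset.univ.filter fun o => minWt (P o) a < ov w (aeval y (P o))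
  have hI : ∀ o, o ∈ I ↔ minWt (P o) a < ov w (aeval y (P o)) := fun o => by simp [I]
  have hI' : ∀ o, o ∉ I → ov w (aeval y (P o)) = minWt (P o) a := by
    intro o ho
    have h3 := val_lowerZ w hw.const y a hb (P := P o) (isMinZ_minWt (hP0 o) a).2
    rw [← coe_ov w (hPx o)] at h3
    have h4 : minWt (P o) a ≤ ov w (aeval y (P o)) := by exact_mod_cast h3
    have h5 : ¬ minWt (P o) a < ov w (aeval y (P o)) := fun h => ho ((hI o).2 h)
    omega
  have h1 := multi_bound (Nat.succ_pos e) H.trdeg R hw hm' hb (isMinZ_minWt H.f0 a) P I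
    (fun o => minWt (P o) a) (fun o _ => isMinZ_minWt (hP0 o) a) (fun o _ => hPx o)
    (fun o ho => (hI o).1 ho) (by
      intro ξ hξ h0 hall c₀ c hc
      have h2 := hP ξ hξ h0 c₀ (fun o => if o ∈ I then c o else 0)
        (fun o ho => by
          rw [if_neg]
          intro hmem
          exact ho (hall _ hmem))
        (fun k => by
          refine Eq.trans ?_ (hc k)
          congr 1
          simp only [ite_mul, zero_mul]
          rw [Finset.sum_ite_mem, Finset.univ_inter])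
      refine ⟨h2.1, fun o ho => ?_⟩
      have := h2.2 o
      rwa [if_pos ho] at this)
  have h3 : ∑ l ∈ I, (ov w (aeval y (P l)) - minWt (P l) a) =
      ∑ l : Option (Fin s), (ov w (aeval y (P l)) - minWt (P l) a) := by
    apply Finset.sum_subset (Finset.subset_univ _)
    intro o _ ho
    rw [hI' o ho, sub_self]
  rw [h3] at h1
  exact h1

/-- The basic inequality. -/
theorem X_bound (H : HypData y f) {D' : Fin (e + 1) → Derivation ℂ L L} {h : L}
    (R : ResForm y f D' h) (hg : ∀ i, aeval y (g i) ≠ 0) (hS0 : S ≠ 0) (hS : GenPos v f g S)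
    {w : AddValuation L (WithTop ℤ)} (hw : Q.IsDivisorial (e + 1) w)
    (hcone : InCone v (wts w y)) {m' : ℤ} (hm' : Q.FormOrder w D' m') :
    ov w h + ∑ j, wts w y j - minWt f (wts w y) +
      ((ov w (aeval y S) - minWt S (wts w y)) +
        ∑ i, (ov w (aeval y (g i)) - minWt (g i) (wts w y))) ≤ 1 + m' := by
  have hxS := aeval_neZ H hS0 hS
  have hg0 : ∀ i, g i ≠ 0 := fun i h0 => hg i (by rw [h0, map_zero])
  obtain ⟨P, hPn, hPs⟩ : ∃ P : Option (Fin s) → MvPolynomial (Fin (e + 2)) ℂ,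
      P none = S ∧ ∀ i, P (some i) = g i := ⟨fun o => o.elim S g, rfl, fun _ => rfl⟩
  have h1 := X_bound_aux H R P
    (by
      rintro (_ | i)
      · rw [hPn]; exact hS0
      · rw [hPs]; exact hg0 i)
    (by
      rintro (_ | i)
      · rw [hPn]; exact hxS
      · rw [hPs]; exact hg i)
    (wts w y) (by
      intro ξ hξ h0 t₀ t ht hrel
      have h2 := hS (wts w y) hcone ξ hξ h0 t₀ (fun i => t (some i)) (t none)
        (fun i hi => ht (some i) (by rw [hPs]; exact hi))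
        (fun hi => ht none (by rw [hPn]; exact hi))
        (fun k => by
          have h3 := hrel k
          rw [Fintype.sum_option, hPn] at h3
          simp only [hPs] at h3
          exact h3)
      refine ⟨h2.1, ?_⟩
      rintro (_ | i)
      · exact h2.2.1
      · exact h2.2.2 i)
    hw (fun j => (coe_ov w (H.x0 j)).symm) hm'
  rw [Fintype.sum_option, hPn] at h1
  simp only [hPs] at h1
  exact h1

/-- The complement is klt. -/
theorem klt_phiZ (H : HypData y f) (hnd : NonDegZ v f g) {D' : Fin (e + 1) → Derivation ℂ L L}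
    {h : L} (R : ResForm y f D' h) (hg : ∀ i, aeval y (g i) ≠ 0) (hS0 : S ≠ 0)
    (hS : GenPos v f g S) {k q : ℕ} (hk : 2 ≤ k) (hq : 0 < q) {cq : Fin s → ℕ}
    (hcq : ∀ i, cq i < q) {σ : Fin (e + 2) → ℤ}
    (hlt : ∀ a, InCone v a → a ≠ 0 → NonMonoZ f a → ∃ γ ∈ S.support,
      wtZ a γ - ∑ i, σ i * a i < k * (q * (∑ i, a i - minWt f a) - ∑ i, cq i * minWt (g i) a))
    {w : AddValuation L (WithTop ℤ)} (hw : Q.IsDivisorial (e + 1) w)
    (hcone : InCone v (wts w y)) {m' : ℤ} (hm' : Q.FormOrder w D' m') :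
    ov w (phiOne y h g k q cq S σ) < k * q * (1 + m') := by
  classical
  have hxS := aeval_neZ H hS0 hS
  have hg0 : ∀ i, g i ≠ 0 := fun i h0 => hg i (by rw [h0, map_zero])
  have h1 := X_bound H R hg hS0 hS hw hcone hm'
  rw [ov_phiOne H.x0 R.h0 hg hxS]
  have hSl := ov_lower hw.const H.x0 hxS (isMinZ_minWt hS0 (wts w y))
  have hgl : ∀ i, minWt (g i) (wts w y) ≤ ov w (aeval y (g i)) := fun i =>
    ov_lower hw.const H.x0 (hg i) (isMinZ_minWt (hg0 i) (wts w y))
  have hkZ : (2 : ℤ) ≤ k := by exact_mod_cast hk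
  have hqZ : (1 : ℤ) ≤ q := by exact_mod_cast hq
  have hkq : (2 : ℤ) ≤ k * q := by nlinarith
  have hcqZ : ∀ i, (cq i : ℤ) + 1 ≤ q := fun i => by exact_mod_cast hcq i
  have hcq0 : ∀ i, (0 : ℤ) ≤ cq i := fun i => by positivity
  by_cases ha0 : wts w y = 0
  · have h2 := torus_boundZ R H.f0 (hnd.reg (inCone_zero v)) hw hm' (fun j => by
      rw [← coe_ov w (H.x0 j)]
      have : wts w y j = 0 := by rw [ha0]; rfl
      have h3 : ov w (y j) = 0 := this
      rw [h3]; rfl)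
    rw [ha0] at h1 hSl hgl
    rw [ha0]
    simp only [minWt_zero H.f0, minWt_zero hS0, minWt_zero (hg0 _), Pi.zero_apply,
      Finset.sum_const_zero, sub_zero, add_zero, mul_zero] at h1 hSl hgl ⊢
    have h3 : (k : ℤ) * ∑ i, (cq i : ℤ) * ov w (aeval y (g i)) ≤
        (k * q - 1) * ∑ i, ov w (aeval y (g i)) := by
      rw [Finset.mul_sum, Finset.mul_sum]
      refine Finset.sum_le_sum fun i _ => ?_
      have h4 : (k : ℤ) * cq i ≤ k * q - 1 := by
        have := hcqZ i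
        nlinarith
      calc (k : ℤ) * ((cq i : ℤ) * ov w (aeval y (g i))) = (k * cq i) * ov w (aeval y (g i)) := by
            ring
        _ ≤ _ := mul_le_mul_of_nonneg_right h4 (hgl i)
    have h4 : ov w (aeval y S) ≤ (k * q - 1) * ov w (aeval y S) := by nlinarith
    have h5 : ((k : ℤ) * q - 1) * (ov w (aeval y S) + ∑ i, ov w (aeval y (g i))) ≤
        (k * q - 1) * (1 + m' - ov w h) :=
      mul_le_mul_of_nonneg_left (by linarith) (by linarith)
    have h6 : (1 : ℤ) ≤ 1 + m' - ov w h := by linarith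
    nlinarith
  · have hnm : NonMonoZ f (wts w y) := nonMono_of_zeroZ hw.const H.f0 H.eqn
      (fun j => (coe_ov w (H.x0 j)).symm)
    obtain ⟨γ, hγ, hγ'⟩ := hlt _ hcone ha0 hnm
    have h3 := (isMinZ_minWt hS0 (wts w y)).2 γ hγ
    set a := wts w y with ha
    have h4 : (k : ℤ) * q * (ov w h + ∑ j, a j - minWt f a + ((ov w (aeval y S) - minWt S a) +
        ∑ i, (ov w (aeval y (g i)) - minWt (g i) a))) ≤ k * q * (1 + m') :=
      mul_le_mul_of_nonneg_left h1 (by linarith)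
    have h5 : (k : ℤ) * ∑ i, (cq i : ℤ) * ov w (aeval y (g i)) ≤
        k * ∑ i, (cq i : ℤ) * minWt (g i) a +
        k * q * ∑ i, (ov w (aeval y (g i)) - minWt (g i) a) := by
      have h6 : (k : ℤ) * ∑ i, (cq i : ℤ) * ov w (aeval y (g i)) =
          k * ∑ i, (cq i : ℤ) * minWt (g i) a +
          k * ∑ i, (cq i : ℤ) * (ov w (aeval y (g i)) - minWt (g i) a) := by
        rw [← mul_add, ← Finset.sum_add_distrib]
        congr 1
        exact Finset.sum_congr rfl fun i _ => by ring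
      rw [h6, mul_assoc (k : ℤ) q, add_le_add_iff_left]
      refine mul_le_mul_of_nonneg_left ?_ (by linarith)
      rw [Finset.mul_sum]
      refine Finset.sum_le_sum fun i _ => mul_le_mul_of_nonneg_right ?_ ?_
      · have := hcqZ i; linarith
      · have := hgl i; linarith
    have h7 : ov w (aeval y S) - minWt S a ≤ k * q * (ov w (aeval y S) - minWt S a) := by
      nlinarith
    nlinarith

/-- The complement is large. -/
theorem eff_phiZ (H : HypData y f) {D' : Fin (e + 1) → Derivation ℂ L L}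
    {h : L} (R : ResForm y f D' h) (hg : ∀ i, aeval y (g i) ≠ 0) (hS0 : S ≠ 0)
    (hS : GenPos v f g S) {k q : ℕ} {cq : Fin s → ℕ} {σ : Fin (e + 2) → ℤ} {B : ℚ}
    {w : AddValuation L (WithTop ℤ)} (hw : ∀ c : ℂ, c ≠ 0 → w (algebraMap ℂ L c) = 0)
    (hB : ∀ γ ∈ S.support, B ≤ ((wtZ (wts w y) γ - ∑ i, σ i * wts w y i : ℤ) : ℚ)) :
    (k : ℚ) * q * ov w h + k * ∑ i, cq i * (ov w (aeval y (g i)) : ℚ) + B ≤
      ov w (phiOne y h g k q cq S σ) := by
  have hxS := aeval_neZ H hS0 hS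
  rw [ov_phiOne H.x0 R.h0 hg hxS]
  have hSl := ov_lower hw H.x0 hxS (isMinZ_minWt hS0 (wts w y))
  obtain ⟨γ, hγ, hγ'⟩ := (isMinZ_minWt hS0 (wts w y)).1
  have h1 := hB γ hγ
  rw [hγ'] at h1
  push_cast at h1 ⊢
  have h2 : (minWt S (wts w y) : ℚ) ≤ ov w (aeval y S) := by exact_mod_cast hSl
  linarith

end Values

end Vale.Agent.P283.Z647
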