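import Vale.Agent.P283.Z647.Minor
import Vale.Agent.P283.H647.PsiV

/-!
Divisorial valuations attached to integral weights.
-/

set_option linter.all false

namespace Vale.Agent.P283.Z647

open MvPolynomial Finset
open Vale.Agent.P283.H647 hiding Adapted exists_adapted

variable {e : ℕ} {K L : Type} [Field K] [Field L] [Algebra ℂ K] [Algebra ℂ L] [Algebra K L]
  [IsScalarTower ℂ K L]
variable {x : Fin (e + 2) → L} {f : MvPolynomial (Fin (e + 2)) ℂ} {G : Subgroup (L ≃ₐ[ℂ] L)}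

/-- The initial form has no singular zeros in the torus. -/
def RegZ {N : ℕ} (f : MvPolynomial (Fin N) ℂ) (a : Fin N → ℤ) : Prop :=
  ∀ ξ : Fin N → ℂ, (∀ i, ξ i ≠ 0) → eval ξ (inFormZ f a) = 0 →
    ∃ i, eval ξ (pderiv i (inFormZ f a)) ≠ 0

/-- A lattice basis adapted to the weight `A`. -/
structure AdaptedZ (H : DiagData K x f G) (A : Fin (e + 2) → ℤ) (r c : ℕ)
    (b : Module.Basis (Fin (e + 2)) ℤ (AddSubgroup.toIntSubmodule H.lat)) : Prop where
  r0 : 0 < r
  c0 : 0 < c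
  zero : ∑ j, A j * vecs b 0 j = r * c
  ne : ∀ k, k ≠ 0 → ∑ j, A j * vecs b k j = 0

theorem exists_adaptedZ (H : DiagData K x f G) (A : Fin (e + 2) → ℤ) (hA0 : A ≠ 0) (r : ℕ)
    (hr : 0 < r) (hdvd : ∀ m ∈ H.lat, (r : ℤ) ∣ ∑ j, A j * m j) :
    ∃ (c : ℕ) (b : Module.Basis (Fin (e + 2)) ℤ (AddSubgroup.toIntSubmodule H.lat)),
      AdaptedZ H A r c b := by
  classical
  haveI : Finite G := H.fin
  have hr0 : (r : ℤ) ≠ 0 := by exact_mod_cast hr.ne'
  let ℓ : AddSubgroup.toIntSubmodule H.lat →ₗ[ℤ] ℤ :=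
    { toFun := fun m => (∑ j, A j * (m : Fin (e + 2) → ℤ) j) / r
      map_add' := fun m m' => by
        rw [← Int.add_ediv_of_dvd_left (hdvd _ m.2)]
        congr 1
        rw [← Finset.sum_add_distrib]
        exact Finset.sum_congr rfl fun j _ => by
          simp only [Submodule.coe_add, Pi.add_apply]; ring
      map_smul' := fun a m => by
        simp only [RingHom.id_apply, smul_eq_mul]
        rw [← Int.mul_ediv_assoc _ (hdvd _ m.2)]
        congr 1
        rw [Finset.mul_sum]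
        exact Finset.sum_congr rfl fun j _ => by
          simp only [Submodule.coe_smul, Pi.smul_apply, smul_eq_mul]; ring }
  have hℓ : ∀ m : AddSubgroup.toIntSubmodule H.lat,
      ∑ j, A j * (m : Fin (e + 2) → ℤ) j = r * ℓ m := fun m =>
    (Int.mul_ediv_cancel' (hdvd _ m.2)).symm
  have hmod : ∀ u, (Nat.card G : ℤ) • u ∈ AddSubgroup.toIntSubmodule H.lat := fun u =>
    H.card_mem u
  have hne : ℓ ≠ 0 := by
    obtain ⟨j, hj⟩ : ∃ j, A j ≠ 0 := by
      by_contra hno
      push Not at hno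
      exact hA0 (funext hno)
    intro h0
    have h1 := hℓ ⟨(Nat.card G : ℤ) • Pi.single j 1, hmod _⟩
    rw [h0, LinearMap.zero_apply, mul_zero] at h1
    simp only [Pi.smul_apply, smul_eq_mul, Pi.single_apply, mul_ite, mul_one, mul_zero,
      Finset.sum_ite_eq', Finset.mem_univ, if_true] at h1
    have h2 : (Nat.card G : ℤ) ≠ 0 := by exact_mod_cast Nat.card_pos.ne'
    rcases mul_eq_zero.1 h1 with h3 | h3
    · exact hj (by exact_mod_cast h3)
    · exact h2 h3
  obtain ⟨b, c, hc, hb0, hb⟩ := adapted_basis (AddSubgroup.toIntSubmodule H.lat) (Nat.card G)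
    Nat.card_pos hmod ℓ hne
  refine ⟨c, b, hr, hc, ?_, fun k hk => ?_⟩
  · have h1 := hℓ (b 0)
    rw [hb0] at h1
    exact h1
  · have h1 := hℓ (b k)
    rw [hb k hk, mul_zero] at h1
    exact h1

theorem AdaptedZ.weight {H : DiagData K x f G} {A : Fin (e + 2) → ℤ} {r c : ℕ}
    {b : Module.Basis (Fin (e + 2)) ℤ (AddSubgroup.toIntSubmodule H.lat)}
    (hb : AdaptedZ H A r c b) (n : Fin (e + 2) → ℤ) :
    ∑ j, A j * ∑ k, n k * vecs b k j = r * c * n 0 := by
  have h1 : ∑ j, A j * ∑ k, n k * vecs b k j = ∑ k, n k * ∑ j, A j * vecs b k j := by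
    simp only [Finset.mul_sum]
    rw [Finset.sum_comm]
    exact Finset.sum_congr rfl fun k _ => Finset.sum_congr rfl fun j _ => by ring
  rw [h1, Fin.sum_univ_succ, hb.zero, Finset.sum_eq_zero, add_zero]
  · ring
  · intro k _
    rw [hb.ne _ (Fin.succ_ne_zero k), mul_zero]

theorem AdaptedZ.weight_f {H : DiagData K x f G} {A : Fin (e + 2) → ℤ} {r c : ℕ}
    {b : Module.Basis (Fin (e + 2)) ℤ (AddSubgroup.toIntSubmodule H.lat)}
    (hb : AdaptedZ H A r c b) {α₀ α : Fin (e + 2) →₀ ℕ} (hα₀ : α₀ ∈ f.support)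
    (hα : α ∈ f.support) : wtZ A α = wtZ A α₀ + r * c * H.nf b α₀ α 0 := by
  rw [← hb.weight]
  unfold wtZ
  rw [← Finset.sum_add_distrib]
  refine Finset.sum_congr rfl fun j _ => ?_
  rw [H.nf_spec b hα₀ hα j]; ring

/-- The exponents of least weight have degree zero in the first coordinate. -/
theorem AdaptedZ.min_iff {H : DiagData K x f G} {A : Fin (e + 2) → ℤ} {r c : ℕ}
    {b : Module.Basis (Fin (e + 2)) ℤ (AddSubgroup.toIntSubmodule H.lat)}
    (hb : AdaptedZ H A r c b) {α₀ : Fin (e + 2) →₀ ℕ} (hα₀ : α₀ ∈ f.support) {m : ℤ}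
    (hm : IsMinZ f A m) {α : Fin (e + 2) →₀ ℕ} (hα : α ∈ f.support) :
    wtZ A α = m ↔ toE (shf f H.f0 (H.nf b α₀) + H.nf b α₀ α) 0 = 0 := by
  have h1 := toE_apply (shf_nonneg H.f0 (H.nf b α₀) α hα) 0
  obtain ⟨β, hβ, h2⟩ := shf_attained H.f0 (H.nf b α₀) 0
  obtain ⟨⟨γ, hγ, hγm⟩, hmin⟩ := hm
  have e1 := hb.weight_f hα₀ hα
  have e2 := hb.weight_f hα₀ hβ
  have e3 := hb.weight_f hα₀ hγ
  have hrc : (0 : ℤ) < r * c := by
    have := hb.r0; have := hb.c0; positivity
  rw [Pi.add_apply] at h1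
  have h4 := shf_nonneg H.f0 (H.nf b α₀) γ hγ 0
  simp only [Pi.zero_apply, Pi.add_apply] at h4
  have h5 := hmin β hβ
  have h6 := hmin α hα
  constructor
  · intro h
    have h7 : (r : ℤ) * c * H.nf b α₀ α 0 ≤ r * c * H.nf b α₀ β 0 := by
      have : wtZ A α ≤ wtZ A β := by rw [h]; exact_mod_cast h5
      linarith
    have h8 := le_of_mul_le_mul_left h7 hrc
    have h9 := shf_nonneg H.f0 (H.nf b α₀) α hα 0
    simp only [Pi.zero_apply, Pi.add_apply] at h9
    omega
  · intro h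
    rw [h] at h1
    have h7 : H.nf b α₀ α 0 ≤ H.nf b α₀ γ 0 := by push_cast at h1; omega
    have h8 : (r : ℤ) * c * H.nf b α₀ α 0 ≤ r * c * H.nf b α₀ γ 0 :=
      mul_le_mul_of_nonneg_left h7 hrc.le
    have h9 : wtZ A α ≤ wtZ A γ := by linarith
    rw [hγm] at h9
    have : wtZ A α ≤ m := by exact_mod_cast h9
    omega

/-- The initial form in the coordinates of the quotient. -/
theorem AdaptedZ.inForm_eq {H : DiagData K x f G} {A : Fin (e + 2) → ℤ} {r c : ℕ}
    {b : Module.Basis (Fin (e + 2)) ℤ (AddSubgroup.toIntSubmodule H.lat)}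
    (hb : AdaptedZ H A r c b) {α₀ : Fin (e + 2) →₀ ℕ} (hα₀ : α₀ ∈ f.support) {m : ℤ}
    (hm : IsMinZ f A m) {E : Type} [Field E] [Algebra ℂ E] (x' : Fin (e + 2) → E)
    (hx' : ∀ j, x' j ≠ 0) :
    aeval x' (inFormZ f A) = monoT x' (H.tauY b α₀) *
      aeval (fun k => monoT x' (vecs b k)) (red e (H.eqY b α₀)) := by
  classical
  have hsub : ∀ α ∈ (inFormZ f A).support, α ∈ f.support ∧ wtZ A α = m := by
    intro α hα
    rw [mem_support_iff, coeff_inFormZ hm] at hα
    by_cases h : wtZ A α = m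
    · rw [if_pos h] at hα; exact ⟨mem_support_iff.2 hα, h⟩
    · rw [if_neg h] at hα; exact absurd rfl hα
  have h1 := H647.exists_pull (vecs b) (inFormZ f A) (fun j => (α₀ j : ℤ)) (H.nf b α₀)
    (fun α hα j => H.nf_spec b hα₀ (hsub α hα).1 j) _
    (fun α hα => shf_nonneg H.f0 (H.nf b α₀) α (hsub α hα).1) x' hx'
  rw [h1]
  have h2 : (∑ α ∈ (inFormZ f A).support, monomial (toE (shf f H.f0 (H.nf b α₀) + H.nf b α₀ α))
      ((inFormZ f A).coeff α)) = red e (H.eqY b α₀) := by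
    unfold DiagData.eqY
    rw [map_sum]
    have h3 : (inFormZ f A).support = f.support.filter (fun α => wtZ A α = m) := by
      ext α
      rw [Finset.mem_filter]
      refine ⟨hsub α, fun h => ?_⟩
      rw [mem_support_iff, coeff_inFormZ hm, if_pos h.2]
      exact mem_support_iff.1 h.1
    rw [h3, Finset.sum_filter]
    refine Finset.sum_congr rfl fun α hα => ?_
    rw [red_monomial]
    have h4 := hb.min_iff hα₀ hm hα
    by_cases h5 : wtZ A α = m
    · rw [if_pos h5, if_pos (h4.1 h5), coeff_inFormZ hm, if_pos h5]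
    · rw [if_neg h5, if_neg (fun h => h5 (h4.2 h))]
  rw [h2]
  rfl

/-- Non-degeneracy in the coordinates of the quotient. -/
theorem AdaptedZ.squarefree {H : DiagData K x f G} {A : Fin (e + 2) → ℤ} (hnd : RegZ f A) {r c : ℕ}
    {b : Module.Basis (Fin (e + 2)) ℤ (AddSubgroup.toIntSubmodule H.lat)}
    (hb : AdaptedZ H A r c b) {α₀ : Fin (e + 2) →₀ ℕ} (hα₀ : α₀ ∈ f.support) {m : ℤ}
    (hm : IsMinZ f A m) {h g₁ : MvPolynomial (Fin (e + 2)) ℂ}
    (hh : ∀ t : Fin (e + 2) →₀ ℕ, ¬ h ∣ monomial t 1)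
    (hfac : red e (H.eqY b α₀) = h * (h * g₁)) : False := by
  classical
  obtain ⟨T, -, hT⟩ := exists_shift h.support (fun n => expo (vecs b) n)
  obtain ⟨T', -, hT'⟩ := exists_shift g₁.support (fun n => expo (vecs b) n)
  obtain ⟨ξ, hξ, hξ0⟩ := exists_torus_zero (vecs b) (vecs_indep b) h hh T hT
  set ht := push (vecs b) T h with hht
  set gt := push (vecs b) T' g₁ with hgt
  set I := inFormZ f A with hI
  -- the fraction field
  let 𝕂 := FractionRing (MvPolynomial (Fin (e + 2)) ℂ)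
  let x' : Fin (e + 2) → 𝕂 := fun j => algebraMap (MvPolynomial (Fin (e + 2)) ℂ) 𝕂 (X j)
  have hx' : ∀ j, x' j ≠ 0 := fun j => by
    simp only [x']
    rw [Ne, IsFractionRing.to_map_eq_zero_iff]
    exact X_ne_zero j
  have hev : ∀ p : MvPolynomial (Fin (e + 2)) ℂ, aeval x' p = algebraMap _ 𝕂 p := by
    intro p
    have h2 : x' = (algebraMap (MvPolynomial (Fin (e + 2)) ℂ) 𝕂) ∘ X := rfl
    rw [h2, MvPolynomial.aeval_algebraMap_apply (R := ℂ) (A := MvPolynomial (Fin (e + 2)) ℂ) 𝕂 X p,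
      aeval_X_left_apply]
  let ρ : Fin (e + 2) → ℤ := H.tauY b α₀ - T - T - T'
  obtain ⟨a, ha0, ha⟩ := exists_shift ({()} : Finset Unit) (fun _ => ρ)
  have ha' : 0 ≤ a + ρ := ha () (Finset.mem_singleton_self _)
  have hid : monomial (toE a) (1 : ℂ) * I = monomial (toE (a + ρ)) (1 : ℂ) * (ht * (ht * gt)) := by
    apply IsFractionRing.injective (MvPolynomial (Fin (e + 2)) ℂ) 𝕂
    rw [← hev, ← hev, map_mul, map_mul, map_mul, map_mul, hb.inForm_eq hα₀ hm x' hx', hfac,
      hht, hgt, aeval_push x' hx' (vecs b) T h hT, aeval_push x' hx' (vecs b) T' g₁ hT',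
      map_mul, map_mul]
    have hmon : ∀ {u : Fin (e + 2) → ℤ}, 0 ≤ u → aeval x' (monomial (toE u) (1 : ℂ)) =
        monoT x' u := by
      intro u hu
      rw [aeval_monomial, Finsupp.prod_fintype _ _ (by simp), monoT_toE x' hx' hu, map_one,
        one_mul]
    rw [hmon ha0, hmon ha']
    have e1 : monoT x' (a + ρ) * (monoT x' T * (monoT x' T * monoT x' T')) =
        monoT x' a * monoT x' (H.tauY b α₀) := by
      rw [← monoT_add hx', ← monoT_add hx', ← monoT_add hx', ← monoT_add hx']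
      congr 1
      simp only [ρ]; abel
    linear_combination (-(aeval (fun k => monoT x' (vecs b k)) h *
      (aeval (fun k => monoT x' (vecs b k)) h * aeval (fun k => monoT x' (vecs b k)) g₁))) * e1
  have hmonξ : ∀ t : Fin (e + 2) →₀ ℕ, eval ξ (monomial t (1 : ℂ)) ≠ 0 := by
    intro t
    rw [eval_monomial, one_mul, Finsupp.prod]
    exact Finset.prod_ne_zero_iff.2 fun i _ => pow_ne_zero _ (hξ i)
  have hI0 : eval ξ I = 0 := by
    have h1 := congrArg (eval ξ) hid
    rw [map_mul, map_mul, map_mul, hξ0, zero_mul, mul_zero] at h1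
    exact (mul_eq_zero.1 h1).resolve_left (hmonξ _)
  obtain ⟨i, hi⟩ := hnd ξ hξ hI0
  apply hi
  have h1 := congrArg (fun p => eval ξ (pderiv i p)) hid
  simp only [Derivation.leibniz, smul_eq_mul, map_add, map_mul, hξ0, hI0, zero_mul, mul_zero,
    add_zero, zero_add] at h1
  exact (mul_eq_zero.1 h1).resolve_left (hmonξ _)

/-- The quotient is a hypersurface in a torus with the required properties. -/
theorem AdaptedZ.torusHyp {H : DiagData K x f G} {A : Fin (e + 2) → ℤ} (hnd : RegZ f A) {r c : ℕ}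
    {b : Module.Basis (Fin (e + 2)) ℤ (AddSubgroup.toIntSubmodule H.lat)}
    (hb : AdaptedZ H A r c b) {α₀ : Fin (e + 2) →₀ ℕ} (hα₀ : α₀ ∈ f.support) {m : ℤ}
    (hm : IsMinZ f A m) {α β : Fin (e + 2) →₀ ℕ} (hα : α ∈ f.support) (hβ : β ∈ f.support)
    (hαm : wtZ A α = m) (hβm : wtZ A β = m) (hαβ : α ≠ β) {y : Fin (e + 2) → K}
    (hy : ∀ k, algebraMap K L (y k) = monoT x (vecs b k)) :
    ∃ h g₀ : MvPolynomial (Fin (e + 2)) ℂ, TorusHyp y (H.eqY b α₀) h g₀ := by
  classical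
  set F := H.eqY b α₀ with hF
  have hsupp : ∀ γ ∈ f.support, wtZ A γ = m →
      toE (shf f H.f0 (H.nf b α₀) + H.nf b α₀ γ) ∈ (red e F).support := by
    intro γ hγ hγm
    rw [mem_support_iff, coeff_red, if_pos ((hb.min_iff hα₀ hm hγ).1 hγm), hF,
      H.coeff_eqY b hα₀ hγ]
    exact mem_support_iff.1 hγ
  have hne : toE (shf f H.f0 (H.nf b α₀) + H.nf b α₀ α) ≠
      toE (shf f H.f0 (H.nf b α₀) + H.nf b α₀ β) := by
    intro h
    apply hαβ
    have h1 := toE_inj (shf_nonneg H.f0 (H.nf b α₀) α hα) (shf_nonneg H.f0 (H.nf b α₀) β hβ) h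
    exact H.nf_inj b hα₀ hα hβ (add_left_cancel h1)
  obtain ⟨h, hirr, ⟨g₀, hg₀⟩, hnom⟩ := irr_factor (red e F) (hsupp α hα hαm) (hsupp β hβ hβm) hne
  have hredF0 : red e F ≠ 0 := by
    intro h0
    have h1 := hsupp α hα hαm
    rw [h0, support_zero] at h1
    exact absurd h1 (Finset.notMem_empty _)
  have hg₀0 : g₀ ≠ 0 := by rintro rfl; rw [mul_zero] at hg₀; exact hredF0 hg₀
  have hdeg : degreeOf 0 (red e F) = degreeOf 0 h + degreeOf 0 g₀ := by
    rw [hg₀, degreeOf_mul_eq hirr.ne_zero hg₀0]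
  have hdeg0 : degreeOf 0 (red e F) = 0 := by
    rw [← Nat.le_zero, degreeOf_le_iff]
    intro γ hγ
    rw [mem_support_iff, coeff_red] at hγ
    by_contra hne
    rw [if_neg (by omega)] at hγ
    exact hγ rfl
  have hredid : ∀ p : MvPolynomial (Fin (e + 2)) ℂ, degreeOf 0 p = 0 → red e p = p := by
    intro p hp
    ext γ
    rw [coeff_red]
    split_ifs with h0
    · rfl
    · by_contra hne
      have h1 := monomial_le_degreeOf 0 (mem_support_iff.2 (Ne.symm hne))
      omega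
  refine ⟨h, g₀, ?_, H.gen_y b hy, ?_, H.ker_y b hα₀ hy, hg₀, hredid h (by omega),
    hredid g₀ (by omega), hirr, hnom, ?_⟩
  · intro k h0
    have h1 := hy k
    rw [h0, map_zero] at h1
    exact monoT_ne_zero H.x0 _ h1.symm
  · apply (algebraMap K L).injective
    rw [map_zero, aeval_map_y hy]
    have h1 := H.f_eq b hα₀ x H.x0
    rw [H.eqn] at h1
    exact (mul_eq_zero.1 h1.symm).resolve_left (monoT_ne_zero H.x0 _)
  · rintro ⟨g₁, rfl⟩
    exact hb.squarefree hnd hα₀ hm hnom hg₀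

/-- The divisorial valuation attached to a weight with non-monomial initial form. -/
theorem psi_valZ (H : DiagData K x f G) (A : Fin (e + 2) → ℤ) (hnd : RegZ f A) (hA0 : A ≠ 0) (r : ℕ)
    (hr : 0 < r) (hdvd : ∀ m ∈ H.lat, (r : ℤ) ∣ ∑ j, A j * m j) {m : ℤ}
    (hm : IsMinZ f A m) {α β : Fin (e + 2) →₀ ℕ} (hα : α ∈ f.support) (hβ : β ∈ f.support)
    (hαm : wtZ A α = m) (hβm : wtZ A β = m) (hαβ : α ≠ β) :
    ∃ (c e₀ : ℕ) (v : AddValuation K (WithTop ℤ)) (w : AddValuation L (WithTop ℤ)), 0 < c ∧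
      0 < e₀ ∧ Q.IsDivisorial (e + 1) v ∧ Q.IsDivisorial (e + 1) w ∧
      (∀ g : K, w (algebraMap K L g) = e₀ • v g) ∧
      (∀ j, (r * c : ℤ) * ov w (x j) = e₀ * A j) ∧
      ∀ (D' : Fin (e + 1) → Derivation ℂ L L) (h : L), ResForm x f D' h →
        ∀ m', Q.FormOrder w D' m' → (r * c : ℤ) * (1 + m' - ov w h) = e₀ * (∑ j, A j - m) := by
  classical
  obtain ⟨c, b, hb⟩ := exists_adaptedZ H A hA0 r hr hdvd
  have hyex : ∀ k, ∃ y : K, algebraMap K L y = monoT x (vecs b k) := by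
    intro k
    have h1 : monoT x (vecs b k) ∈ Set.range (algebraMap K L) :=
      (H.fix _).2 fun τ hτ => vecs_mem b k τ hτ
    exact h1
  choose y hy using hyex
  obtain ⟨h, g₀, TH⟩ := hb.torusHyp hnd hα hm hα hβ hαm hβm hαβ hy
  obtain ⟨v, i, hi, hv, hv0, hvk, hvF, hres⟩ := TH.main
  have HY : HypData x f := H.hyp
  have halg : Algebra.IsAlgebraic K L := isAlgebraic_of_fix H.fin H.fix
  haveI := halg
  haveI : CharZero K := charZero_of_injective_algebraMap (algebraMap ℂ K).injective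
  haveI : FiniteDimensional K L := HY.finDim halg
  haveI hessL := HY.ess
  haveI hessK := HY.essK halg
  obtain ⟨w, e₀, he₀, hw1, hvw⟩ := exists_extension (L := L) v hv.normalized
  have hw : Q.IsDivisorial (e + 1) w :=
    divisorial_iff.2 (isDivisorial_of_ext (divisorial_iff.1 hv) hw1 hvw)
  have he₀' : (e₀ : ℤ) ≠ 0 := by exact_mod_cast he₀.ne'
  set yL : Fin (e + 2) → L := fun k => monoT x (vecs b k) with hyL
  have hyL0 : ∀ k, yL k ≠ 0 := fun k => monoT_ne_zero H.x0 _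
  have hy0 : ∀ k, y k ≠ 0 := TH.y0
  have hoy0 : ov w (yL 0) = e₀ := by
    simp only [hyL]
    rw [← hy 0, ov_algebraMap hvw (hy0 0), ov_eq_of v (n := 1) (by simpa using hv0), mul_one]
  have hoyk : ∀ k, k ≠ 0 → ov w (yL k) = 0 := by
    intro k hk
    simp only [hyL]
    rw [← hy k, ov_algebraMap hvw (hy0 k), ov_eq_of v (n := 0) (by simpa using hvk k hk), mul_zero]
  have hX : ∀ k, ∑ j, vecs b k j * ov w (x j) = ov w (yL k) := fun k => (ov_monoT w H.x0 _).symm
  have hlin : ∀ n : Fin (e + 2) → ℤ, ∑ j, (∑ k, n k * vecs b k j) * ov w (x j) = n 0 * e₀ := by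
    intro n
    have h1 : ∑ j, (∑ k, n k * vecs b k j) * ov w (x j) =
        ∑ k, n k * ∑ j, vecs b k j * ov w (x j) := by
      simp only [Finset.mul_sum, Finset.sum_mul]
      rw [Finset.sum_comm]
      exact Finset.sum_congr rfl fun k _ => Finset.sum_congr rfl fun j _ => by ring
    rw [h1, Fin.sum_univ_succ, hX, hoy0, Finset.sum_eq_zero, add_zero]
    intro k _
    rw [hX, hoyk _ (Fin.succ_ne_zero k), mul_zero]
  haveI := H.fin
  have hxj : ∀ j, (r * c : ℤ) * ov w (x j) = e₀ * A j := by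
    intro j
    have hmem := H.card_mem (Pi.single j 1)
    have h1 : ∀ j', ((Nat.card G : ℤ) • (Pi.single j 1 : Fin (e + 2) → ℤ)) j' =
        ∑ k, rep b ((Nat.card G : ℤ) • Pi.single j 1) k * vecs b k j' := rep_spec b hmem
    have h2 := hlin (rep b ((Nat.card G : ℤ) • Pi.single j 1))
    have h3 := hb.weight (rep b ((Nat.card G : ℤ) • Pi.single j 1))
    simp only [← h1] at h2 h3
    simp only [Pi.smul_apply, smul_eq_mul, Pi.single_apply, mul_ite, mul_one, mul_zero, ite_mul,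
      zero_mul, Finset.sum_ite_eq', Finset.mem_univ, if_true] at h2 h3
    have h4 : (Nat.card G : ℤ) ≠ 0 := by exact_mod_cast Nat.card_pos.ne'
    apply mul_left_cancel₀ h4
    have h5 : (Nat.card G : ℤ) * (r * c * ov w (x j)) = r * c * (Nat.card G * ov w (x j)) := by ring
    rw [h5, h2]
    linear_combination (-(e₀ : ℤ)) * h3
  -- the order of the residue form
  obtain ⟨β', hβ'⟩ := gen_trbasis (HY.trdegK halg)
  obtain ⟨BK, hBK⟩ := exists_kaehler_basis _ hβ'
  let D₀ : Fin (e + 1) → Derivation ℂ K K := fun i => pd BK i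
  have hD₀ : Q.jac D₀ β' ≠ 0 := by
    have h1 : (Matrix.of fun i j => D₀ j (β' i)) = (1 : Matrix (Fin (e + 1)) (Fin (e + 1)) K) := by
      ext i j
      rw [Matrix.of_apply, Matrix.one_apply]
      exact pd_self BK hBK i j
    unfold Q.jac
    rw [h1, Matrix.det_one]
    exact one_ne_zero
  obtain ⟨D₁, hD₁⟩ := exists_ext (L := L) HY.trdeg D₀
  have hD₁' : ∃ g, Q.jac D₁ g ≠ 0 := ⟨_, by rw [jac_map hD₁]; exact (map_ne_zero _).2 hD₀⟩
  obtain ⟨h₀, R₀⟩ := HY.exists_resForm hD₁'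
  obtain ⟨mv, hmv⟩ := order_exists (Nat.succ_pos e) (HY.trdegK halg) D₀ ⟨_, hD₀⟩ hv
  obtain ⟨mw, hmw⟩ := order_exists (Nat.succ_pos e) HY.trdeg D₁ hD₁' hw
  have htrans := order_transfer (Nat.succ_pos e) (HY.trdegK halg) HY.trdeg ⟨_, hD₀⟩ hD₁ hv hw1 he₀
    hvw hmv hmw
  obtain ⟨hj0, hmv'⟩ := order_params (HY.trdegK halg) ⟨_, hD₀⟩ hmv (y 0)
    (fun k => y (i.succAbove k.succ)) hv0 hres
  have hcons : (Fin.cons (y 0) (fun k => y (i.succAbove k.succ)) : Fin (e + 1) → K) =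
      fun l => y (i.succAbove l) := by
    funext l
    refine Fin.cases ?_ (fun k => ?_) l
    · rw [Fin.cons_zero, Fin.succAbove_ne_zero_zero hi]
    · rw [Fin.cons_succ]
  rw [hcons] at hj0 hmv'
  let U : Fin (e + 1) → Fin (e + 2) → L := fun l j => (vecs b (i.succAbove l) j : L)
  have hform := R₀.formula (fun l => yL (i.succAbove l)) U (fun l k => by
    simp only [hyL, U]
    exact dlog_monoT (D₁ k) H.x0 _)
  have hjacL : Q.jac D₁ (fun l => yL (i.succAbove l)) =
      algebraMap K L (Q.jac D₀ (fun l => y (i.succAbove l))) := by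
    rw [← jac_map hD₁]
    congr 1
    funext l
    exact (hy _).symm
  -- the determinant
  let τ := H.tauY b α
  let η : Fin (e + 2) → L := fun k => yL k * aeval yL (pderiv k (H.eqY b α))
  let A₁ : Matrix (Fin (e + 2)) (Fin (e + 2)) L :=
    Matrix.of (Fin.cons (fun j => (vecs b i j : L)) U : Fin (e + 2) → Fin (e + 2) → L)
  let cc : Fin (e + 2) → L := Fin.cons (monoT x τ * η i) (fun l => monoT x τ * η (i.succAbove l))
  have hdet : (Matrix.of (Fin.cons (fun j => x j * aeval x (pderiv j f)) U :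
      Fin (e + 2) → Fin (e + 2) → L)).det = (monoT x τ * η i) * A₁.det := by
    have h1 : (Matrix.of (Fin.cons (fun j => x j * aeval x (pderiv j f)) U :
        Fin (e + 2) → Fin (e + 2) → L)) = A₁.updateRow 0 (∑ k, cc k • A₁ k) := by
      ext l j
      rw [Matrix.updateRow_apply]
      refine Fin.cases ?_ (fun l => ?_) l
      · have hR : (∑ k, cc k • A₁ k) j = monoT x τ * η i * (vecs b i j : L) +
            ∑ l, monoT x τ * η (i.succAbove l) * (vecs b (i.succAbove l) j : L) := by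
          rw [Finset.sum_apply, Fin.sum_univ_succ]
          simp only [cc, A₁, U, Pi.smul_apply, Matrix.of_apply, smul_eq_mul, Fin.cons_zero,
            Fin.cons_succ]
        rw [if_pos rfl, Matrix.of_apply, Fin.cons_zero, H.theta b hα j, hR,
          Fin.sum_univ_succAbove _ i]
        rw [mul_add, Finset.mul_sum]
        congr 1
        · simp only [η, hyL, τ]; ring
        · refine Finset.sum_congr rfl fun l _ => ?_
          simp only [η, hyL, τ]; ring
      · rw [if_neg (Fin.succ_ne_zero l), Matrix.of_apply, Fin.cons_succ]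
        simp only [A₁, Matrix.of_apply, Fin.cons_succ]
    rw [h1, Matrix.det_updateRow_sum, smul_eq_mul]
    simp only [cc, Fin.cons_zero]
  rw [hdet, hjacL] at hform
  have hxprod : (∏ j, x j) ≠ 0 := Finset.prod_ne_zero_iff.2 fun j _ => H.x0 j
  have hyprod : (∏ l, yL (i.succAbove l)) ≠ 0 := Finset.prod_ne_zero_iff.2 fun j _ => hyL0 _
  have hjL0 : algebraMap K L (Q.jac D₀ (fun l => y (i.succAbove l))) ≠ 0 :=
    (map_ne_zero _).2 hj0
  have hlhs : h₀ * (∏ j, x j) * algebraMap K L (Q.jac D₀ (fun l => y (i.succAbove l))) ≠ 0 :=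
    mul_ne_zero (mul_ne_zero R₀.h0 hxprod) hjL0
  have hrhs : (monoT x τ * η i) * A₁.det ≠ 0 := by
    intro h0
    rw [h0, mul_zero] at hform
    exact hlhs hform
  have hη : η i ≠ 0 := right_ne_zero_of_mul (left_ne_zero_of_mul hrhs)
  have hA₁ : A₁.det ≠ 0 := right_ne_zero_of_mul hrhs
  have hmτ : monoT x τ ≠ 0 := monoT_ne_zero H.x0 _
  have hA₁v : ov w A₁.det = 0 := by
    let Z : Matrix (Fin (e + 2)) (Fin (e + 2)) ℤ :=
      Matrix.of (Fin.cons (vecs b i) (fun l => vecs b (i.succAbove l)))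
    have h1 : A₁ = Z.map (Int.cast : ℤ → L) := by
      ext l j
      rw [Matrix.map_apply]
      refine Fin.cases ?_ (fun l => ?_) l
      · simp only [A₁, Z, Matrix.of_apply, Fin.cons_zero]
      · simp only [A₁, Z, U, Matrix.of_apply, Fin.cons_succ]
    have h2 : A₁.det = algebraMap ℂ L (Z.det : ℂ) := by
      rw [h1]
      have h3 := (Int.castRingHom L).map_det Z
      have h4 : (Int.castRingHom L).mapMatrix Z = Z.map (Int.cast : ℤ → L) := rfl
      rw [h4] at h3
      rw [← h3]; simp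
    have h3 : (Z.det : ℂ) ≠ 0 := by
      intro h0
      rw [h0, map_zero] at h2
      exact hA₁ h2
    apply ov_eq_of
    rw [h2, hw.const _ h3]; rfl
  have hηv : ov w (η i) = 0 := by
    have h1 : aeval yL (pderiv i (H.eqY b α)) = algebraMap K L (aeval y (pderiv i (H.eqY b α))) :=
      (aeval_map_y hy _).symm
    have h2 : aeval y (pderiv i (H.eqY b α)) ≠ 0 := ne_zero_of_val_zero v hvF
    have h3 : ov v (aeval y (pderiv i (H.eqY b α))) = 0 := ov_eq_of v (by simpa using hvF)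
    have h4 : aeval yL (pderiv i (H.eqY b α)) ≠ 0 := by rw [h1]; exact (map_ne_zero _).2 h2
    simp only [η]
    rw [ov_mul w (hyL0 i) h4, hoyk i hi, h1, ov_algebraMap hvw h2, h3, mul_zero, add_zero]
  have hval := congrArg (ov w) hform
  rw [ov_mul w (mul_ne_zero R₀.h0 hxprod) hjL0, ov_mul w R₀.h0 hxprod,
    ov_prod _ _ fun j _ => H.x0 j, ov_algebraMap hvw hj0, ov_mul w hyprod hrhs,
    ov_prod _ _ fun l _ => hyL0 _, ov_mul w (mul_ne_zero hmτ hη) hA₁, ov_mul w hmτ hη, hηv,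
    hA₁v, ov_monoT w H.x0] at hval
  have hsumy : ∑ l, ov w (yL (i.succAbove l)) = e₀ := by
    have h1 := Fin.sum_univ_succAbove (fun k => ov w (yL k)) i
    rw [hoyk i hi, zero_add, Fin.sum_univ_succ, hoy0, Finset.sum_eq_zero, add_zero] at h1
    · exact h1.symm
    · intro k _; exact hoyk _ (Fin.succ_ne_zero k)
  rw [hsumy] at hval
  have hjv : ov v (Q.jac D₀ (fun l => y (i.succAbove l))) = - mv := by rw [hmv']; ring
  rw [hjv] at hval
  -- the weight of the monomial factor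
  have hAτ : ∑ j, A j * τ j = m := by
    have h1 := hb.weight (shf f H.f0 (H.nf b α))
    have h2 := (hb.min_iff hα hm hα).1 hαm
    have h3 := toE_apply (shf_nonneg H.f0 (H.nf b α) α hα) 0
    rw [h2] at h3
    have h4 : H.nf b α α = 0 := by
      have h5 : (fun j => ((α j : ℤ)) - α j) = (0 : Fin (e + 2) → ℤ) := by funext j; simp
      simp only [DiagData.nf, h5, rep]
      rw [dif_pos H.lat.zero_mem]
      funext k
      have h6 : (⟨0, H.lat.zero_mem⟩ : AddSubgroup.toIntSubmodule H.lat) = 0 := rfl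
      rw [h6, map_zero]; rfl
    rw [h4, add_zero] at h3
    rw [← h3] at h1
    push_cast at h1
    rw [mul_zero] at h1
    have h5 : ∑ j, A j * τ j = wtZ A α -
        ∑ j, A j * ∑ k, shf f H.f0 (H.nf b α) k * vecs b k j := by
      simp only [τ, DiagData.tauY, mul_sub, Finset.sum_sub_distrib, wt]
      push_cast
      rfl
    rw [h5, h1, hαm]; ring
  refine ⟨c, e₀, v, w, hb.c0, he₀, hv, hw, hvw, hxj, fun D' h R m' hm' => ?_⟩
  have hrho := HY.rho_indep (Nat.succ_pos e) R R₀ hw hm' hmw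
  have k1 : 1 + m' - ov w h = ∑ j, ov w (x j) - ∑ j, τ j * ov w (x j) := by
    have : (e₀ : ℤ) * -mv = - (e₀ * mv) := by ring
    have h2 : (e₀ : ℤ) * (1 + mv) = e₀ + e₀ * mv := by ring
    rw [h2] at htrans
    rw [this] at hval
    omega
  rw [k1, mul_sub, Finset.mul_sum, Finset.mul_sum]
  have k2 : ∑ j, (r * c : ℤ) * ov w (x j) = e₀ * ∑ j, A j := by
    rw [Finset.mul_sum]; exact Finset.sum_congr rfl fun j _ => hxj j
  have k3 : ∑ j, (r * c : ℤ) * (τ j * ov w (x j)) = e₀ * m := by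
    rw [← hAτ, Finset.mul_sum]
    refine Finset.sum_congr rfl fun j _ => ?_
    linear_combination (τ j) * hxj j
  rw [k2, k3]; ring

end Vale.Agent.P283.Z647
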