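import Vale.Agent.P283.Z647.Ext
import Vale.Agent.P283.Z647.THZ

/-!
Log discrepancies along toric valuations.
-/

set_option linter.all false

namespace Vale.Agent.P283.Z647

open MvPolynomial Finset
open Vale.Agent.P283.H647 (ResForm HypData DiagData order_exists order_unique)

variable {m N s M : ℕ}

theorem isMinZ_minWt {f : MvPolynomial (Fin m) ℂ} (hf : f ≠ 0) (a : Fin m → ℤ) :
    IsMinZ f a (minWt f a) := by
  obtain ⟨μ, hμ⟩ := exists_isMinZ hf a
  have h1 : minWt f a = μ := by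
    obtain ⟨⟨α, hα, hαμ⟩, hmin⟩ := hμ
    haveI : Nonempty {α // α ∈ f.support} := ⟨⟨α, hα⟩⟩
    haveI : Finite {α // α ∈ f.support} := inferInstance
    unfold minWt
    apply le_antisymm
    · rw [← hαμ]
      exact ciInf_le (f := fun α : {α // α ∈ f.support} => wtZ a α)
        (Set.finite_range _).bddBelow ⟨α, hα⟩
    · exact le_ciInf fun β => hmin β.1 β.2
  rw [h1]; exact hμ

theorem ordMono_le (E : Fin (M + 1) → Fin m → ℤ) (a : Fin m → ℤ) (i : Fin (M + 1)) :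
    ordMono E a ≤ ∑ k, E i k * a k :=
  ciInf_le (f := fun i => ∑ k, E i k * a k) (Set.finite_range _).bddBelow i

theorem le_ordMono (E : Fin (M + 1) → Fin m → ℤ) (a : Fin m → ℤ) (b : ℤ)
    (h : ∀ i, b ≤ ∑ k, E i k * a k) : b ≤ ordMono E a := le_ciInf h

theorem ordMono_attained (E : Fin (M + 1) → Fin m → ℤ) (a : Fin m → ℤ) :
    ∃ i, ordMono E a = ∑ k, E i k * a k := by
  obtain ⟨i, hi⟩ := exists_eq_ciInf_of_finite (f := fun i => ∑ k, E i k * a k)
  exact ⟨i, hi.symm⟩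

theorem ordMono_comb (E : Fin (M + 1) → Fin m → ℤ) (a b : Fin m → ℤ) (k p : ℕ) :
    k * ordMono E a + p * ordMono E b ≤ ordMono E (fun i => (k : ℤ) * a i + (p : ℤ) * b i) := by
  apply le_ordMono
  intro i
  have h1 : ∑ j, E i j * ((k : ℤ) * a j + (p : ℤ) * b j) =
      k * ∑ j, E i j * a j + p * ∑ j, E i j * b j := by
    rw [Finset.mul_sum, Finset.mul_sum, ← Finset.sum_add_distrib]
    exact Finset.sum_congr rfl fun j _ => by ring
  rw [h1]
  exact add_le_add (mul_le_mul_of_nonneg_left (ordMono_le E a i) (by positivity))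
    (mul_le_mul_of_nonneg_left (ordMono_le E b i) (by positivity))

theorem minWt_comb {f : MvPolynomial (Fin m) ℂ} (hf : f ≠ 0) (a b : Fin m → ℤ) (k p : ℕ) :
    k * minWt f a + p * minWt f b ≤ minWt f (fun i => (k : ℤ) * a i + (p : ℤ) * b i) := by
  obtain ⟨⟨α, hα, hα'⟩, -⟩ := isMinZ_minWt hf (fun i => (k : ℤ) * a i + (p : ℤ) * b i)
  rw [← hα', wtZ_comb]
  exact add_le_add (mul_le_mul_of_nonneg_left ((isMinZ_minWt hf a).2 α hα) (by positivity))
    (mul_le_mul_of_nonneg_left ((isMinZ_minWt hf b).2 α hα) (by positivity))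

theorem ordMono_smul (E : Fin (M + 1) → Fin m → ℤ) (a A : Fin m → ℤ) (k : ℕ)
    (hA : ∀ i, (k : ℤ) * a i = A i) : ordMono E A = k * ordMono E a := by
  have h1 : ∀ i, ∑ j, E i j * A j = k * ∑ j, E i j * a j := by
    intro i
    rw [Finset.mul_sum]
    exact Finset.sum_congr rfl fun j _ => by rw [← hA]; ring
  apply le_antisymm
  · obtain ⟨i, hi⟩ := ordMono_attained E a
    rw [hi, ← h1]; exact ordMono_le E A i
  · apply le_ordMono
    intro i
    rw [h1]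
    exact mul_le_mul_of_nonneg_left (ordMono_le E a i) (by positivity)

theorem wtZ_smul (a A : Fin m → ℤ) (k : ℕ) (hA : ∀ i, (k : ℤ) * a i = A i) (γ : Fin m →₀ ℕ) :
    wtZ A γ = k * wtZ a γ := by
  unfold wtZ
  rw [Finset.mul_sum]
  exact Finset.sum_congr rfl fun i _ => by rw [← hA]; ring

theorem minWt_smul {f : MvPolynomial (Fin m) ℂ} (hf : f ≠ 0) (a A : Fin m → ℤ) (k : ℕ)
    (hA : ∀ i, (k : ℤ) * a i = A i) : minWt f A = k * minWt f a := by
  refine (isMinZ_minWt hf A).unique ⟨?_, ?_⟩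
  · obtain ⟨⟨α, hα, hα'⟩, -⟩ := isMinZ_minWt hf a
    exact ⟨α, hα, by rw [wtZ_smul a A k hA, hα']⟩
  · intro β hβ
    rw [wtZ_smul a A k hA]
    exact mul_le_mul_of_nonneg_left ((isMinZ_minWt hf a).2 β hβ) (by positivity)

/-- The contribution of the boundary. -/
noncomputable def Phi (g : Fin s → MvPolynomial (Fin m) ℂ) (c : Fin s → ℚ) (r : ℕ)
    (E : Fin (M + 1) → Fin m → ℤ) (a : Fin m → ℤ) : ℝ :=
  ∑ i, (c i : ℝ) * minWt (g i) a + (ordMono E a : ℝ) / r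

theorem Phi_comb {g : Fin s → MvPolynomial (Fin m) ℂ} (hg : ∀ i, g i ≠ 0) {c : Fin s → ℚ}
    (hc : ∀ i, 0 ≤ c i) (r : ℕ) (E : Fin (M + 1) → Fin m → ℤ) (a b : Fin m → ℤ) (k p : ℕ) :
    k * Phi g c r E a + p * Phi g c r E b ≤
      Phi g c r E (fun i => (k : ℤ) * a i + (p : ℤ) * b i) := by
  unfold Phi
  have h1 : k * (∑ i, (c i : ℝ) * minWt (g i) a + (ordMono E a : ℝ) / r) +
      p * (∑ i, (c i : ℝ) * minWt (g i) b + (ordMono E b : ℝ) / r) =
      ∑ i, (c i : ℝ) * (k * minWt (g i) a + p * minWt (g i) b) +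
      (k * ordMono E a + p * ordMono E b : ℝ) / r := by
    have h2 : ∑ i, (c i : ℝ) * (k * minWt (g i) a + p * minWt (g i) b) =
        k * ∑ i, (c i : ℝ) * minWt (g i) a + p * ∑ i, (c i : ℝ) * minWt (g i) b := by
      rw [Finset.mul_sum, Finset.mul_sum, ← Finset.sum_add_distrib]
      exact Finset.sum_congr rfl fun i _ => by ring
    rw [h2]; ring
  rw [h1]
  refine add_le_add (Finset.sum_le_sum fun i _ => mul_le_mul_of_nonneg_left ?_ ?_) ?_
  · exact_mod_cast minWt_comb (hg i) a b k p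
  · exact_mod_cast hc i
  · refine div_le_div_of_nonneg_right ?_ (Nat.cast_nonneg r)
    exact_mod_cast ordMono_comb E a b k p

theorem Phi_smul {g : Fin s → MvPolynomial (Fin m) ℂ} (hg : ∀ i, g i ≠ 0) (c : Fin s → ℚ)
    (r : ℕ) (E : Fin (M + 1) → Fin m → ℤ) (a A : Fin m → ℤ) (k : ℕ)
    (hA : ∀ i, (k : ℤ) * a i = A i) : Phi g c r E A = k * Phi g c r E a := by
  unfold Phi
  rw [ordMono_smul E a A k hA, mul_add, Finset.mul_sum]
  congr 1
  · refine Finset.sum_congr rfl fun i _ => ?_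
    rw [minWt_smul (hg i) a A k hA]; push_cast; ring
  · push_cast; ring

variable {d : ℕ} {L : Type} [Field L] [Algebra ℂ L]

/-- The weights of a valuation. -/
noncomputable def wts (w : AddValuation L (WithTop ℤ)) (y : Fin m → L) : Fin m → ℤ :=
  fun k => ov w (y k)

/-- The lc condition for the pull-back of the pair. -/
def LcZ {d : ℕ} (v : Fin N → Fin (d + 1) → ℤ) (y : Fin (d + 1) → L) (D' : Fin d → Derivation ℂ L L)
    (h : L) (g : Fin s → MvPolynomial (Fin (d + 1)) ℂ) (c : Fin s → ℚ) (r : ℕ)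
    (E : Fin (M + 1) → Fin (d + 1) → ℤ) (ε : ℝ) : Prop :=
  ∀ (w : AddValuation L (WithTop ℤ)) (m' : ℤ), Q.IsDivisorial d w → InCone v (wts w y) →
    Q.FormOrder w D' m' → ε ≤ 1 + m' - ov w h - ∑ i, (c i : ℝ) * ov w (aeval y (g i)) -
      (ordMono E (wts w y) : ℝ) / r

theorem ov_lower {m : ℕ} {w : AddValuation L (WithTop ℤ)}
    (hc : ∀ c : ℂ, c ≠ 0 → w (algebraMap ℂ L c) = 0) {y : Fin m → L} (hy : ∀ k, y k ≠ 0)
    {P : MvPolynomial (Fin m) ℂ} (hP : aeval y P ≠ 0) {μ : ℤ} (hμ : IsMinZ P (wts w y) μ) :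
    μ ≤ ov w (aeval y P) := by
  have h1 := val_lowerZ w hc y (wts w y) (fun j => (coe_ov w (hy j)).symm) (P := P) hμ.2
  rw [← coe_ov w hP] at h1
  exact_mod_cast h1

theorem Phi_le {w : AddValuation L (WithTop ℤ)}
    (hcw : ∀ c : ℂ, c ≠ 0 → w (algebraMap ℂ L c) = 0) {y : Fin m → L} (hy : ∀ k, y k ≠ 0)
    {g : Fin s → MvPolynomial (Fin m) ℂ} (hg : ∀ i, aeval y (g i) ≠ 0) {c : Fin s → ℚ}
    (hc : ∀ i, 0 ≤ c i) (r : ℕ) (E : Fin (M + 1) → Fin m → ℤ) :
    Phi g c r E (wts w y) ≤ ∑ i, (c i : ℝ) * ov w (aeval y (g i)) +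
      (ordMono E (wts w y) : ℝ) / r := by
  have hg0 : ∀ i, g i ≠ 0 := fun i h0 => hg i (by rw [h0, map_zero])
  unfold Phi
  refine add_le_add (Finset.sum_le_sum fun i _ => mul_le_mul_of_nonneg_left ?_ ?_) le_rfl
  · exact_mod_cast ov_lower hcw hy (hg i) (isMinZ_minWt (hg0 i) _)
  · exact_mod_cast hc i

theorem psi_nonmonoZ {e : ℕ} {v : Fin N → Fin (e + 2) → ℤ} {y : Fin (e + 2) → L}
    {f : MvPolynomial (Fin (e + 2)) ℂ} (H : HypData y f) {D' : Fin (e + 1) → Derivation ℂ L L}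
    {h : L} (R : ResForm y f D' h) {g : Fin s → MvPolynomial (Fin (e + 2)) ℂ}
    (hg : ∀ i, aeval y (g i) ≠ 0) {c : Fin s → ℚ} (hc : ∀ i, 0 ≤ c i) {r : ℕ}
    {E : Fin (M + 1) → Fin (e + 2) → ℤ} {ε : ℝ} (hε : 0 < ε)
    (hlc : LcZ v y D' h g c r E ε) (A : Fin (e + 2) → ℤ) (hA : InCone v A) (hreg : RegZ f A)
    (hnm : NonMonoZ f A) (hA0 : A ≠ 0) (α : Fin (e + 2) →₀ ℕ)
    (hα : α ∈ f.support) (hmin : ∀ β ∈ f.support, wtZ A α ≤ wtZ A β) :
    ε ≤ ∑ j, (A j : ℝ) - wtZ A α - Phi g c r E A := by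
  classical
  have hg0 : ∀ i, g i ≠ 0 := fun i h0 => hg i (by rw [h0, map_zero])
  have HD : DiagData L y f (⊥ : Subgroup (L ≃ₐ[ℂ] L)) :=
    { gen := H.gen
      ker := H.ker
      f0 := H.f0
      x0 := H.x0
      fin := inferInstance
      diag := by
        intro τ hτ j
        rw [Subgroup.mem_bot] at hτ
        exact ⟨1, by rw [hτ]; simp⟩
      fix := by
        intro z
        refine ⟨fun _ τ hτ => ?_, fun _ => ⟨z, rfl⟩⟩
        rw [Subgroup.mem_bot] at hτ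
        rw [hτ]; rfl }
  obtain ⟨μ, hμ, α', hα', β', hβ', hne, hα'm, hβ'm⟩ := hnm
  have hαm : wtZ A α = μ := le_antisymm (by rw [← hα'm]; exact hmin α' hα') (hμ.2 α hα)
  obtain ⟨c₁, e₀, v', w, hc₁, he₀, hv', hw, hvw, hx, hord⟩ :=
    psi_valZ HD A hreg hA0 1 one_pos (fun _ _ => by simp) hμ hα' hβ' hα'm hβ'm hne
  -- the ramification index is one
  have he1 : e₀ = 1 := by
    obtain ⟨t, ht⟩ := hw.normalized
    have ht0 : t ≠ 0 := ne_zero_of_eq w (n := 1) (by simpa using ht)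
    have h1 := hvw t
    have h2 : (algebraMap L L t) = t := rfl
    rw [h2, ht, ← coe_ov v' ht0, ← WithTop.coe_nsmul, nsmul_eq_mul] at h1
    have h3 : (1 : ℤ) = e₀ * ov v' t := by exact_mod_cast h1
    have h4 : (e₀ : ℤ) ∣ 1 := ⟨_, h3⟩
    have h5 := Int.eq_one_of_dvd_one (by positivity) h4
    exact_mod_cast h5
  subst he1
  have hxA : ∀ j, (c₁ : ℤ) * wts w y j = A j := by
    intro j
    have h1 := hx j
    push_cast at h1
    rw [one_mul, one_mul] at h1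
    exact h1
  haveI := H.ess
  obtain ⟨m', hm'⟩ := order_exists (Nat.succ_pos e) H.trdeg D' R.jac_ne hw
  have h1 := hord D' h R m' hm'
  have hc₁Q : (0 : ℚ) < c₁ := by exact_mod_cast hc₁
  have hcone : InCone v (wts w y) := by
    obtain ⟨t, ht, htA⟩ := hA
    refine ⟨fun j => t j / c₁, fun j => div_nonneg (ht j) hc₁Q.le, fun k => ?_⟩
    have h2 : (A k : ℚ) = c₁ * (wts w y k : ℚ) := by rw [← hxA k]; push_cast; ring
    have h3 : (wts w y k : ℚ) = A k / c₁ := by rw [h2]; field_simp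
    rw [h3, htA, Finset.sum_div]
    exact Finset.sum_congr rfl fun j _ => by ring
  have h2 := hlc w m' hw hcone hm'
  have h3 := Phi_le hw.const H.x0 hg hc r E
  have h4 := Phi_smul hg0 c r E (wts w y) A c₁ hxA
  have hc₁R : (1 : ℝ) ≤ c₁ := by exact_mod_cast hc₁
  have h5 : (c₁ : ℝ) * (1 + (m' : ℝ) - ov w h) = ∑ j, (A j : ℝ) - μ := by
    have := congrArg (Int.cast : ℤ → ℝ) h1
    push_cast at this
    linarith
  rw [hαm, h4, ← h5]
  have h6 : ε ≤ 1 + (m' : ℝ) - ov w h - Phi g c r E (wts w y) := by linarith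
  have h7 : (c₁ : ℝ) * ε ≤ c₁ * (1 + (m' : ℝ) - ov w h - Phi g c r E (wts w y)) :=
    mul_le_mul_of_nonneg_left h6 (by linarith)
  nlinarith

end Vale.Agent.P283.Z647
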