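import Mathlib

/-!
Doignon's theorem: a system of linear inequalities in `m` integer variables without solution has a
subsystem of at most `2 ^ m` inequalities without solution.
-/

set_option linter.all false

namespace Vale.Agent.P283.Z647

open Finset

/-- A system where every inequality is necessary has at most `2 ^ m` inequalities. -/
theorem doignon_aux {m : ℕ} {ι : Type} [Fintype ι] (a : ι → Fin m → ℤ) (β : ι → ℤ)
    (h : ∀ x : Fin m → ℤ, ∃ i, β i < ∑ k, a i k * x k)
    (hmin : ∀ i, ∃ x : Fin m → ℤ, ∀ j, j ≠ i → ∑ k, a j k * x k ≤ β j) :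
    Fintype.card ι ≤ 2 ^ m := by
  classical
  by_contra hcard
  push Not at hcard
  choose x hx using hmin
  have hxi : ∀ i, β i < ∑ k, a i k * x i k := by
    intro i
    obtain ⟨j, hj⟩ := h (x i)
    by_cases hji : j = i
    · rw [hji] at hj; exact hj
    · exact absurd (hx i j hji) (not_le.2 hj)
  -- a box
  let R : ℤ := ∑ i, ∑ k, |x i k|
  have hR : ∀ i k, |x i k| ≤ R := by
    intro i k
    have h1 : |x i k| ≤ ∑ k, |x i k| :=
      Finset.single_le_sum (f := fun k => |x i k|) (fun k _ => abs_nonneg _) (Finset.mem_univ k)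
    have h2 : ∑ k, |x i k| ≤ R :=
      Finset.single_le_sum (f := fun i => ∑ k, |x i k|)
        (fun i _ => Finset.sum_nonneg fun k _ => abs_nonneg _) (Finset.mem_univ i)
    exact h1.trans h2
  let Z : Finset (Fin m → ℤ) := Finset.Icc (fun _ => -R) (fun _ => R)
  have hZ : ∀ z, z ∈ Z ↔ ∀ k, -R ≤ z k ∧ z k ≤ R := by
    intro z
    rw [Finset.mem_Icc, Pi.le_def, Pi.le_def]
    exact ⟨fun h k => ⟨h.1 k, h.2 k⟩, fun h => ⟨fun k => (h k).1, fun k => (h k).2⟩⟩
  have hxZ : ∀ i, x i ∈ Z := by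
    intro i
    rw [hZ]
    intro k
    have h1 := hR i k
    exact abs_le.1 h1
  let A : ι → (Fin m → ℤ) → ℤ := fun i z => ∑ k, a i k * z k
  let 𝒯 : Finset (ι → ℤ) := (Fintype.piFinset fun i => Z.image (A i)).filter
    fun γ => (∀ z ∈ Z, ∃ i, γ i ≤ A i z) ∧ ∀ i, β i < γ i
  have h𝒯 : ∀ γ, γ ∈ 𝒯 ↔ (∀ i, ∃ z ∈ Z, A i z = γ i) ∧ (∀ z ∈ Z, ∃ i, γ i ≤ A i z) ∧
      ∀ i, β i < γ i := by
    intro γ
    simp only [𝒯, Finset.mem_filter, Fintype.mem_piFinset, Finset.mem_image]
  have hne : 𝒯.Nonempty := by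
    have h1 : ∀ i, ((Z.filter fun z => β i < A i z)).Nonempty := fun i =>
      ⟨x i, Finset.mem_filter.2 ⟨hxZ i, hxi i⟩⟩
    choose z hz hzmin using fun i => (Z.filter fun z => β i < A i z).exists_min_image (A i) (h1 i)
    refine ⟨fun i => A i (z i), (h𝒯 _).2 ⟨fun i => ⟨z i, (Finset.mem_filter.1 (hz i)).1, rfl⟩,
      fun z' hz' => ?_, fun i => (Finset.mem_filter.1 (hz i)).2⟩⟩
    obtain ⟨i, hi⟩ := h z'
    exact ⟨i, hzmin i z' (Finset.mem_filter.2 ⟨hz', hi⟩)⟩
  obtain ⟨γ, hγ, hγmax⟩ := 𝒯.exists_max_image (fun γ => ∑ i, γ i) hne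
  obtain ⟨hγ1, hγ2, hγ3⟩ := (h𝒯 γ).1 hγ
  have hy : ∀ i, ∃ y ∈ Z, A i y = γ i ∧ ∀ j, j ≠ i → A j y < γ j := by
    intro i
    have h1 : (Z.filter fun z => ∀ j, j ≠ i → A j z < γ j).Nonempty :=
      ⟨x i, Finset.mem_filter.2 ⟨hxZ i, fun j hj => lt_of_le_of_lt (hx i j hj) (hγ3 j)⟩⟩
    obtain ⟨y, hy, hymin⟩ := (Z.filter fun z => ∀ j, j ≠ i → A j z < γ j).exists_min_image (A i) h1
    obtain ⟨hyZ, hyj⟩ := Finset.mem_filter.1 hy
    have h2 : γ i ≤ A i y := by
      obtain ⟨j, hj⟩ := hγ2 y hyZ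
      by_cases hji : j = i
      · rw [hji] at hj; exact hj
      · exact absurd (hyj j hji) (not_lt.2 hj)
    refine ⟨y, hyZ, le_antisymm ?_ h2, hyj⟩
    let γ' : ι → ℤ := Function.update γ i (A i y)
    have h3 : γ' ∈ 𝒯 := by
      rw [h𝒯]
      refine ⟨fun j => ?_, fun z hz => ?_, fun j => ?_⟩
      · by_cases hji : j = i
        · subst hji
          exact ⟨y, hyZ, by simp only [γ', Function.update_self]⟩
        · obtain ⟨z, hz, hz'⟩ := hγ1 j
          exact ⟨z, hz, by simp only [γ', Function.update_of_ne hji, hz']⟩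
      · by_cases hall : ∀ j, j ≠ i → A j z < γ j
        · refine ⟨i, ?_⟩
          simp only [γ', Function.update_self]
          exact hymin z (Finset.mem_filter.2 ⟨hz, hall⟩)
        · push Not at hall
          obtain ⟨j, hji, hj⟩ := hall
          exact ⟨j, by simp only [γ', Function.update_of_ne hji]; exact hj⟩
      · by_cases hji : j = i
        · subst hji
          simp only [γ', Function.update_self]
          exact lt_of_lt_of_le (hγ3 j) h2
        · simp only [γ', Function.update_of_ne hji]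
          exact hγ3 j
    have h4 := hγmax γ' h3
    have h5 : ∑ j, γ' j = ∑ j, γ j + (A i y - γ i) := by
      rw [← Finset.add_sum_erase Finset.univ γ' (Finset.mem_univ i),
        ← Finset.add_sum_erase Finset.univ γ (Finset.mem_univ i)]
      have h6 : ∑ j ∈ Finset.univ.erase i, γ' j = ∑ j ∈ Finset.univ.erase i, γ j :=
        Finset.sum_congr rfl fun j hj => by
          simp only [γ', Function.update_of_ne (Finset.ne_of_mem_erase hj)]
      rw [h6]
      simp only [γ', Function.update_self]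
      ring
    omega
  choose y hyZ hyi hyj using hy
  -- pigeonhole
  obtain ⟨i, i', hne', hpar⟩ := Fintype.exists_ne_map_eq_of_card_lt
    (fun i => (fun k => ((y i k : ℤ) : ZMod 2) : Fin m → ZMod 2)) (by
      rw [Fintype.card_fun, ZMod.card, Fintype.card_fin]
      exact hcard)
  have hdvd : ∀ k, ∃ t, y i k + y i' k = 2 * t := by
    intro k
    have h1 : ((y i k : ℤ) : ZMod 2) = ((y i' k : ℤ) : ZMod 2) := congrFun hpar k
    have h2 : ((y i k + y i' k : ℤ) : ZMod 2) = 0 := by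
      push_cast
      rw [h1]
      exact CharTwo.add_self_eq_zero _
    exact (ZMod.intCast_zmod_eq_zero_iff_dvd _ 2).1 h2
  choose z hz using hdvd
  have hzZ : z ∈ Z := by
    rw [hZ]
    intro k
    have h1 := (hZ _).1 (hyZ i) k
    have h2 := (hZ _).1 (hyZ i') k
    have h3 := hz k
    constructor <;> omega
  obtain ⟨l, hl⟩ := hγ2 z hzZ
  have h1 : 2 * A l z = A l (y i) + A l (y i') := by
    simp only [A, Finset.mul_sum, ← Finset.sum_add_distrib]
    refine Finset.sum_congr rfl fun k _ => ?_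
    rw [← mul_add, hz k]; ring
  by_cases hli : l = i
  · subst hli
    have h2 := hyi l
    have h3 := hyj i' l hne'
    omega
  · by_cases hli' : l = i'
    · subst hli'
      have h2 := hyi l
      have h3 := hyj i l hli
      omega
    · have h2 := hyj i l hli
      have h3 := hyj i' l hli'
      omega

/-- Doignon's theorem. -/
theorem doignon {m : ℕ} {ι : Type} [Fintype ι] (a : ι → Fin m → ℤ) (β : ι → ℤ)
    (h : ∀ x : Fin m → ℤ, ∃ i, β i < ∑ k, a i k * x k) :
    ∃ I : Finset ι, I.card ≤ 2 ^ m ∧ ∀ x : Fin m → ℤ, ∃ i ∈ I, β i < ∑ k, a i k * x k := by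
  classical
  let P : Finset (Finset ι) := Finset.univ.filter fun I =>
    ∀ x : Fin m → ℤ, ∃ i ∈ I, β i < ∑ k, a i k * x k
  have hP : ∀ I, I ∈ P ↔ ∀ x : Fin m → ℤ, ∃ i ∈ I, β i < ∑ k, a i k * x k := fun I => by
    simp [P]
  have hne : P.Nonempty := ⟨Finset.univ, (hP _).2 fun x => by
    obtain ⟨i, hi⟩ := h x
    exact ⟨i, Finset.mem_univ _, hi⟩⟩
  obtain ⟨I, hI, hImin⟩ := P.exists_min_image Finset.card hne
  have hI' := (hP I).1 hI
  refine ⟨I, ?_, hI'⟩
  rw [← Fintype.card_coe]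
  refine doignon_aux (fun i : I => a i) (fun i : I => β i) (fun x => ?_) (fun i => ?_)
  · obtain ⟨i, hi, hi'⟩ := hI' x
    exact ⟨⟨i, hi⟩, hi'⟩
  · by_contra hno
    push Not at hno
    have h1 : I.erase i ∈ P := by
      rw [hP]
      intro x
      obtain ⟨j, hj, hj'⟩ := hno x
      exact ⟨j, Finset.mem_erase.2 ⟨fun h => hj (Subtype.ext h), j.2⟩, hj'⟩
    have h2 := hImin _ h1
    rw [Finset.card_erase_of_mem i.2] at h2
    have h3 : 0 < I.card := Finset.card_pos.2 ⟨i, i.2⟩
    omega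

end Vale.Agent.P283.Z647
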