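import Vale.Agent.P283.Z647.Expos
import Vale.Agent.P283.Z647.Doignon

/-!
The exponents of the complement: any number of rays.
-/

set_option linter.all false

namespace Vale.Agent.P283.Z647

open MvPolynomial
open Finset hiding val
open Vale.Agent.P283.H647 (val ResForm HypData)

/-- Dickson's lemma. -/
theorem dickson {N : ℕ} (S : Set (Fin N → ℕ)) : ∃ F : Finset (Fin N → ℕ), (∀ y ∈ F, y ∈ S) ∧
    ∀ x ∈ S, ∃ y ∈ F, y ≤ x := by
  classical
  have hpwo : S.IsPWO := Set.isPWO_of_wellQuasiOrderedLE S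
  have hfin : {x | Minimal (· ∈ S) x}.Finite := by
    have h1 : IsAntichain (· ≤ ·) {x | Minimal (· ∈ S) x} := setOf_minimal_antichain _
    have h2 : Set.IsPWO {x | Minimal (· ∈ S) x} := hpwo.mono fun x hx => hx.prop
    exact h1.finite_of_partiallyWellOrderedOn h2
  refine ⟨hfin.toFinset, fun y hy => (hfin.mem_toFinset.1 hy).prop, fun x hx => ?_⟩
  obtain ⟨y, hy, hy'⟩ := hpwo.exists_le_minimal hx
  exact ⟨y, hfin.mem_toFinset.2 hy', hy⟩

theorem exists_exposD (e q : ℕ) (hq : 0 < q) {ε : ℝ} (hε : 0 < ε) : ∃ k₀ : ℕ, 0 < k₀ ∧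
    ∀ (L : Type) [Field L] [Algebra ℂ L] {s M N : ℕ} (y : Fin (e + 2) → L)
      (f : MvPolynomial (Fin (e + 2)) ℂ) (g : Fin s → MvPolynomial (Fin (e + 2)) ℂ)
      (v : Fin N → Fin (e + 2) → ℤ) (H : HypData y f) (D' : Fin (e + 1) → Derivation ℂ L L)
      (h : L) (R : ResForm y f D' h) (hg : ∀ i, aeval y (g i) ≠ 0)
      (hnd : ∀ a, InCone v a → RegZ f a) (hpt : ∃ u : Fin (e + 2) → ℤ, ∀ j, 0 < ∑ k, v j k * u k)
      (c : Fin s → ℚ) (cq : Fin s → ℕ) (hcq : ∀ i, (cq i : ℚ) = q * c i) (r : ℕ) (hr : 0 < r)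
      (E : Fin (M + 1) → Fin (e + 2) → ℤ) (hsub : IsSubdivision v E)
      (κ : Fin N → ℕ) (hκ : ∀ j, (κ j : ℚ) = q * toricDisc f g c r E (v j))
      (hκq : ∀ j, κ j ≤ q) (hlc : LcZ v y D' h g c r E ε) (k : ℕ) (hk : k₀ ∣ k) (hk0 : 0 < k),
      ∃ Ee : Finset (Fin (e + 2) → ℤ), Ee.Nonempty ∧
        (∀ γ ∈ Ee, ∀ a, InCone v a →
          (k : ℚ) * q * ((ordMono E a : ℚ) / r) ≤ ((∑ i, γ i * a i : ℤ) : ℚ)) ∧
        ∀ a, InCone v a → a ≠ 0 → NonMonoZ f a → ∃ γ ∈ Ee,
          ∑ i, γ i * a i < k * (q * (∑ i, a i - minWt f a) - ∑ i, cq i * minWt (g i) a) := by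
  classical
  choose k₀ hk₀ hmain using fun N' : ℕ => exists_exposP e N' q hq hε
  refine ⟨∏ N' ∈ Finset.range (2 ^ (e + 2) + 1), k₀ N', Finset.prod_pos fun N' _ => hk₀ N', ?_⟩
  intro L _ _ s M N y f g v H D' h R hg hnd hpt c cq hcq r hr E hsub κ hκ hκq hlc k hk hk0
  let top : (Fin (e + 2) → ℤ) → ℤ := fun a =>
    q * (∑ k, a k - minWt f a) - ∑ i, cq i * minWt (g i) a
  let T : Fin N → ℤ := fun j => top (v j) - κ j
  have hT : ∀ j, (T j : ℚ) = q * ((ordMono E (v j) : ℚ) / r) := by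
    intro j
    have h1 := hκ j
    simp only [T, top]
    push_cast
    rw [h1]
    unfold toricDisc
    have h2 : ∑ i, (cq i : ℚ) * (minWt (g i) (v j) : ℚ) = q * ∑ i, c i * minWt (g i) (v j) := by
      rw [Finset.mul_sum]
      exact Finset.sum_congr rfl fun i _ => by rw [hcq]; ring
    rw [h2]; ring
  obtain ⟨w, hw⟩ := hpt
  -- a large multiple of `w`
  let Tb : ℤ := ∑ j, |k * T j|
  have hTb : ∀ j, k * T j ≤ Tb := fun j => (le_abs_self _).trans
    (Finset.single_le_sum (f := fun j => |k * T j|) (fun j _ => abs_nonneg _) (Finset.mem_univ j))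
  have hTb0 : 0 ≤ Tb := Finset.sum_nonneg fun j _ => abs_nonneg _
  have hwv : ∀ j, k * T j ≤ ∑ i, (Tb * w i) * v j i := by
    intro j
    have h1 : ∑ i, (Tb * w i) * v j i = Tb * ∑ i, v j i * w i := by
      rw [Finset.mul_sum]
      exact Finset.sum_congr rfl fun i _ => by ring
    rw [h1]
    have h2 := hw j
    have h3 := hTb j
    nlinarith
  -- the pointwise statement
  have hpoint : ∀ a, InCone v a → a ≠ 0 → NonMonoZ f a → ∃ x : Fin (e + 2) → ℤ,
      (∀ j, k * T j ≤ ∑ i, x i * v j i) ∧ ∑ i, x i * a i < k * top a := by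
    intro a ha ha0 hnm
    by_contra hno
    push Not at hno
    obtain ⟨I, hI, hI'⟩ := doignon (ι := Option (Fin N))
      (fun o => o.elim a (fun j => -(v j))) (fun o => o.elim (k * top a - 1) (fun j => -(k * T j)))
      (by
        intro x
        by_cases hx : ∀ j, k * T j ≤ ∑ i, x i * v j i
        · refine ⟨none, ?_⟩
          have h1 := hno x hx
          simp only [Option.elim]
          rw [Finset.sum_congr rfl fun i _ => mul_comm (a i) (x i)]
          omega
        · push Not at hx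
          obtain ⟨j, hj⟩ := hx
          refine ⟨some j, ?_⟩
          simp only [Option.elim, Pi.neg_apply, neg_mul, Finset.sum_neg_distrib]
          rw [Finset.sum_congr rfl fun i _ => mul_comm (v j i) (x i)]
          omega)
    let I' : Finset (Fin N) := Finset.univ.filter fun j => some j ∈ I
    have hI'mem : ∀ j, j ∈ I' ↔ some j ∈ I := fun j => by simp [I']
    have hcard : I'.card ≤ 2 ^ (e + 2) := by
      refine le_trans ?_ hI
      exact Finset.card_le_card_of_injOn some (fun j hj => (hI'mem j).1 hj)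
        (fun _ _ _ _ h => Option.some_injective _ h)
    -- no solution of the subsystem
    have hnosol : ∀ x : Fin (e + 2) → ℤ, (∀ j ∈ I', k * T j ≤ ∑ i, x i * v j i) →
        ¬ ∑ i, x i * a i < k * top a := by
      intro x hx hlt
      obtain ⟨o, ho, ho'⟩ := hI' x
      rcases o with _ | j
      · simp only [Option.elim] at ho'
        rw [Finset.sum_congr rfl fun i _ => mul_comm (a i) (x i)] at ho'
        omega
      · simp only [Option.elim, Pi.neg_apply, neg_mul, Finset.sum_neg_distrib] at ho'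
        rw [Finset.sum_congr rfl fun i _ => mul_comm (v j i) (x i)] at ho'
        have := hx j ((hI'mem j).2 ho)
        omega
    let N' := I'.card
    let φ : Fin N' → Fin N := fun j => (I'.equivFin.symm j : Fin N)
    have hφ : ∀ j, φ j ∈ I' := fun j => (I'.equivFin.symm j).2
    have hφs : ∀ j ∈ I', ∃ j', φ j' = j := fun j hj => ⟨I'.equivFin ⟨j, hj⟩, by simp [φ]⟩
    let v' : Fin N' → Fin (e + 2) → ℤ := fun j => v (φ j)
    have hsubc : ∀ b, InCone v' b → InCone v b := by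
      intro b hb
      apply cone_dual
      intro u hu
      exact hb.pair fun j => hu (φ j)
    have hav' : InCone v' a := by
      apply cone_dual
      intro u hu
      by_contra hneg
      push Not at hneg
      let t' : ℤ := |∑ i, (Tb * w i) * a i - k * top a| + 1
      have ht' : 0 ≤ t' := by positivity
      apply hnosol (fun i => Tb * w i + t' * u i)
      · intro j hj
        obtain ⟨j', rfl⟩ := hφs j hj
        have h1 : ∑ i, (Tb * w i + t' * u i) * v (φ j') i =
            ∑ i, (Tb * w i) * v (φ j') i + t' * ∑ k, v' j' k * u k := by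
          rw [Finset.mul_sum, ← Finset.sum_add_distrib]
          exact Finset.sum_congr rfl fun i _ => by ring
        rw [h1]
        have h2 := hwv (φ j')
        have h3 := mul_nonneg ht' (hu j')
        omega
      · have h1 : ∑ i, (Tb * w i + t' * u i) * a i =
            ∑ i, (Tb * w i) * a i + t' * ∑ k, a k * u k := by
          rw [Finset.mul_sum, ← Finset.sum_add_distrib]
          exact Finset.sum_congr rfl fun i _ => by ring
        rw [h1]
        have h2 := le_abs_self (∑ i, (Tb * w i) * a i - k * top a)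
        have h3 : t' * ∑ k, a k * u k ≤ t' * (-1) :=
          mul_le_mul_of_nonneg_left (by omega) ht'
        have h4 : t' = |∑ i, (Tb * w i) * a i - k * top a| + 1 := rfl
        omega
    obtain ⟨Ee', -, hE1, hE2⟩ := hmain N' L y f g v' H D' h R hg (fun b hb => hnd b (hsubc b hb))
      ⟨w, fun j => hw (φ j)⟩ c cq hcq r hr E (fun j => κ (φ j)) (fun j => hκ (φ j))
      (fun j => hκq (φ j)) (fun w' m' h1 h2 h3 => hlc w' m' h1 (hsubc _ h2) h3) k
      (dvd_trans (Finset.dvd_prod_of_mem k₀ (Finset.mem_range.2 (Nat.lt_succ_of_le hcard))) hk) hk0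
    obtain ⟨γ, hγ, hlt⟩ := hE2 a hav' ha0 hnm
    refine hnosol γ (fun j hj => ?_) hlt
    obtain ⟨j', rfl⟩ := hφs j hj
    exact hE1 γ hγ j'
  -- finitely many exponents
  let P : Set (Fin (e + 2) → ℤ) := {x | ∀ j, k * T j ≤ ∑ i, x i * v j i}
  let F : (Fin (e + 2) → ℤ) → (Fin N → ℕ) := fun x j => (∑ i, x i * v j i - k * T j).toNat
  have hF : ∀ x ∈ P, ∀ j, ((F x j : ℕ) : ℤ) = ∑ i, x i * v j i - k * T j := fun x hx j =>
    Int.toNat_of_nonneg (by have := hx j; omega)
  obtain ⟨Ff, hFf1, hFf2⟩ := dickson (F '' P)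
  choose! G hG1 hG2 using hFf1
  have hle : ∀ x ∈ P, ∃ γ ∈ Ff.image G, ∀ j, ∑ i, γ i * v j i ≤ ∑ i, x i * v j i := by
    intro x hx
    obtain ⟨z, hz, hzx⟩ := hFf2 (F x) ⟨x, hx, rfl⟩
    refine ⟨G z, Finset.mem_image_of_mem G hz, fun j => ?_⟩
    have h1 := hF x hx j
    have h2 := hF (G z) (hG1 z hz) j
    have h3 : F (G z) j ≤ F x j := by rw [hG2 z hz]; exact hzx j
    have h4 : ((F (G z) j : ℕ) : ℤ) ≤ F x j := by exact_mod_cast h3
    omega
  have hpairQ : ∀ (a : Fin (e + 2) → ℤ) (t : Fin N → ℚ), (∀ k, (a k : ℚ) = ∑ j, t j * v j k) →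
      ∀ γ : Fin (e + 2) → ℤ, ((∑ i, γ i * a i : ℤ) : ℚ) =
        ∑ j, t j * ((∑ i, γ i * v j i : ℤ) : ℚ) := by
    intro a t hta γ
    push_cast
    simp only [hta, Finset.mul_sum]
    rw [Finset.sum_comm]
    exact Finset.sum_congr rfl fun j _ => Finset.sum_congr rfl fun k _ => by ring
  refine ⟨Ff.image G, ?_, ?_, ?_⟩
  · obtain ⟨γ, hγ, -⟩ := hle (fun i => Tb * w i) hwv
    exact ⟨γ, hγ⟩
  · intro γ hγ a ha
    obtain ⟨z, hz, rfl⟩ := Finset.mem_image.1 hγ
    obtain ⟨t, ht, hta, htE⟩ := hsub a ha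
    have h2 : (k : ℚ) * q * ((ordMono E a : ℚ) / r) = ∑ j, t j * (k * T j) := by
      rw [htE]
      simp only [hT, Finset.mul_sum, Finset.sum_div]
      exact Finset.sum_congr rfl fun j _ => by ring
    rw [hpairQ a t hta, h2]
    refine Finset.sum_le_sum fun j _ => mul_le_mul_of_nonneg_left ?_ (ht j)
    exact_mod_cast hG1 z hz j
  · intro a ha ha0 hnm
    obtain ⟨x, hx, hlt⟩ := hpoint a ha ha0 hnm
    obtain ⟨γ, hγ, hγx⟩ := hle x hx
    refine ⟨γ, hγ, lt_of_le_of_lt ?_ hlt⟩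
    obtain ⟨t, ht, hta⟩ := ha
    have h1 : ((∑ i, γ i * a i : ℤ) : ℚ) ≤ ((∑ i, x i * a i : ℤ) : ℚ) := by
      rw [hpairQ a t hta, hpairQ a t hta]
      refine Finset.sum_le_sum fun j _ => mul_le_mul_of_nonneg_left ?_ (ht j)
      exact_mod_cast hγx j
    exact_mod_cast h1

end Vale.Agent.P283.Z647
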