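import Vale.Agent.P283.H207.Defs

/-!
Pairs `(X', B')` with a proper morphism `X' → Z = Spec A` with a Galois cover by a non-degenerate
hypersurface in a toric variety.
-/

namespace Vale.Agent.P283.Z647

open MvPolynomial Vale.Agent.P283.Q

variable {m N s M : ℕ}

/-- `a` lies in the cone `τ` spanned by the vectors `v j`. -/
def InCone (v : Fin N → Fin m → ℤ) (a : Fin m → ℤ) : Prop :=
  ∃ c : Fin N → ℚ, (∀ j, 0 ≤ c j) ∧ ∀ k, (a k : ℚ) = ∑ j, c j * v j k

/-- The weight of an exponent. -/
def wtZ (a : Fin m → ℤ) (α : Fin m →₀ ℕ) : ℤ := ∑ k, a k * (α k : ℤ)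

/-- The initial form of `f` for the weight `a`: the sum of its terms of least weight. -/
noncomputable def inFormZ (f : MvPolynomial (Fin m) ℂ) (a : Fin m → ℤ) : MvPolynomial (Fin m) ℂ :=
  ∑ α ∈ f.support.filter (fun α => ∀ β ∈ f.support, wtZ a α ≤ wtZ a β), monomial α (f.coeff α)

/-- The least weight of a term of `f`. -/
noncomputable def minWt (f : MvPolynomial (Fin m) ℂ) (a : Fin m → ℤ) : ℤ :=
  ⨅ α : {α // α ∈ f.support}, wtZ a α

/-- The order of the fractional ideal generated by the monomials `y^{E i}`, in terms of the orders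
`a k` of the coordinates `y k`. -/
noncomputable def ordMono (E : Fin (M + 1) → Fin m → ℤ) (a : Fin m → ℤ) : ℤ :=
  ⨅ i, ∑ k, E i k * a k

/-- `f` and `g_1, …, g_s` are jointly non-degenerate for the weights `a` in the cone `τ`: where the
initial form of `f` vanishes in the torus, its gradient and the gradients of those initial forms of
`g_1, …, g_s` which vanish there are linearly independent. -/
def NonDegZ (v : Fin N → Fin m → ℤ) (f : MvPolynomial (Fin m) ℂ)
    (g : Fin s → MvPolynomial (Fin m) ℂ) : Prop :=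
  ∀ a : Fin m → ℤ, InCone v a → ∀ ξ : Fin m → ℂ, (∀ k, ξ k ≠ 0) → eval ξ (inFormZ f a) = 0 →
    ∀ (t₀ : ℂ) (t : Fin s → ℂ), (∀ i, eval ξ (inFormZ (g i) a) ≠ 0 → t i = 0) →
      (∀ k, t₀ * eval ξ (pderiv k (inFormZ f a)) +
        ∑ i, t i * eval ξ (pderiv k (inFormZ (g i) a)) = 0) → t₀ = 0 ∧ ∀ i, t i = 0

/-- `Z = Spec A` and the irreducible hypersurface `{f = 0}` in the torus with the coordinates `y_k`:
`L` is the function field of the hypersurface, `K = L^G` for a group `G` of at most `J`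
automorphisms of `L`, and `A ⊆ K` has the same integral closure in `L` as the ring
`ℂ[y^u : u ∈ τ^∨]`, where the cone `τ` is spanned by the vectors `v j`. So `Z` has the same
normalization in `L` as the closure of the image of the hypersurface in the affine toric variety
`Spec ℂ[y^u : u ∈ τ^∨]`. The cone `τ` may contain lines; then `dim Z` may be smaller than the
transcendence degree of `K`, and `Z` is a point if `τ` is the whole space. And `f` is
non-degenerate, jointly with the equations `g_i` of further divisors. -/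
structure IsHypCover (J : ℕ) {K L : Type} [Field K] [Field L] [Algebra ℂ K] [Algebra ℂ L]
    [Algebra K L] (y : Fin m → L) (f : MvPolynomial (Fin m) ℂ)
    (g : Fin s → MvPolynomial (Fin m) ℂ) (v : Fin N → Fin m → ℤ) (G : Subgroup (L ≃ₐ[ℂ] L))
    (A : Subalgebra ℂ K) : Prop where
  generate : IntermediateField.adjoin ℂ (Set.range y) = ⊤
  equation : ∀ P : MvPolynomial (Fin m) ℂ, aeval y P = 0 ↔ f ∣ P
  nonzero : f ≠ 0
  coordinate : ∀ k, y k ≠ 0
  divisor : ∀ i, aeval y (g i) ≠ 0
  nondegenerate : NonDegZ v f g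
  finite : Finite G
  card : Nat.card G ≤ J
  field : ∀ z : L, z ∈ Set.range (algebraMap K L) ↔ ∀ τ ∈ G, τ z = z
  cover : ∀ a ∈ A, IsIntegral (Algebra.adjoin ℂ {z : L | ∃ u : Fin m → ℤ,
    (∀ j, 0 ≤ ∑ k, v j k * u k) ∧ z = ∏ k, y k ^ u k}) (algebraMap K L a)
  finiteCover : ∀ u : Fin m → ℤ, (∀ j, 0 ≤ ∑ k, v j k * u k) → IsIntegral A (∏ k, y k ^ u k)

/-- `π'^* (r (K_{X'} + B')) = r (H + ∑ c_i div(g_i)) + F` on the normalization `π' : Y' → X'` of
`X'` in `L`, where the fractional ideal generated by the monomials `y^{E i}` becomes the invertible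
sheaf `𝒪_{Y'}(-F)`. Here `H` is the divisor of `h`, where `π'^* ω = h • Ω` and
`Ω = (-1)^i dy_0 ∧ ⋯ (without dy_i) ⋯ ∧ dy_d / (∂f / ∂y_i)` is the residue form, which does not
depend on `i`; the form `π'^* ω` is given by the extension `D'` of `D` to `L`. So
`-(K_{X'} + B') - ∑ c_i div(g_i)` is, up to a multiple and the principal divisor `H`, generated by
monomials over `Z`. The equality is tested along every prime divisor `w` over `Y'`, which lies over
the prime divisor `u` over `X'` with ramification index `e`. -/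
def IsGeneratedM {d : ℕ} {K L : Type} [Field K] [Field L] [Algebra ℂ K] [Algebra ℂ L]
    [Algebra K L] (y : Fin (d + 1) → L) (f : MvPolynomial (Fin (d + 1)) ℂ)
    (g : Fin s → MvPolynomial (Fin (d + 1)) ℂ) (c : Fin s → ℚ) (E : Fin (M + 1) → Fin (d + 1) → ℤ)
    (D : Fin d → Derivation ℂ K K) (𝒞 : Set (Subalgebra ℂ K)) (r : ℕ)
    (ψ : Subalgebra ℂ K → K) : Prop :=
  ∀ (D' : Fin d → Derivation ℂ L L) (h : L),
    (∀ (i : Fin d) (z : K), D' i (algebraMap K L z) = algebraMap K L (D i z)) →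
    (∀ i : Fin (d + 1),
      h * jac D' (y ∘ i.succAbove) = (-1) ^ (i : ℕ) * aeval y (pderiv i f)) →
    ∀ C ∈ 𝒞, ∀ (u : AddValuation K (WithTop ℤ)) (w : AddValuation L (WithTop ℤ)) (e : ℕ)
      (l a : ℤ) (a' : Fin (d + 1) → ℤ) (a'' : Fin s → ℤ),
      IsDivisorial d u → IsOver C u →
      0 < e → (∃ z, w z = 1) → (∀ z : K, w (algebraMap K L z) = e • u z) →
      u (ψ C) = (l : WithTop ℤ) → w h = (a : WithTop ℤ) → (∀ k, w (y k) = (a' k : WithTop ℤ)) →
      (∀ i, w (aeval y (g i)) = (a'' i : WithTop ℤ)) →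
        (e : ℚ) * l = r * (a + ∑ i, c i * a'' i) + ordMono E a'

/-- The cone `τ` has a subdivision with the rays `v j` such that the order of the ideal generated by
the monomials `y^{E i}` is linear on its cones. -/
def IsSubdivision (v : Fin N → Fin m → ℤ) (E : Fin (M + 1) → Fin m → ℤ) : Prop :=
  ∀ a : Fin m → ℤ, InCone v a → ∃ t : Fin N → ℚ, (∀ j, 0 ≤ t j) ∧
    (∀ k, (a k : ℚ) = ∑ j, t j * v j k) ∧ (ordMono E a : ℚ) = ∑ j, t j * ordMono E (v j)

/-- The log discrepancy of the pull-back of `(X', B')` along the toric divisor with the weight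
`a`. -/
noncomputable def toricDisc (f : MvPolynomial (Fin m) ℂ) (g : Fin s → MvPolynomial (Fin m) ℂ)
    (c : Fin s → ℚ) (r : ℕ) (E : Fin (M + 1) → Fin m → ℤ) (a : Fin m → ℤ) : ℚ :=
  ∑ k, (a k : ℚ) - minWt f a - ∑ i, c i * minWt (g i) a - (ordMono E a : ℚ) / r

end Vale.Agent.P283.Z647
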