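import Mathlib
import Vale.Agent.P283.Z647.Defs

/-!
Rational polyhedral cones: Farkas lemma over the rational numbers, duality, and faces.
-/

set_option linter.all false

namespace Vale.Agent.P283.Z647

open Finset

/-- Between finitely many lower and upper bounds. -/
theorem exists_between_rat {P N : Type} [Finite P] [Finite N] (U : P → ℚ) (L : N → ℚ)
    (h : ∀ p n, L n ≤ U p) : ∃ t : ℚ, (∀ p, t ≤ U p) ∧ ∀ n, L n ≤ t := by
  rcases isEmpty_or_nonempty N with hN | hN
  · rcases isEmpty_or_nonempty P with hP | hP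
    · exact ⟨0, fun p => (hP.false p).elim, fun n => (hN.false n).elim⟩
    · obtain ⟨p₀, hp₀⟩ := Finite.exists_min U
      exact ⟨U p₀, hp₀, fun n => (hN.false n).elim⟩
  · obtain ⟨n₀, hn₀⟩ := Finite.exists_max L
    exact ⟨L n₀, fun p => h p n₀, hn₀⟩

/-- Farkas lemma for systems of linear inequalities. -/
theorem farkas_rat : ∀ (r : ℕ) (ι : Type) [Fintype ι] (A : ι → Fin r → ℚ) (b : ι → ℚ),
    (∀ x : ι → ℚ, (∀ i, 0 ≤ x i) → (∀ k, ∑ i, x i * A i k = 0) → 0 ≤ ∑ i, x i * b i) →
    ∃ t : Fin r → ℚ, ∀ i, ∑ k, A i k * t k ≤ b i := by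
  intro r
  induction r with
  | zero =>
    intro ι _ A b h
    classical
    refine ⟨fun k => 0, fun i => ?_⟩
    have h1 := h (Pi.single i 1) (fun j => by
      by_cases hj : j = i
      · subst hj; simp
      · simp [Pi.single_eq_of_ne hj]) (fun k => k.elim0)
    have h2 : ∑ j, (Pi.single i (1 : ℚ) : ι → ℚ) j * b j = b i := by
      rw [Finset.sum_eq_single i]
      · simp
      · intro j _ hj
        simp [Pi.single_eq_of_ne hj]
      · intro hi
        exact absurd (Finset.mem_univ i) hi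
    rw [h2] at h1
    simpa using h1
  | succ r ih =>
    intro ι _ A b h
    classical
    set c : ι → ℚ := fun i => A i (Fin.last r) with hc
    let α : ι → ℚ := fun i => if c i = 0 then 1 else 0
    let β : ι → ι → ℚ := fun i j => if 0 < c i ∧ c j < 0 then - c j else 0
    let γ : ι → ι → ℚ := fun i j => if 0 < c i ∧ c j < 0 then c i else 0
    have hα : ∀ i, 0 ≤ α i := by intro i; simp only [α]; split_ifs <;> norm_num
    have hβ : ∀ i j, 0 ≤ β i j := by
      intro i j; simp only [β]; split_ifs with h1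
      · linarith [h1.2]
      · exact le_rfl
    have hγ : ∀ i j, 0 ≤ γ i j := by
      intro i j; simp only [γ]; split_ifs with h1
      · exact h1.1.le
      · exact le_rfl
    have hαc : ∀ i, α i * c i = 0 := by
      intro i; simp only [α]; split_ifs with h1
      · rw [h1]; ring
      · ring
    have hβγ : ∀ i j, β i j * c i + γ i j * c j = 0 := by
      intro i j; simp only [β, γ]; split_ifs with h1
      · ring
      · ring
    let A' : ι ⊕ (ι × ι) → Fin r → ℚ := fun s k =>
      Sum.elim (fun i : ι => α i * A i k.castSucc)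
        (fun p : ι × ι => β p.1 p.2 * A p.1 k.castSucc + γ p.1 p.2 * A p.2 k.castSucc) s
    let b' : ι ⊕ (ι × ι) → ℚ := fun s =>
      Sum.elim (fun i : ι => α i * b i) (fun p : ι × ι => β p.1 p.2 * b p.1 + γ p.1 p.2 * b p.2) s
    let X : (ι ⊕ (ι × ι) → ℚ) → ι → ℚ := fun x' i =>
      x' (Sum.inl i) * α i + ∑ j, x' (Sum.inr (i, j)) * β i j + ∑ j, x' (Sum.inr (j, i)) * γ j i
    have hkey : ∀ (x' : ι ⊕ (ι × ι) → ℚ) (g : ι → ℚ), ∑ i, X x' i * g i
        = ∑ i, x' (Sum.inl i) * (α i * g i)
          + ∑ p : ι × ι, x' (Sum.inr p) * (β p.1 p.2 * g p.1 + γ p.1 p.2 * g p.2) := by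
      intro x' g
      simp only [X, add_mul, Finset.sum_mul, Finset.sum_add_distrib]
      rw [Fintype.sum_prod_type]
      have h1 : ∑ i, ∑ j, x' (Sum.inr (j, i)) * γ j i * g i
          = ∑ i, ∑ j, x' (Sum.inr (i, j)) * γ i j * g j := Finset.sum_comm
      rw [h1, add_assoc, ← Finset.sum_add_distrib]
      congr 1
      · exact Finset.sum_congr rfl fun i _ => by ring
      · refine Finset.sum_congr rfl fun i _ => ?_
        rw [← Finset.sum_add_distrib]
        exact Finset.sum_congr rfl fun j _ => by ring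
    obtain ⟨t', ht'⟩ := ih (ι ⊕ (ι × ι)) A' b' (by
      intro x' hx' hx'A
      have h1 := h (X x') (fun i => by
        have h2 : 0 ≤ x' (Sum.inl i) * α i := mul_nonneg (hx' _) (hα i)
        have h3 : 0 ≤ ∑ j, x' (Sum.inr (i, j)) * β i j :=
          Finset.sum_nonneg fun j _ => mul_nonneg (hx' _) (hβ i j)
        have h4 : 0 ≤ ∑ j, x' (Sum.inr (j, i)) * γ j i :=
          Finset.sum_nonneg fun j _ => mul_nonneg (hx' _) (hγ j i)
        show 0 ≤ x' (Sum.inl i) * α i + ∑ j, x' (Sum.inr (i, j)) * β i j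
          + ∑ j, x' (Sum.inr (j, i)) * γ j i
        linarith) (by
        intro k
        refine Fin.lastCases ?_ (fun k => ?_) k
        · rw [hkey x' (fun i => A i (Fin.last r))]
          have h2 : ∀ i, α i * A i (Fin.last r) = 0 := hαc
          have h3 : ∀ p : ι × ι, β p.1 p.2 * A p.1 (Fin.last r) + γ p.1 p.2 * A p.2 (Fin.last r)
              = 0 := fun p => hβγ p.1 p.2
          simp only [h2, h3, mul_zero, Finset.sum_const_zero, add_zero]
        · rw [hkey x' (fun i => A i k.castSucc)]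
          have h2 := hx'A k
          rw [Fintype.sum_sum_type] at h2
          exact h2)
      rw [hkey x' b] at h1
      rw [Fintype.sum_sum_type]
      exact h1)
    let s : ι → ℚ := fun i => ∑ k, A i (Fin.castSucc k) * t' k
    have hs0 : ∀ i, c i = 0 → s i ≤ b i := by
      intro i hi
      have h1 := ht' (Sum.inl i)
      simp only [A', b', Sum.elim_inl, α, if_pos hi, one_mul] at h1
      exact h1
    have hs1 : ∀ i j, 0 < c i → c j < 0 → (b j - s j) / c j ≤ (b i - s i) / c i := by
      intro i j hi hj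
      have h1 := ht' (Sum.inr (i, j))
      have h2 : ∑ k, A' (Sum.inr (i, j)) k * t' k = (-c j) * s i + c i * s j := by
        simp only [A', Sum.elim_inr, β, γ, if_pos (And.intro hi hj), s, Finset.mul_sum,
          ← Finset.sum_add_distrib]
        exact Finset.sum_congr rfl fun k _ => by ring
      have h3 : b' (Sum.inr (i, j)) = (-c j) * b i + c i * b j := by
        simp only [b', Sum.elim_inr, β, γ, if_pos (And.intro hi hj)]
      rw [h2, h3] at h1
      rw [← neg_div_neg_eq (b j - s j) (c j), div_le_div_iff₀ (by linarith) hi]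
      nlinarith
    obtain ⟨t, ht1, ht2⟩ := exists_between_rat (P := {i : ι // 0 < c i})
      (N := {i : ι // c i < 0}) (fun i => (b i.1 - s i.1) / c i.1)
      (fun j => (b j.1 - s j.1) / c j.1) (fun i j => hs1 i.1 j.1 i.2 j.2)
    refine ⟨Fin.snoc t' t, fun i => ?_⟩
    rw [Fin.sum_univ_castSucc]
    simp only [Fin.snoc_castSucc, Fin.snoc_last]
    show s i + c i * t ≤ b i
    rcases lt_trichotomy (c i) 0 with hi | hi | hi
    · have h1 := ht2 ⟨i, hi⟩
      simp only at h1
      rw [div_le_iff_of_neg hi] at h1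
      linarith
    · have h1 := hs0 i hi
      rw [hi]; linarith
    · have h1 := ht1 ⟨i, hi⟩
      simp only at h1
      rw [le_div_iff₀ hi] at h1
      linarith


variable {m N : ℕ}

theorem clear_denoms (t : Fin m → ℚ) : ∃ (D : ℕ) (u : Fin m → ℤ), 0 < D ∧
    ∀ k, (u k : ℚ) = D * t k := by
  classical
  let D : ℕ := ∏ k, (t k).den
  have h1 : ∀ k, ∃ z : ℤ, (z : ℚ) = D * t k := by
    intro k
    obtain ⟨c, hc⟩ : (t k).den ∣ D := Finset.dvd_prod_of_mem (fun k => (t k).den) (Finset.mem_univ k)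
    refine ⟨c * (t k).num, ?_⟩
    have h2 := Rat.den_mul_eq_num (t k)
    rw [hc]
    push_cast
    rw [← h2]; ring
  choose u hu using h1
  exact ⟨D, u, Finset.prod_pos fun k _ => (t k).den_pos, hu⟩

/-- An integral solution of homogeneous inequalities. -/
theorem farkas_int {ι : Type} [Fintype ι] (A : ι → Fin m → ℤ) (P : ι → Prop)
    (h : ∀ x : ι → ℚ, (∀ i, 0 ≤ x i) → (∀ k, ∑ i, x i * A i k = 0) → ∀ i, P i → x i = 0) :
    ∃ u : Fin m → ℤ, ∀ i, 0 ≤ ∑ k, A i k * u k ∧ (P i → 0 < ∑ k, A i k * u k) := by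
  classical
  obtain ⟨t, ht⟩ := farkas_rat m ι (fun i k => -(A i k : ℚ)) (fun i => if P i then -1 else 0) (by
    intro x hx hxA
    have h1 := h x hx (fun k => by
      have := hxA k
      simp only [mul_neg, Finset.sum_neg_distrib, neg_eq_zero] at this
      exact this)
    refine le_of_eq (Finset.sum_eq_zero fun i _ => ?_).symm
    split_ifs with hi
    · rw [h1 i hi, zero_mul]
    · rw [mul_zero])
  obtain ⟨D, u, hD, hu⟩ := clear_denoms t
  have hDQ : (0 : ℚ) < D := by exact_mod_cast hD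
  have h2 : ∀ i, ((∑ k, A i k * u k : ℤ) : ℚ) = D * ∑ k, (A i k : ℚ) * t k := by
    intro i
    push_cast
    rw [Finset.mul_sum]
    exact Finset.sum_congr rfl fun k _ => by rw [hu]; ring
  have h3 : ∀ i, -(∑ k, (A i k : ℚ) * t k) ≤ if P i then -1 else 0 := by
    intro i
    have := ht i
    simpa only [neg_mul, Finset.sum_neg_distrib] using this
  refine ⟨u, fun i => ⟨?_, fun hi => ?_⟩⟩
  · have h4 : (0 : ℚ) ≤ ∑ k, (A i k : ℚ) * t k := by
      have := h3 i
      split_ifs at this <;> linarith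
    have h5 : (0 : ℚ) ≤ ((∑ k, A i k * u k : ℤ) : ℚ) := by
      rw [h2]; exact mul_nonneg hDQ.le h4
    exact_mod_cast h5
  · have h4 : (0 : ℚ) < ∑ k, (A i k : ℚ) * t k := by
      have := h3 i
      rw [if_pos hi] at this
      linarith
    have h5 : (0 : ℚ) < ((∑ k, A i k * u k : ℤ) : ℚ) := by
      rw [h2]; exact mul_pos hDQ h4
    exact_mod_cast h5

theorem cone_dual (v : Fin N → Fin m → ℤ) (a : Fin m → ℤ)
    (h : ∀ u : Fin m → ℤ, (∀ j, 0 ≤ ∑ k, v j k * u k) → 0 ≤ ∑ k, a k * u k) : InCone v a := by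
  classical
  by_contra hno
  obtain ⟨u, hu⟩ := farkas_int (ι := Option (Fin N)) (fun o => o.elim (-a) v) (fun o => o = none) (by
    intro x hx hxA i hi
    subst hi
    by_contra hne
    have hpos : 0 < x none := lt_of_le_of_ne (hx none) (Ne.symm hne)
    apply hno
    refine ⟨fun j => x (some j) / x none, fun j => div_nonneg (hx _) hpos.le, fun k => ?_⟩
    have h1 := hxA k
    rw [Fintype.sum_option] at h1
    simp only [Option.elim, Pi.neg_apply] at h1
    push_cast at h1
    have h2 : ∑ j, x (some j) / x none * (v j k : ℚ) = (∑ j, x (some j) * v j k) / x none := by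
      rw [Finset.sum_div]
      exact Finset.sum_congr rfl fun j _ => by ring
    rw [h2, eq_div_iff hpos.ne']
    linarith)
  have h1 := h u (fun j => (hu (some j)).1)
  have h2 := (hu none).2 rfl
  simp only [Option.elim, Pi.neg_apply, neg_mul, Finset.sum_neg_distrib] at h2
  linarith

/-- The smallest face of a pointed cone which contains a given point. -/
theorem cone_face (v : Fin N → Fin m → ℤ) (hpt : ∃ u : Fin m → ℤ, ∀ j, 0 < ∑ k, v j k * u k)
    (a : Fin m → ℤ) (ha : InCone v a) : ∃ (J : Finset (Fin N)) (c : Fin N → ℚ),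
      (∀ j ∈ J, 0 < c j) ∧ (∀ j, j ∉ J → c j = 0) ∧ (∀ k, (a k : ℚ) = ∑ j, c j * v j k) ∧
      ∃ u : Fin m → ℤ, (∀ j ∈ J, ∑ k, v j k * u k = 0) ∧ ∀ j, j ∉ J → 0 < ∑ k, v j k * u k := by
  classical
  obtain ⟨u₀, hu₀⟩ := hpt
  let Rep : (Fin N → ℚ) → Prop := fun c => (∀ j, 0 ≤ c j) ∧ ∀ k, (a k : ℚ) = ∑ j, c j * v j k
  let J : Finset (Fin N) := Finset.univ.filter fun j => ∃ c, Rep c ∧ 0 < c j
  have hJ : ∀ j, j ∈ J ↔ ∃ c, Rep c ∧ 0 < c j := fun j => by simp [J]
  obtain ⟨c₀, hc₀⟩ := ha
  choose! cc hcc hcc' using fun j (hj : j ∈ J) => (hJ j).1 hj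
  let n : ℚ := J.card + 1
  have hn : 0 < n := by positivity
  let c : Fin N → ℚ := fun j => (c₀ j + ∑ i ∈ J, cc i j) / n
  have hcR : Rep c := by
    refine ⟨fun j => div_nonneg (add_nonneg (hc₀.1 j)
      (Finset.sum_nonneg fun i hi => (hcc i hi).1 j)) hn.le, fun k => ?_⟩
    have h1 : ∑ j, c j * (v j k : ℚ) = (∑ j, c₀ j * (v j k : ℚ) +
        ∑ i ∈ J, ∑ j, cc i j * (v j k : ℚ)) / n := by
      simp only [c]
      rw [Finset.sum_comm, ← Finset.sum_add_distrib, Finset.sum_div]
      refine Finset.sum_congr rfl fun j _ => ?_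
      rw [div_mul_eq_mul_div, add_mul, Finset.sum_mul]
    rw [h1, ← hc₀.2 k, Finset.sum_congr rfl fun i hi => ((hcc i hi).2 k).symm, Finset.sum_const,
      nsmul_eq_mul, eq_div_iff hn.ne']
    simp only [n]; ring
  have hcJ : ∀ j ∈ J, 0 < c j := by
    intro j hj
    refine div_pos ?_ hn
    have h1 : cc j j ≤ ∑ i ∈ J, cc i j :=
      Finset.single_le_sum (f := fun i => cc i j) (fun i hi => (hcc i hi).1 j) hj
    have h2 := hcc' j hj
    have h3 := hc₀.1 j
    linarith
  have hcJ' : ∀ j, j ∉ J → c j = 0 := by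
    intro j hj
    by_contra hne
    exact hj ((hJ j).2 ⟨c, hcR, lt_of_le_of_ne (hcR.1 j) (Ne.symm hne)⟩)
  refine ⟨J, c, hcJ, hcJ', hcR.2, ?_⟩
  -- a functional for each vector outside the face
  have hex : ∀ j : Fin N, j ∉ J → ∃ u : Fin m → ℤ, (∀ i, 0 ≤ ∑ k, v i k * u k) ∧
      ∑ k, a k * u k ≤ 0 ∧ 0 < ∑ k, v j k * u k := by
    intro j hj
    obtain ⟨u, hu⟩ := farkas_int (ι := Option (Fin N)) (fun o => o.elim (-a) v)
      (fun o => o = some j) (by
      intro x hx hxA i hi
      subst hi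
      by_contra hne
      have hpos : 0 < x (some j) := lt_of_le_of_ne (hx _) (Ne.symm hne)
      have h1 : ∀ k, x none * (a k : ℚ) = ∑ i, x (some i) * (v i k : ℚ) := by
        intro k
        have h2 := hxA k
        rw [Fintype.sum_option] at h2
        simp only [Option.elim, Pi.neg_apply] at h2
        push_cast at h2
        linarith
      rcases eq_or_lt_of_le (hx none) with h0 | h0
      · have h2 : ∑ i, x (some i) * (∑ k, (v i k : ℚ) * u₀ k) = 0 := by
          have h3 : ∑ i, x (some i) * (∑ k, (v i k : ℚ) * u₀ k) =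
              ∑ k, (∑ i, x (some i) * (v i k : ℚ)) * u₀ k := by
            simp only [Finset.mul_sum, Finset.sum_mul]
            rw [Finset.sum_comm]
            exact Finset.sum_congr rfl fun k _ => Finset.sum_congr rfl fun i _ => by ring
          rw [h3]
          refine Finset.sum_eq_zero fun k _ => ?_
          rw [← h1 k, ← h0]; ring
        have h4 : 0 < ∑ i, x (some i) * (∑ k, (v i k : ℚ) * u₀ k) := by
          refine Finset.sum_pos' (fun i _ => ?_) ⟨j, Finset.mem_univ _, ?_⟩
          · refine mul_nonneg (hx _) ?_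
            have := (hu₀ i).le
            exact_mod_cast this
          · refine mul_pos hpos ?_
            have := hu₀ j
            exact_mod_cast this
        linarith
      · apply hj
        rw [hJ]
        refine ⟨fun i => x (some i) / x none, ⟨fun i => div_nonneg (hx _) h0.le, fun k => ?_⟩,
          div_pos hpos h0⟩
        have h2 : ∑ i, x (some i) / x none * (v i k : ℚ) = (∑ i, x (some i) * v i k) / x none := by
          rw [Finset.sum_div]
          exact Finset.sum_congr rfl fun i _ => by ring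
        rw [h2, eq_div_iff h0.ne', ← h1 k]; ring)
    refine ⟨u, fun i => (hu (some i)).1, ?_, (hu (some j)).2 rfl⟩
    have := (hu none).1
    simp only [Option.elim, Pi.neg_apply, neg_mul, Finset.sum_neg_distrib] at this
    linarith
  choose! uu huu1 huu2 huu3 using hex
  have hzero : ∀ j, j ∉ J → ∀ i ∈ J, ∑ k, v i k * uu j k = 0 := by
    intro j hj i hi
    have h1 : ((∑ k, a k * uu j k : ℤ) : ℚ) = ∑ i, c i * ((∑ k, v i k * uu j k : ℤ) : ℚ) := by
      push_cast
      simp only [Finset.mul_sum]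
      rw [Finset.sum_comm]
      refine Finset.sum_congr rfl fun k _ => ?_
      rw [hcR.2 k, Finset.sum_mul]
      exact Finset.sum_congr rfl fun i _ => by ring
    have h2 : ((∑ k, a k * uu j k : ℤ) : ℚ) ≤ 0 := by exact_mod_cast huu2 j hj
    rw [h1] at h2
    have h3 : ∀ i ∈ Finset.univ, 0 ≤ c i * ((∑ k, v i k * uu j k : ℤ) : ℚ) := fun i _ =>
      mul_nonneg (hcR.1 i) (by exact_mod_cast huu1 j hj i)
    have h4 := (Finset.sum_eq_zero_iff_of_nonneg h3).1 (le_antisymm h2 (Finset.sum_nonneg h3)) i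
      (Finset.mem_univ i)
    have h5 := (mul_eq_zero.1 h4).resolve_left (hcJ i hi).ne'
    exact_mod_cast h5
  have hsum : ∀ i, ∑ k, v i k * (∑ j ∈ Finset.univ.filter (fun j => j ∉ J), uu j k) =
      ∑ j ∈ Finset.univ.filter (fun j => j ∉ J), ∑ k, v i k * uu j k := by
    intro i
    simp only [Finset.mul_sum]
    exact Finset.sum_comm
  refine ⟨fun k => ∑ j ∈ Finset.univ.filter (fun j => j ∉ J), uu j k, fun i hi => ?_,
    fun i hi => ?_⟩
  · rw [hsum]
    exact Finset.sum_eq_zero fun j hj => hzero j (Finset.mem_filter.1 hj).2 i hi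
  · rw [hsum]
    exact Finset.sum_pos' (fun j hj => huu1 j (Finset.mem_filter.1 hj).2 i)
      ⟨i, Finset.mem_filter.2 ⟨Finset.mem_univ _, hi⟩, huu3 i hi⟩

end Vale.Agent.P283.Z647
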