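import Vale.Agent.P283.Z647.Init
import Vale.Agent.P283.Z647.Cone

/-!
From the weights with non-monomial initial form to all weights of a face.
-/

set_option linter.all false

namespace Vale.Agent.P283.Z647

open MvPolynomial Finset

variable {m N : ℕ}

/-- The initial form is not a monomial. -/
def NonMonoZ (f : MvPolynomial (Fin m) ℂ) (a : Fin m → ℤ) : Prop :=
  ∃ μ, IsMinZ f a μ ∧ ∃ α ∈ f.support, ∃ β ∈ f.support, α ≠ β ∧ wtZ a α = μ ∧ wtZ a β = μ

theorem InCone.pair {v : Fin N → Fin m → ℤ} {a : Fin m → ℤ} (h : InCone v a) {u : Fin m → ℤ}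
    (hu : ∀ j, 0 ≤ ∑ k, v j k * u k) : 0 ≤ ∑ k, a k * u k := by
  obtain ⟨c, hc, hca⟩ := h
  have h1 : ((∑ k, a k * u k : ℤ) : ℚ) = ∑ j, c j * ((∑ k, v j k * u k : ℤ) : ℚ) := by
    push_cast
    simp only [hca, Finset.sum_mul, Finset.mul_sum]
    rw [Finset.sum_comm]
    exact Finset.sum_congr rfl fun j _ => Finset.sum_congr rfl fun k _ => by ring
  have h2 : (0 : ℚ) ≤ ((∑ k, a k * u k : ℤ) : ℚ) := by
    rw [h1]
    refine Finset.sum_nonneg fun j _ => mul_nonneg (hc j) ?_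
    exact_mod_cast hu j
  exact_mod_cast h2

theorem InCone.comb {v : Fin N → Fin m → ℤ} {a : Fin m → ℤ} (h : InCone v a) (k p : ℕ)
    (j : Fin N) : InCone v (fun i => k * a i + p * v j i) := by
  classical
  obtain ⟨c, hc, hca⟩ := h
  refine ⟨fun i => k * c i + if i = j then (p : ℚ) else 0, fun i => ?_, fun i => ?_⟩
  · have := hc i
    show 0 ≤ (k : ℚ) * c i + if i = j then (p : ℚ) else 0
    split_ifs <;> positivity
  · have h1 : ∑ j', (k * c j' + if j' = j then (p : ℚ) else 0) * v j' i =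
        k * ∑ j', c j' * v j' i + p * v j i := by
      simp only [add_mul, Finset.sum_add_distrib, ite_mul, zero_mul, Finset.sum_ite_eq',
        Finset.mem_univ, if_true, Finset.mul_sum]
      congr 1
      exact Finset.sum_congr rfl fun _ _ => by ring
    rw [h1, ← hca]
    push_cast
    ring

theorem wtZ_comb (k p : ℤ) (a b : Fin m → ℤ) (γ : Fin m →₀ ℕ) :
    wtZ (fun i => k * a i + p * b i) γ = k * wtZ a γ + p * wtZ b γ := by
  unfold wtZ
  rw [Finset.mul_sum, Finset.mul_sum, ← Finset.sum_add_distrib]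
  exact Finset.sum_congr rfl fun i _ => by ring

theorem wtZ_real {v : Fin N → Fin m → ℤ} {a : Fin m → ℤ} {c : Fin N → ℝ}
    (ha : ∀ k, (a k : ℝ) = ∑ j, c j * v j k) (γ : Fin m →₀ ℕ) :
    (wtZ a γ : ℝ) = ∑ j, c j * wtZ (v j) γ := by
  unfold wtZ
  push_cast
  simp only [ha, Finset.sum_mul, Finset.mul_sum]
  rw [Finset.sum_comm]
  exact Finset.sum_congr rfl fun j _ => Finset.sum_congr rfl fun k _ => by ring

/-- The passage from weights with non-monomial initial form to all weights of a face. -/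
theorem ext_Z (v : Fin N → Fin m → ℤ) (hpt : ∃ u : Fin m → ℤ, ∀ j, 0 < ∑ k, v j k * u k)
    (f : MvPolynomial (Fin m) ℂ) (Φ : (Fin m → ℤ) → ℝ)
    (hΦ : ∀ (a b : Fin m → ℤ) (k p : ℕ),
      k * Φ a + p * Φ b ≤ Φ (fun i => (k : ℤ) * a i + (p : ℤ) * b i))
    (ε ε' : ℝ) (h1 : ε' ≤ ε) (h2 : ε' ≤ 1) (h0 : 0 ≤ ε')
    (hψ : ∀ A : Fin m → ℤ, InCone v A → NonMonoZ f A → A ≠ 0 →
      ∀ α ∈ f.support, (∀ β ∈ f.support, wtZ A α ≤ wtZ A β) → ε ≤ ∑ k, (A k : ℝ) - wtZ A α - Φ A)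
    (hray : ∀ j, ∀ β ∈ f.support, (∀ γ ∈ f.support, wtZ (v j) β ≤ wtZ (v j) γ) →
      ∑ k, (v j k : ℝ) - wtZ (v j) β - Φ (v j) ≤ 1)
    (J : Finset (Fin N)) (a₀ : Fin m → ℤ) (c₀ : Fin N → ℝ) (hc₀ : ∀ j ∈ J, 0 < c₀ j)
    (hc₀' : ∀ j, j ∉ J → c₀ j = 0) (ha₀ : ∀ k, (a₀ k : ℝ) = ∑ j, c₀ j * v j k)
    (hnm : NonMonoZ f a₀) (ha₀0 : a₀ ≠ 0)
    (a : Fin m → ℤ) (c : Fin N → ℝ) (hc : ∀ j ∈ J, 0 < c j)
    (hc' : ∀ j, j ∉ J → c j = 0) (ha : ∀ k, (a k : ℝ) = ∑ j, c j * v j k) :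
    ∃ α ∈ f.support, ε' ≤ ∑ k, (a k : ℝ) - wtZ a α - Φ a := by
  classical
  obtain ⟨m₀, hm₀, α', hα', β', hβ', hne, hα'm, hβ'm⟩ := hnm
  obtain ⟨α, hα, hmin⟩ := f.support.exists_min_image (fun e => wtZ a e) ⟨α', hα'⟩
  have hcone : InCone v a := by
    apply cone_dual
    intro u hu
    have h3 : ((∑ k, a k * u k : ℤ) : ℝ) = ∑ j, c j * ((∑ k, v j k * u k : ℤ) : ℝ) := by
      push_cast
      simp only [ha, Finset.sum_mul, Finset.mul_sum]
      rw [Finset.sum_comm]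
      exact Finset.sum_congr rfl fun j _ => Finset.sum_congr rfl fun k _ => by ring
    have h4 : (0 : ℝ) ≤ ((∑ k, a k * u k : ℤ) : ℝ) := by
      rw [h3]
      refine Finset.sum_nonneg fun j _ => mul_nonneg ?_ (by exact_mod_cast hu j)
      by_cases hj : j ∈ J
      · exact (hc j hj).le
      · rw [hc' j hj]
    exact_mod_cast h4
  -- `J` is nonempty
  obtain ⟨j₁, hj₁⟩ : J.Nonempty := by
    rw [Finset.nonempty_iff_ne_empty]
    rintro rfl
    apply ha₀0
    funext k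
    have h3 := ha₀ k
    rw [Finset.sum_eq_zero fun j _ => by rw [hc₀' j (Finset.notMem_empty _), zero_mul]] at h3
    exact_mod_cast h3
  obtain ⟨u, hu⟩ := hpt
  have hapos : 0 < ∑ k, a k * u k := by
    have h3 : ((∑ k, a k * u k : ℤ) : ℝ) = ∑ j, c j * ((∑ k, v j k * u k : ℤ) : ℝ) := by
      push_cast
      simp only [ha, Finset.sum_mul, Finset.mul_sum]
      rw [Finset.sum_comm]
      exact Finset.sum_congr rfl fun j _ => Finset.sum_congr rfl fun k _ => by ring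
    have h4 : (0 : ℝ) < ((∑ k, a k * u k : ℤ) : ℝ) := by
      rw [h3]
      refine Finset.sum_pos' (fun j _ => ?_) ⟨j₁, Finset.mem_univ _, ?_⟩
      · have h5 : (0 : ℝ) < ((∑ k, v j k * u k : ℤ) : ℝ) := by exact_mod_cast hu j
        refine mul_nonneg ?_ h5.le
        by_cases hj : j ∈ J
        · exact (hc j hj).le
        · rw [hc' j hj]
      · have h5 : (0 : ℝ) < ((∑ k, v j₁ k * u k : ℤ) : ℝ) := by exact_mod_cast hu j₁
        exact mul_pos (hc j₁ hj₁) h5
    exact_mod_cast h4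
  have ha0 : a ≠ 0 := by
    rintro rfl
    simp at hapos
  refine ⟨α, hα, ?_⟩
  by_cases hnm' : NonMonoZ f a
  · have h3 := hψ a hcone hnm' ha0 α hα hmin
    linarith
  · -- the initial form is a monomial
    have huniq : ∀ β ∈ f.support, wtZ a β = wtZ a α → β = α := by
      intro β hβ hw
      by_contra hne'
      exact hnm' ⟨wtZ a α, ⟨⟨α, hα, rfl⟩, hmin⟩, β, hβ, α, hα, hne', hw, rfl⟩
    have hex : ∃ β ∈ f.support, ∃ j ∈ J, wtZ (v j) β < wtZ (v j) α := by
      by_contra hno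
      push Not at hno
      have h3 : ∀ β ∈ f.support, wtZ a₀ α ≤ wtZ a₀ β := by
        intro β hβ
        have h4 : (wtZ a₀ α : ℝ) ≤ wtZ a₀ β := by
          rw [wtZ_real ha₀, wtZ_real ha₀]
          refine Finset.sum_le_sum fun j _ => ?_
          by_cases hj : j ∈ J
          · exact mul_le_mul_of_nonneg_left (by exact_mod_cast hno β hβ j hj) (hc₀ j hj).le
          · rw [hc₀' j hj, zero_mul, zero_mul]
        exact_mod_cast h4
      have h4 : wtZ a₀ α = m₀ := le_antisymm (by rw [← hα'm]; exact h3 α' hα') (hm₀.2 α hα)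
      obtain ⟨γ, hγ, hγα, hγm⟩ : ∃ γ ∈ f.support, γ ≠ α ∧ wtZ a₀ γ = m₀ := by
        by_cases hcc : α' = α
        · exact ⟨β', hβ', fun h => hne (hcc.trans h.symm), hβ'm⟩
        · exact ⟨α', hα', hcc, hα'm⟩
      have h5 : ∀ j ∈ J, wtZ (v j) α = wtZ (v j) γ := by
        intro j hj
        by_contra hne2
        have hlt : wtZ (v j) α < wtZ (v j) γ := lt_of_le_of_ne (hno γ hγ j hj) hne2
        have h6 : (wtZ a₀ α : ℝ) < wtZ a₀ γ := by
          rw [wtZ_real ha₀, wtZ_real ha₀]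
          refine Finset.sum_lt_sum (fun j' _ => ?_) ⟨j, Finset.mem_univ _, ?_⟩
          · by_cases hj' : j' ∈ J
            · exact mul_le_mul_of_nonneg_left (by exact_mod_cast hno γ hγ j' hj') (hc₀ j' hj').le
            · rw [hc₀' j' hj', zero_mul, zero_mul]
          · exact mul_lt_mul_of_pos_left (by exact_mod_cast hlt) (hc₀ j hj)
        rw [h4, hγm] at h6
        exact lt_irrefl _ h6
      apply hγα
      apply huniq γ hγ
      have h6 : (wtZ a γ : ℝ) = wtZ a α := by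
        rw [wtZ_real ha, wtZ_real ha]
        refine Finset.sum_congr rfl fun j _ => ?_
        by_cases hj : j ∈ J
        · rw [h5 j hj]
        · rw [hc' j hj, zero_mul, zero_mul]
      exact_mod_cast h6
    obtain ⟨β₀, hβ₀, j, hj, hβ₀j⟩ := hex
    let T := f.support.filter fun β => wtZ (v j) β < wtZ (v j) α
    have hT : T.Nonempty := ⟨β₀, Finset.mem_filter.2 ⟨hβ₀, hβ₀j⟩⟩
    obtain ⟨β, hβT, hβmin⟩ := T.exists_min_image
      (fun β => ((wtZ a β : ℝ) - wtZ a α) / ((wtZ (v j) α : ℝ) - wtZ (v j) β)) hT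
    obtain ⟨hβ, hβj⟩ := Finset.mem_filter.1 hβT
    obtain ⟨k, hk⟩ : ∃ k : ℕ, wtZ (v j) α = wtZ (v j) β + k + 1 :=
      ⟨(wtZ (v j) α - wtZ (v j) β - 1).toNat, by
        rw [Int.toNat_of_nonneg (by omega)]; ring⟩
    obtain ⟨p, hp⟩ : ∃ p : ℕ, wtZ a β = wtZ a α + p :=
      ⟨(wtZ a β - wtZ a α).toNat, by
        rw [Int.toNat_of_nonneg (by have := hmin β hβ; omega)]; ring⟩
    have hβα : β ≠ α := by
      rintro rfl
      exact lt_irrefl _ hβj
    have hp0 : 0 < p := by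
      rcases Nat.eq_zero_or_pos p with h | h
      · exact absurd (huniq β hβ (by rw [hp, h]; simp)) hβα
      · exact h
    let A' : Fin m → ℤ := fun i => ((k + 1 : ℕ) : ℤ) * a i + (p : ℤ) * v j i
    have hwt : ∀ γ, wtZ A' γ = ((k + 1 : ℕ) : ℤ) * wtZ a γ + p * wtZ (v j) γ := fun γ =>
      wtZ_comb _ _ _ _ _
    have hmin' : ∀ γ ∈ f.support, wtZ A' α ≤ wtZ A' γ := by
      intro γ hγ
      rw [hwt, hwt]
      by_cases hγi : wtZ (v j) γ < wtZ (v j) α
      · have hγT : γ ∈ T := Finset.mem_filter.2 ⟨hγ, hγi⟩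
        have h3 := hβmin γ hγT
        have h4 : (0 : ℝ) < (wtZ (v j) α : ℝ) - wtZ (v j) β := by
          have : (wtZ (v j) β : ℝ) < wtZ (v j) α := by exact_mod_cast hβj
          linarith
        have h5 : (0 : ℝ) < (wtZ (v j) α : ℝ) - wtZ (v j) γ := by
          have : (wtZ (v j) γ : ℝ) < wtZ (v j) α := by exact_mod_cast hγi
          linarith
        rw [div_le_div_iff₀ h4 h5] at h3
        have h6 : ((wtZ (v j) α : ℝ) - wtZ (v j) β) = k + 1 := by rw [hk]; push_cast; ring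
        have h7 : ((wtZ a β : ℝ) - wtZ a α) = p := by rw [hp]; push_cast; ring
        rw [h6, h7] at h3
        have h8 : ((((k + 1 : ℕ) : ℤ) * wtZ a α + p * wtZ (v j) α : ℤ) : ℝ) ≤
            ((((k + 1 : ℕ) : ℤ) * wtZ a γ + p * wtZ (v j) γ : ℤ) : ℝ) := by
          push_cast
          linarith
        exact_mod_cast h8
      · push Not at hγi
        exact add_le_add (mul_le_mul_of_nonneg_left (hmin γ hγ) (by positivity))
          (mul_le_mul_of_nonneg_left hγi (by positivity))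
    have heq : wtZ A' β = wtZ A' α := by
      rw [hwt, hwt, hp, hk]; push_cast; ring
    have hnm'' : NonMonoZ f A' :=
      ⟨wtZ A' α, ⟨⟨α, hα, rfl⟩, hmin'⟩, β, hβ, α, hα, hβα, heq, rfl⟩
    have hA'c : InCone v A' := hcone.comb (k + 1) p j
    have hA'0 : A' ≠ 0 := by
      intro h0
      have h3 : ∑ i, A' i * u i = 0 := by rw [h0]; simp
      have h4 : ∑ i, A' i * u i = ((k + 1 : ℕ) : ℤ) * ∑ i, a i * u i + p * ∑ i, v j i * u i := by
        rw [Finset.mul_sum, Finset.mul_sum, ← Finset.sum_add_distrib]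
        exact Finset.sum_congr rfl fun i _ => by simp only [A']; ring
      have h5 : 0 < ((k + 1 : ℕ) : ℤ) * ∑ i, a i * u i := by positivity
      have h6 : 0 ≤ (p : ℤ) * ∑ i, v j i * u i := mul_nonneg (by positivity) (hu j).le
      omega
    have h3 := hψ A' hA'c hnm'' hA'0 α hα hmin'
    have h4 : ∑ i, (A' i : ℝ) = (k + 1) * ∑ i, (a i : ℝ) + p * ∑ i, (v j i : ℝ) := by
      rw [Finset.mul_sum, Finset.mul_sum, ← Finset.sum_add_distrib]
      refine Finset.sum_congr rfl fun i _ => ?_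
      simp only [A']
      push_cast
      ring
    have h5 := hΦ a (v j) (k + 1) p
    have h5' : ((k : ℝ) + 1) * Φ a + p * Φ (v j) ≤ Φ A' := by
      push_cast at h5
      exact h5
    -- the ray
    obtain ⟨β₁, hβ₁, hβ₁min⟩ := f.support.exists_min_image (fun e => wtZ (v j) e) ⟨α', hα'⟩
    have h6 := hray j β₁ hβ₁ hβ₁min
    have h7 : (wtZ (v j) β₁ : ℝ) ≤ wtZ (v j) α - k - 1 := by
      have h8 : (wtZ (v j) β₁ : ℝ) ≤ wtZ (v j) β := by exact_mod_cast hβ₁min β hβ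
      have h9 : (wtZ (v j) α : ℝ) = wtZ (v j) β + k + 1 := by rw [hk]; push_cast; ring
      linarith
    rw [h4, hwt] at h3
    push_cast at h3
    have hpR : (1 : ℝ) ≤ p := by exact_mod_cast hp0
    have hkR : (0 : ℝ) ≤ k := Nat.cast_nonneg k
    have h8 : ∑ i, (v j i : ℝ) - wtZ (v j) α - Φ (v j) ≤ -k := by linarith
    have h9 : (p : ℝ) * (∑ i, (v j i : ℝ) - wtZ (v j) α - Φ (v j)) ≤ p * (-k) :=
      mul_le_mul_of_nonneg_left h8 (by linarith)
    have h10 : (k : ℝ) ≤ p * k := by nlinarith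
    have h11 : (k : ℝ) * ε' ≤ k := by nlinarith
    have h12 : ((k : ℝ) + 1) * ε' ≤ (k + 1) * (∑ i, (a i : ℝ) - wtZ a α - Φ a) := by
      nlinarith
    exact le_of_mul_le_mul_left h12 (by positivity)

end Vale.Agent.P283.Z647
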