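import Vale.Agent.P283.Z647.Kron
import Vale.Agent.P283.H647.Cvx

/-!
The compactness theorem for all faces of a cone.
-/

set_option linter.all false

namespace Vale.Agent.P283.Z647

open Finset hiding val
open Vale.Agent.P283.H647

/-- Lifting of a vector which is nonnegative on `J`. -/
theorem lift_vec {N : ℕ} (M : AddSubgroup (Fin N → ℤ)) (J : Finset (Fin N)) (m₀ : Fin N → ℤ)
    (hm₀ : m₀ ∈ M) (h0 : ∀ j ∈ J, m₀ j = 0) (h1 : ∀ j, j ∉ J → 0 < m₀ j) (w : Fin N → ℤ)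
    (hw : ∀ j ∈ J, 0 ≤ w j) : ∃ w' : Fin N → ℕ, (∀ j ∈ J, (w' j : ℤ) = w j) ∧
      (fun j => (w' j : ℤ) - w j) ∈ M := by
  classical
  let T : ℤ := ∑ j, |w j|
  have hT : ∀ j, |w j| ≤ T := fun j =>
    Finset.single_le_sum (f := fun j => |w j|) (fun j _ => abs_nonneg _) (Finset.mem_univ j)
  have h2 : ∀ j, 0 ≤ w j + T * m₀ j := by
    intro j
    by_cases hj : j ∈ J
    · rw [h0 j hj, mul_zero, add_zero]; exact hw j hj
    · have h3 := hT j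
      have h4 := neg_abs_le (w j)
      have h5 := h1 j hj
      have h6 : 0 ≤ T := le_trans (abs_nonneg _) h3
      nlinarith
  refine ⟨fun j => (w j + T * m₀ j).toNat, fun j hj => ?_, ?_⟩
  · rw [Int.toNat_of_nonneg (h2 j), h0 j hj, mul_zero, add_zero]
  · have h3 : (fun j => (((w j + T * m₀ j).toNat : ℕ) : ℤ) - w j) = T • m₀ := by
      funext j
      rw [Int.toNat_of_nonneg (h2 j)]
      simp only [Pi.smul_apply, smul_eq_mul]; ring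
    rw [h3]
    exact M.zsmul_mem hm₀ _

/-- One face. -/
theorem cvx_faceT {N : ℕ} (κ : Fin N → ℕ) {ε : ℝ} (hε : 0 < ε)
    (J : Finset (Fin N)) : ∃ k₀ : ℕ, 0 < k₀ ∧
      ∀ (S : Finset (Fin N → ℕ)) (M : AddSubgroup (Fin N → ℤ)),
      (∃ m ∈ M, (∀ j ∈ J, m j = 0) ∧ ∀ j, j ∉ J → 0 < m j) →
      (∀ α ∈ S, ∀ β ∈ S, (fun j => (α j : ℤ) - β j) ∈ M) →
      (∀ a : Fin N → ℝ, (∀ j ∈ J, 0 < a j) → (∀ j, j ∉ J → a j = 0) →
        (∀ m ∈ M, ∃ z : ℤ, ∑ j, a j * m j = z) → ∃ α ∈ S, ε ≤ val 1 κ α a) →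
      ∀ k : ℕ, k₀ ∣ k → 0 < k → ∃ E : Finset (Fin N → ℕ),
        (∀ e ∈ E, ∀ α ∈ S, (fun j => (e j : ℤ) - k * κ j + k * α j) ∈ M) ∧
        ∀ a : Fin N → ℝ, (∀ j ∈ J, 0 < a j) → (∀ j, j ∉ J → a j = 0) → ∃ e ∈ E, ∃ α ∈ S,
          ∑ j, (e j : ℝ) * a j < k * val 1 κ α a := by
  classical
  obtain ⟨k₀, hk₀, hmain⟩ := cvx_fixed' (ι := J) 1 one_pos (fun j => κ j) hε
  refine ⟨k₀, hk₀, fun S M hJM hSM hh k hk hkpos => ?_⟩
  obtain ⟨m₀, hm₀, hm₀0, hm₀1⟩ := hJM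
  have hval : ∀ (α : Fin N → ℕ) (a : Fin N → ℝ), (∀ j, j ∉ J → a j = 0) →
      val 1 κ α a = val 1 (fun j : J => κ j) (fun j : J => α j) (fun j : J => a j) := by
    intro α a ha
    unfold val
    exact sum_face J a ha fun j => (κ j : ℝ) - (1 : ℕ) * α j
  let ext : (J → ℝ) → Fin N → ℝ := fun a j => if h : j ∈ J then a ⟨j, h⟩ else 0
  have ext0 : ∀ a j, j ∉ J → ext a j = 0 := fun a j hj => by simp [ext, hj]
  have ext1 : ∀ (a : J → ℝ) (j : J), ext a j = a j := fun a j => by simp [ext]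
  obtain ⟨E₀, hE₀1, hE₀2⟩ := hmain (S.image fun α (j : J) => α j) (M.map (resZ J)) (by
    intro α hα β hβ
    obtain ⟨α', hα', rfl⟩ := Finset.mem_image.1 hα
    obtain ⟨β', hβ', rfl⟩ := Finset.mem_image.1 hβ
    exact ⟨_, hSM α' hα' β' hβ', rfl⟩) (by
    intro a ha hM
    obtain ⟨α, hα, hα'⟩ := hh (ext a) (fun j hj => by
        have := ext1 a ⟨j, hj⟩
        simp only at this
        rw [this]; exact ha _) (ext0 a) (by
      intro m hm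
      obtain ⟨z, hz⟩ := hM (resZ J m) ⟨m, hm, rfl⟩
      refine ⟨z, ?_⟩
      rw [← hz, sum_face J (ext a) (ext0 a) (fun j => (m j : ℝ))]
      exact Finset.sum_congr rfl fun j _ => by rw [ext1]; rfl)
    refine ⟨fun j => α j, Finset.mem_image_of_mem _ hα, ?_⟩
    rw [hval α (ext a) (ext0 a)] at hα'
    have : (fun j : J => ext a j) = a := by funext j; exact ext1 a j
    rw [this] at hα'
    simpa using hα') k hk hkpos
  rcases S.eq_empty_or_nonempty with hS | ⟨α₁, hα₁⟩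
  · refine ⟨∅, by simp, fun a ha ha0 => ?_⟩
    obtain ⟨e, -, α, hα, -⟩ := hE₀2 (fun j : J => a j) (fun j => ha j j.2)
    rw [hS] at hα
    simp at hα
  have hlift : ∀ e₀ ∈ E₀, ∃ e : Fin N → ℕ, (∀ j : J, e j = e₀ j) ∧
      (fun j => (e j : ℤ) - k * κ j + k * α₁ j) ∈ M := by
    intro e₀ he₀
    obtain ⟨m, hm, hm'⟩ := hE₀1 e₀ he₀ (fun j => α₁ j) (Finset.mem_image_of_mem _ hα₁)
    have hw : ∀ j : J, m j + k * κ j - k * α₁ j = e₀ j := by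
      intro j
      have := congrFun hm' j
      simp only [resZ, AddMonoidHom.coe_mk, ZeroHom.coe_mk, Nat.cast_one, one_mul] at this
      rw [this]; ring
    obtain ⟨w', h1, h2⟩ := lift_vec M J m₀ hm₀ hm₀0 hm₀1
      (fun j => m j + k * κ j - k * α₁ j) (fun j hj => by
        have := hw ⟨j, hj⟩
        simp only at this
        rw [this]; positivity)
    refine ⟨w', fun j => ?_, ?_⟩
    · have h3 := h1 j j.2
      have h4 := hw j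
      have h5 : (w' j : ℤ) = e₀ j := by rw [h3]; exact h4
      exact_mod_cast h5
    · have h3 := M.add_mem h2 hm
      have h4 : ((fun j => (w' j : ℤ) - (m j + k * κ j - k * α₁ j)) + m) =
          (fun j => (w' j : ℤ) - k * κ j + k * α₁ j) := by
        funext j
        simp only [Pi.add_apply]; ring
      rw [h4] at h3; exact h3
  choose! lft hlft1 hlft2 using hlift
  refine ⟨E₀.image lft, fun e he α hα => ?_, fun a ha ha0 => ?_⟩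
  · obtain ⟨e₀, he₀, rfl⟩ := Finset.mem_image.1 he
    have h1 := M.add_mem (hlft2 e₀ he₀) (M.zsmul_mem (hSM α hα α₁ hα₁) (k : ℤ))
    have h2 : (fun j => ((lft e₀ j : ℕ) : ℤ) - k * κ j + k * α j) =
        (fun j => ((lft e₀ j : ℕ) : ℤ) - k * κ j + k * α₁ j) +
        (k : ℤ) • (fun j => (α j : ℤ) - α₁ j) := by
      funext j
      simp only [Pi.add_apply, Pi.smul_apply, smul_eq_mul]; ring
    rw [h2]; exact h1
  · obtain ⟨e₀, he₀, α, hα, hlt⟩ := hE₀2 (fun j : J => a j) (fun j => ha j j.2)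
    obtain ⟨α', hα', rfl⟩ := Finset.mem_image.1 hα
    refine ⟨lft e₀, Finset.mem_image_of_mem _ he₀, α', hα', ?_⟩
    rw [hval α' a ha0]
    refine lt_of_eq_of_lt ?_ hlt
    have h1 : ∑ j, (lft e₀ j : ℝ) * a j = ∑ j, a j * (lft e₀ j : ℝ) :=
      Finset.sum_congr rfl fun j _ => mul_comm _ _
    rw [h1, sum_face J a ha0 (fun j => (lft e₀ j : ℝ))]
    exact Finset.sum_congr rfl fun j _ => by rw [hlft1 e₀ he₀ j, mul_comm]

/-- All faces. -/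
theorem cvx_T (N Q : ℕ) {ε : ℝ} (hε : 0 < ε) : ∃ k₀ : ℕ, 0 < k₀ ∧
      ∀ (κ : Fin N → ℕ), (∀ j, κ j ≤ Q) →
      ∀ (S : Finset (Fin N → ℕ)) (M : AddSubgroup (Fin N → ℤ)),
      (∃ m ∈ M, ∀ j, 0 < m j) →
      (∀ α ∈ S, ∀ β ∈ S, (fun j => (α j : ℤ) - β j) ∈ M) →
      ∀ k : ℕ, k₀ ∣ k → 0 < k → ∃ E : Finset (Fin N → ℕ), E.Nonempty ∧
        (∀ e ∈ E, ∀ α ∈ S, (fun j => (e j : ℤ) - k * κ j + k * α j) ∈ M) ∧
        ∀ J : Finset (Fin N), (∃ m ∈ M, (∀ j ∈ J, m j = 0) ∧ ∀ j, j ∉ J → 0 < m j) →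
          (∀ a : Fin N → ℝ, (∀ j ∈ J, 0 < a j) → (∀ j, j ∉ J → a j = 0) →
            (∀ m ∈ M, ∃ z : ℤ, ∑ j, a j * m j = z) → ∃ α ∈ S, ε ≤ val 1 κ α a) →
          ∀ a : Fin N → ℝ, (∀ j ∈ J, 0 < a j) → (∀ j, j ∉ J → a j = 0) → ∃ e ∈ E, ∃ α ∈ S,
            ∑ j, (e j : ℝ) * a j < k * val 1 κ α a := by
  classical
  choose k₀ hk₀ hmain using fun (κJ : (Fin N → Fin (Q + 1)) × Finset (Fin N)) =>
    cvx_faceT (fun j => (κJ.1 j : ℕ)) hε κJ.2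
  refine ⟨∏ x, k₀ x, Finset.prod_pos fun x _ => hk₀ x,
    fun κ hκ S M hpt hSM k hk hkpos => ?_⟩
  let κ' : Fin N → Fin (Q + 1) := fun j => ⟨κ j, Nat.lt_succ_of_le (hκ j)⟩
  have hJ : ∀ J : Finset (Fin N), ∃ E : Finset (Fin N → ℕ),
        (∀ e ∈ E, ∀ α ∈ S, (fun j => (e j : ℤ) - k * κ j + k * α j) ∈ M) ∧
        ((∃ m ∈ M, (∀ j ∈ J, m j = 0) ∧ ∀ j, j ∉ J → 0 < m j) →
          (∀ a : Fin N → ℝ, (∀ j ∈ J, 0 < a j) → (∀ j, j ∉ J → a j = 0) →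
            (∀ m ∈ M, ∃ z : ℤ, ∑ j, a j * m j = z) → ∃ α ∈ S, ε ≤ val 1 κ α a) →
          ∀ a : Fin N → ℝ, (∀ j ∈ J, 0 < a j) → (∀ j, j ∉ J → a j = 0) → ∃ e ∈ E, ∃ α ∈ S,
            ∑ j, (e j : ℝ) * a j < k * val 1 κ α a) := by
    intro J
    by_cases hJM : ∃ m ∈ M, (∀ j ∈ J, m j = 0) ∧ ∀ j, j ∉ J → 0 < m j
    · by_cases hh : ∀ a : Fin N → ℝ, (∀ j ∈ J, 0 < a j) → (∀ j, j ∉ J → a j = 0) →
            (∀ m ∈ M, ∃ z : ℤ, ∑ j, a j * m j = z) → ∃ α ∈ S, ε ≤ val 1 κ α a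
      · obtain ⟨E, h1, h2⟩ := hmain (κ', J) S M hJM hSM hh k
          (dvd_trans (Finset.dvd_prod_of_mem k₀ (Finset.mem_univ _)) hk) hkpos
        exact ⟨E, h1, fun _ _ => h2⟩
      · exact ⟨∅, by simp, fun _ h => absurd h hh⟩
    · exact ⟨∅, by simp, fun h => absurd h hJM⟩
  choose E hE1 hE2 using hJ
  obtain ⟨m₀, hm₀, hm₀'⟩ := hpt
  -- one more exponent
  obtain ⟨e₀, he₀⟩ : ∃ e₀ : Fin N → ℕ, ∀ α ∈ S,
      (fun j => (e₀ j : ℤ) - k * κ j + k * α j) ∈ M := by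
    rcases S.eq_empty_or_nonempty with hS | ⟨α₁, hα₁⟩
    · exact ⟨0, by simp [hS]⟩
    obtain ⟨w', -, h2⟩ := lift_vec M ∅ m₀ hm₀ (by simp) (fun j _ => hm₀' j)
      (fun j => k * κ j - k * α₁ j) (by simp)
    refine ⟨w', fun α hα => ?_⟩
    have h3 := M.add_mem h2 (M.zsmul_mem (hSM α hα α₁ hα₁) (k : ℤ))
    have h4 : ((fun j => (w' j : ℤ) - (k * κ j - k * α₁ j)) +
        (k : ℤ) • fun j => (α j : ℤ) - α₁ j) = (fun j => (w' j : ℤ) - k * κ j + k * α j) := by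
      funext j
      simp only [Pi.add_apply, Pi.smul_apply, smul_eq_mul]; ring
    rw [h4] at h3; exact h3
  refine ⟨insert e₀ (Finset.univ.biUnion E), ⟨e₀, Finset.mem_insert_self _ _⟩,
    fun e he α hα => ?_, fun J hJM hJ a ha ha0 => ?_⟩
  · rcases Finset.mem_insert.1 he with rfl | he
    · exact he₀ α hα
    · obtain ⟨J, -, hJ⟩ := Finset.mem_biUnion.1 he
      exact hE1 J e hJ α hα
  · obtain ⟨e, he, α, hα, hlt⟩ := hE2 J hJM hJ a ha ha0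
    exact ⟨e, Finset.mem_insert_of_mem (Finset.mem_biUnion.2 ⟨J, Finset.mem_univ _, he⟩), α, hα, hlt⟩

end Vale.Agent.P283.Z647
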