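import Vale.Agent.P283.Z647.Cvx
import Vale.Agent.P283.Z647.Lc

/-!
The exponents of the complement.
-/

set_option linter.all false

namespace Vale.Agent.P283.Z647

open MvPolynomial
open Finset hiding val
open Vale.Agent.P283.H647 (val ResForm HypData)

/-- The pairings of the integral vectors with the rays. -/
def pairHom {N m : ℕ} (v : Fin N → Fin m → ℤ) : (Fin m → ℤ) →+ (Fin N → ℤ) where
  toFun u := fun j => ∑ k, u k * v j k
  map_zero' := by funext j; simp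
  map_add' u u' := by
    funext j
    simp only [Pi.add_apply, add_mul, Finset.sum_add_distrib]

theorem expos_abs (N Q : ℕ) {ε : ℝ} (hε : 0 < ε) : ∃ k₀ : ℕ, 0 < k₀ ∧
    ∀ (m : ℕ) (v : Fin N → Fin m → ℤ), (∃ u : Fin m → ℤ, ∀ j, 0 < ∑ k, v j k * u k) →
    ∀ (Ls : Finset (Fin m → ℤ)), Ls.Nonempty → ∀ (t : Fin N → ℤ),
      (∀ j, ∀ ℓ ∈ Ls, ∑ k, ℓ k * v j k ≤ t j) →
    ∀ (T : Fin N → ℤ) (κ : Fin N → ℕ), (∀ j, (κ j : ℤ) = t j - T j) → (∀ j, κ j ≤ Q) →
    ∀ k : ℕ, k₀ ∣ k → 0 < k → ∃ Ee : Finset (Fin m → ℤ), Ee.Nonempty ∧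
      (∀ γ ∈ Ee, ∀ j, k * T j ≤ ∑ i, γ i * v j i) ∧
      ∀ J : Finset (Fin N), (∃ u : Fin m → ℤ, (∀ j ∈ J, ∑ k, v j k * u k = 0) ∧
        ∀ j, j ∉ J → 0 < ∑ k, v j k * u k) →
        (∀ c : Fin N → ℝ, (∀ j ∈ J, 0 < c j) → (∀ j, j ∉ J → c j = 0) →
          ∀ a : Fin m → ℤ, (∀ k, (a k : ℝ) = ∑ j, c j * v j k) →
          ∃ ℓ ∈ Ls, ε ≤ ∑ k, (ℓ k : ℝ) * a k - ∑ j, c j * T j) →
        ∀ c : Fin N → ℝ, (∀ j ∈ J, 0 < c j) → (∀ j, j ∉ J → c j = 0) → ∃ γ ∈ Ee, ∃ ℓ ∈ Ls,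
          ∑ j, c j * ∑ i, (γ i : ℝ) * v j i < k * ∑ j, c j * ∑ i, (ℓ i : ℝ) * v j i := by
  classical
  obtain ⟨k₀, hk₀, hmain⟩ := cvx_T N Q hε
  refine ⟨k₀, hk₀, ?_⟩
  intro m v hpt Ls hLs t ht T κ hκ hκQ k hk hk0
  let hat : (Fin m → ℤ) → (Fin N → ℕ) := fun ℓ j => (t j - ∑ k, ℓ k * v j k).toNat
  have hhat : ∀ ℓ ∈ Ls, ∀ j, ((hat ℓ j : ℕ) : ℤ) = t j - ∑ k, ℓ k * v j k := by
    intro ℓ hℓ j
    exact Int.toNat_of_nonneg (by have := ht j ℓ hℓ; omega)
  have hval : ∀ ℓ ∈ Ls, ∀ c : Fin N → ℝ, val 1 κ (hat ℓ) c =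
      ∑ j, c j * ∑ i, (ℓ i : ℝ) * v j i - ∑ j, c j * T j := by
    intro ℓ hℓ c
    unfold val
    rw [← Finset.sum_sub_distrib]
    refine Finset.sum_congr rfl fun j _ => ?_
    have h1 : ((hat ℓ j : ℕ) : ℝ) = t j - ∑ k, (ℓ k : ℝ) * v j k := by
      have := congrArg (Int.cast : ℤ → ℝ) (hhat ℓ hℓ j)
      push_cast at this
      exact this
    have h2 : (κ j : ℝ) = t j - T j := by
      have := congrArg (Int.cast : ℤ → ℝ) (hκ j)
      push_cast at this
      exact this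
    rw [h1, h2]
    push_cast
    ring
  obtain ⟨E, hE, hE1, hE2⟩ := hmain κ hκQ (Ls.image hat) (pairHom v).range
    (by
      obtain ⟨u, hu⟩ := hpt
      refine ⟨pairHom v u, ⟨u, rfl⟩, fun j => ?_⟩
      have h1 := hu j
      simp only [pairHom, AddMonoidHom.coe_mk, ZeroHom.coe_mk]
      rw [Finset.sum_congr rfl fun k _ => mul_comm (u k) (v j k)]
      exact h1)
    (by
      intro α hα β hβ
      obtain ⟨ℓ, hℓ, rfl⟩ := Finset.mem_image.1 hα
      obtain ⟨ℓ', hℓ', rfl⟩ := Finset.mem_image.1 hβ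
      refine ⟨ℓ' - ℓ, ?_⟩
      funext j
      simp only [pairHom, AddMonoidHom.coe_mk, ZeroHom.coe_mk, Pi.sub_apply, sub_mul,
        Finset.sum_sub_distrib]
      rw [hhat ℓ hℓ, hhat ℓ' hℓ']
      ring) k hk hk0
  obtain ⟨ℓ₀, hℓ₀⟩ := hLs
  have hlift : ∀ e ∈ E, ∃ γ : Fin m → ℤ, ∀ j, ∑ i, γ i * v j i = (e j : ℤ) + k * T j := by
    intro e he
    obtain ⟨p, hp⟩ := hE1 e he (hat ℓ₀) (Finset.mem_image_of_mem _ hℓ₀)
    refine ⟨p + (k : ℤ) • ℓ₀, fun j => ?_⟩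
    have h1 := congrFun hp j
    simp only [pairHom, AddMonoidHom.coe_mk, ZeroHom.coe_mk] at h1
    rw [hhat ℓ₀ hℓ₀, hκ] at h1
    have h2 : ∑ i, (p + (k : ℤ) • ℓ₀) i * v j i = ∑ i, p i * v j i + k * ∑ i, ℓ₀ i * v j i := by
      rw [Finset.mul_sum, ← Finset.sum_add_distrib]
      refine Finset.sum_congr rfl fun i _ => ?_
      simp only [Pi.add_apply, Pi.smul_apply, smul_eq_mul]; ring
    rw [h2, h1]; ring
  choose! lf hlf using hlift
  refine ⟨E.image lf, hE.image _, ?_, ?_⟩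
  · intro γ hγ j
    obtain ⟨e, he, rfl⟩ := Finset.mem_image.1 hγ
    rw [hlf e he j]
    have : (0 : ℤ) ≤ e j := by positivity
    omega
  · intro J hJ hh c hc hc'
    obtain ⟨e, he, α, hα, hlt⟩ := hE2 J (by
      obtain ⟨u, hu, hu'⟩ := hJ
      refine ⟨pairHom v u, ⟨u, rfl⟩, fun j hj => ?_, fun j hj => ?_⟩
      · simp only [pairHom, AddMonoidHom.coe_mk, ZeroHom.coe_mk]
        rw [Finset.sum_congr rfl fun k _ => mul_comm (u k) (v j k)]
        exact hu j hj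
      · simp only [pairHom, AddMonoidHom.coe_mk, ZeroHom.coe_mk]
        rw [Finset.sum_congr rfl fun k _ => mul_comm (u k) (v j k)]
        exact hu' j hj) (by
      intro b hb hb' hbM
      have hz : ∀ i, ∃ z : ℤ, (z : ℝ) = ∑ j, b j * v j i := by
        intro i
        obtain ⟨z, hz⟩ := hbM _ ⟨Pi.single i 1, rfl⟩
        refine ⟨z, ?_⟩
        rw [← hz]
        refine Finset.sum_congr rfl fun j _ => ?_
        simp only [pairHom, AddMonoidHom.coe_mk, ZeroHom.coe_mk]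
        rw [Finset.sum_eq_single i]
        · simp
        · intro k _ hk; simp [Pi.single_eq_of_ne hk]
        · intro h; exact absurd (Finset.mem_univ _) h
      choose z hz using hz
      obtain ⟨ℓ, hℓ, hle⟩ := hh b hb hb' z hz
      refine ⟨hat ℓ, Finset.mem_image_of_mem _ hℓ, ?_⟩
      rw [hval ℓ hℓ]
      refine le_trans hle (le_of_eq ?_)
      congr 1
      simp only [hz, Finset.mul_sum]
      rw [Finset.sum_comm]
      exact Finset.sum_congr rfl fun j _ => Finset.sum_congr rfl fun i _ => by ring) c hc hc'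
    obtain ⟨ℓ, hℓ, rfl⟩ := Finset.mem_image.1 hα
    refine ⟨lf e, Finset.mem_image_of_mem _ he, ℓ, hℓ, ?_⟩
    rw [hval ℓ hℓ] at hlt
    have h1 : ∑ j, c j * ∑ i, (lf e i : ℝ) * v j i =
        ∑ j, (e j : ℝ) * c j + k * ∑ j, c j * T j := by
      rw [Finset.mul_sum, ← Finset.sum_add_distrib]
      refine Finset.sum_congr rfl fun j _ => ?_
      have h2 : ∑ i, (lf e i : ℝ) * v j i = e j + k * T j := by
        have := congrArg (Int.cast : ℤ → ℝ) (hlf e he j)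
        push_cast at this
        exact this
      rw [h2]; ring
    rw [h1]
    have h3 : (k : ℝ) * (∑ j, c j * ∑ i, (ℓ i : ℝ) * v j i - ∑ j, c j * T j) =
        k * ∑ j, c j * ∑ i, (ℓ i : ℝ) * v j i - k * ∑ j, c j * T j := by ring
    rw [h3] at hlt
    linarith

variable {m N s M : ℕ}

/-- The functional attached to exponents of `f` and of the `g i`. -/
def ell (q : ℕ) (cq : Fin s → ℕ) (α : Fin m →₀ ℕ) (β : Fin s → (Fin m →₀ ℕ)) : Fin m → ℤ :=
  fun k => q * (1 - (α k : ℤ)) - ∑ i, cq i * (β i k : ℤ)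

theorem ell_pair (q : ℕ) (cq : Fin s → ℕ) (α : Fin m →₀ ℕ) (β : Fin s → (Fin m →₀ ℕ))
    (a : Fin m → ℤ) : ∑ k, ell q cq α β k * a k =
      q * (∑ k, a k - wtZ a α) - ∑ i, cq i * wtZ a (β i) := by
  unfold ell wtZ
  simp only [sub_mul, Finset.sum_sub_distrib, Finset.sum_mul, Finset.mul_sum, mul_sub]
  congr 1
  · congr 1
    · exact Finset.sum_congr rfl fun k _ => by ring
    · exact Finset.sum_congr rfl fun k _ => by ring
  · rw [Finset.sum_comm]
    exact Finset.sum_congr rfl fun i _ => Finset.sum_congr rfl fun k _ => by ring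

theorem exists_exposP (e N q : ℕ) (hq : 0 < q) {ε : ℝ} (hε : 0 < ε) : ∃ k₀ : ℕ, 0 < k₀ ∧
    ∀ (L : Type) [Field L] [Algebra ℂ L] {s M : ℕ} (y : Fin (e + 2) → L)
      (f : MvPolynomial (Fin (e + 2)) ℂ) (g : Fin s → MvPolynomial (Fin (e + 2)) ℂ)
      (v : Fin N → Fin (e + 2) → ℤ) (H : HypData y f) (D' : Fin (e + 1) → Derivation ℂ L L)
      (h : L) (R : ResForm y f D' h) (hg : ∀ i, aeval y (g i) ≠ 0)
      (hnd : ∀ a, InCone v a → RegZ f a) (hpt : ∃ u : Fin (e + 2) → ℤ, ∀ j, 0 < ∑ k, v j k * u k)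
      (c : Fin s → ℚ) (cq : Fin s → ℕ) (hcq : ∀ i, (cq i : ℚ) = q * c i) (r : ℕ) (hr : 0 < r)
      (E : Fin (M + 1) → Fin (e + 2) → ℤ)
      (κ : Fin N → ℕ) (hκ : ∀ j, (κ j : ℚ) = q * toricDisc f g c r E (v j))
      (hκq : ∀ j, κ j ≤ q) (hlc : LcZ v y D' h g c r E ε) (k : ℕ) (hk : k₀ ∣ k) (hk0 : 0 < k),
      ∃ Ee : Finset (Fin (e + 2) → ℤ), Ee.Nonempty ∧
        (∀ γ ∈ Ee, ∀ j,
          k * (q * (∑ i, v j i - minWt f (v j)) - ∑ i, cq i * minWt (g i) (v j) - κ j) ≤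
            ∑ i, γ i * v j i) ∧
        ∀ a, InCone v a → a ≠ 0 → NonMonoZ f a → ∃ γ ∈ Ee,
          ∑ i, γ i * a i < k * (q * (∑ i, a i - minWt f a) - ∑ i, cq i * minWt (g i) a) := by
  classical
  have hqR : (0 : ℝ) < q := by exact_mod_cast hq
  obtain ⟨k₀, hk₀, hmain⟩ := expos_abs N q (ε := q * min ε 1) (mul_pos hqR (lt_min hε one_pos))
  refine ⟨k₀, hk₀, ?_⟩
  intro L _ _ s M y f g v H D' h R hg hnd hpt c cq hcq r hr E κ hκ hκq hlc k hk hk0
  have hg0 : ∀ i, g i ≠ 0 := fun i h0 => hg i (by rw [h0, map_zero])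
  have hrQ : (0 : ℚ) < r := by exact_mod_cast hr
  have hrR : (0 : ℝ) < r := by exact_mod_cast hr
  have hqQ : (0 : ℚ) < q := by exact_mod_cast hq
  have hc0 : ∀ i, 0 ≤ c i := by
    intro i
    have h1 : (0 : ℚ) ≤ q * c i := by rw [← hcq i]; positivity
    exact nonneg_of_mul_nonneg_right h1 hqQ
  let Ls : Finset (Fin (e + 2) → ℤ) :=
    (f.support ×ˢ Fintype.piFinset (fun i => (g i).support)).image fun p => ell q cq p.1 p.2
  -- the largest value of the functionals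
  let top : (Fin (e + 2) → ℤ) → ℤ := fun a =>
    q * (∑ k, a k - minWt f a) - ∑ i, cq i * minWt (g i) a
  have htop : ∀ a, ∀ ℓ ∈ Ls, ∑ k, ℓ k * a k ≤ top a := by
    intro a ℓ hℓ
    obtain ⟨p, hp, rfl⟩ := Finset.mem_image.1 hℓ
    obtain ⟨hp1, hp2⟩ := Finset.mem_product.1 hp
    rw [Fintype.mem_piFinset] at hp2
    rw [ell_pair]
    have h1 := (isMinZ_minWt H.f0 a).2 _ hp1
    have h2 : ∑ i, (cq i : ℤ) * minWt (g i) a ≤ ∑ i, (cq i : ℤ) * wtZ a (p.2 i) :=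
      Finset.sum_le_sum fun i _ => mul_le_mul_of_nonneg_left
        ((isMinZ_minWt (hg0 i) a).2 _ (hp2 i)) (by positivity)
    have h3 : (q : ℤ) * (∑ k, a k - wtZ a p.1) ≤ q * (∑ k, a k - minWt f a) :=
      mul_le_mul_of_nonneg_left (by omega) (by positivity)
    simp only [top]
    omega
  have hatt : ∀ a, ∀ α ∈ f.support, ∃ ℓ ∈ Ls, ∑ k, ℓ k * a k =
      q * (∑ k, a k - wtZ a α) - ∑ i, cq i * minWt (g i) a := by
    intro a α hα
    choose β hβ hβ' using fun i => (isMinZ_minWt (hg0 i) a).1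
    refine ⟨ell q cq α β, Finset.mem_image.2 ⟨(α, β), Finset.mem_product.2
      ⟨hα, Fintype.mem_piFinset.2 hβ⟩, rfl⟩, ?_⟩
    rw [ell_pair]
    simp only [hβ']
  obtain ⟨α₀, hα₀⟩ := support_nonempty.2 H.f0
  have hLs : Ls.Nonempty := by
    obtain ⟨ℓ, hℓ, -⟩ := hatt 0 α₀ hα₀
    exact ⟨ℓ, hℓ⟩
  -- the values on the rays
  let T : Fin N → ℤ := fun j => top (v j) - κ j
  have hT : ∀ j, (T j : ℚ) = q * ((ordMono E (v j) : ℚ) / r) := by
    intro j
    have h1 := hκ j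
    simp only [T, top]
    push_cast
    rw [h1]
    unfold toricDisc
    have h2 : ∑ i, (cq i : ℚ) * (minWt (g i) (v j) : ℚ) = q * ∑ i, c i * minWt (g i) (v j) := by
      rw [Finset.mul_sum]
      exact Finset.sum_congr rfl fun i _ => by rw [hcq]; ring
    rw [h2]; ring
  have hTR : ∀ j, (T j : ℝ) = q * ((ordMono E (v j) : ℝ) / r) := by
    intro j
    have := congrArg (Rat.cast : ℚ → ℝ) (hT j)
    push_cast at this
    exact this
  obtain ⟨Ee, hEe, hE1, hE2⟩ := hmain (e + 2) v hpt Ls hLs (fun j => top (v j))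
    (fun j ℓ hℓ => htop (v j) ℓ hℓ) T κ (fun j => by simp only [T]; ring) hκq k hk hk0
  refine ⟨Ee, hEe, ?_, ?_⟩
  · intro γ hγ j
    exact hE1 γ hγ j
  · intro a ha ha0 hnm
    obtain ⟨J, c₀, hc₀, hc₀', hca, u, hu, hu'⟩ := cone_face v hpt a ha
    have hcaR : ∀ k, (a k : ℝ) = ∑ j, ((c₀ j : ℚ) : ℝ) * v j k := by
      intro k
      have := congrArg (Rat.cast : ℚ → ℝ) (hca k)
      push_cast at this
      exact this
    have hpairR : ∀ (b : Fin (e + 2) → ℤ) (c' : Fin N → ℝ), (∀ k, (b k : ℝ) = ∑ j, c' j * v j k) →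
        ∀ γ : Fin (e + 2) → ℤ, ((∑ i, γ i * b i : ℤ) : ℝ) = ∑ j, c' j * ∑ i, (γ i : ℝ) * v j i := by
      intro b c' hb γ
      push_cast
      simp only [hb, Finset.mul_sum]
      rw [Finset.sum_comm]
      exact Finset.sum_congr rfl fun j _ => Finset.sum_congr rfl fun k _ => by ring
    obtain ⟨γ, hγ, ℓ, hℓ, hlt⟩ := hE2 J ⟨u, hu, hu'⟩ (by
      intro c' hc' hc'' b hb
      obtain ⟨α, hα, hα'⟩ := ext_Z v hpt f (Phi g c r E) (fun a b k p => Phi_comb hg0 hc0 r E a b k p)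
        ε (min ε 1) (min_le_left _ _) (min_le_right _ _) (le_min hε.le zero_le_one)
        (fun A hA hnmA hA0 α hα hmin => psi_nonmonoZ H R hg hc0 hε hlc A hA (hnd A hA) hnmA hA0 α
          hα hmin)
        (by
          intro j β hβ hβmin
          have h1 : wtZ (v j) β = minWt f (v j) :=
            IsMinZ.unique ⟨⟨β, hβ, rfl⟩, hβmin⟩ (isMinZ_minWt H.f0 _)
          have h2 : toricDisc f g c r E (v j) ≤ 1 := by
            have h3 : (q : ℚ) * toricDisc f g c r E (v j) ≤ q * 1 := by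
              rw [← hκ j, mul_one]; exact_mod_cast hκq j
            exact le_of_mul_le_mul_left h3 hqQ
          have h3 : ((toricDisc f g c r E (v j) : ℚ) : ℝ) ≤ 1 := by exact_mod_cast h2
          unfold toricDisc at h3
          push_cast at h3
          rw [h1]
          unfold Phi
          linarith) J a (fun j => (c₀ j : ℝ)) (fun j hj => by exact_mod_cast hc₀ j hj)
        (fun j hj => by
          have := hc₀' j hj
          simp [this]) hcaR hnm ha0 b c' hc' hc'' hb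
      obtain ⟨ℓ, hℓ, hℓ'⟩ := hatt b α hα
      refine ⟨ℓ, hℓ, ?_⟩
      have h1 : ∑ k, (ℓ k : ℝ) * b k =
          q * (∑ k, (b k : ℝ) - wtZ b α) - ∑ i, (cq i : ℝ) * minWt (g i) b := by
        have := congrArg (Int.cast : ℤ → ℝ) hℓ'
        push_cast at this
        exact this
      have h2 : ∑ i, (cq i : ℝ) * (minWt (g i) b : ℝ) = q * ∑ i, (c i : ℝ) * minWt (g i) b := by
        rw [Finset.mul_sum]
        refine Finset.sum_congr rfl fun i _ => ?_
        have h3 : (cq i : ℝ) = q * (c i : ℝ) := by exact_mod_cast hcq i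
        rw [h3]; ring
      have h3 : ∑ j, c' j * T j ≤ q * ((ordMono E b : ℝ) / r) := by
        obtain ⟨i, hi⟩ := ordMono_attained E b
        have h4 : (ordMono E b : ℝ) = ∑ j, c' j * ∑ k, (E i k : ℝ) * v j k := by
          rw [hi]; exact hpairR b c' hb (E i)
        rw [h4, Finset.sum_div, Finset.mul_sum]
        refine Finset.sum_le_sum fun j _ => ?_
        rw [hTR j]
        have h5 : (ordMono E (v j) : ℝ) ≤ ∑ k, (E i k : ℝ) * v j k := by
          exact_mod_cast ordMono_le E (v j) i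
        have h6 : 0 ≤ c' j := by
          by_cases hj : j ∈ J
          · exact (hc' j hj).le
          · rw [hc'' j hj]
        calc c' j * (q * ((ordMono E (v j) : ℝ) / r)) = q * (c' j * (ordMono E (v j) : ℝ) / r) := by
              ring
          _ ≤ q * (c' j * (∑ k, (E i k : ℝ) * v j k) / r) := by
              refine mul_le_mul_of_nonneg_left ?_ hqR.le
              refine div_le_div_of_nonneg_right ?_ hrR.le
              exact mul_le_mul_of_nonneg_left h5 h6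
      unfold Phi at hα'
      rw [h1, h2]
      have h4 := mul_le_mul_of_nonneg_left hα' hqR.le
      have h5 : (q : ℝ) * (∑ k, (b k : ℝ) - wtZ b α - (∑ i, (c i : ℝ) * minWt (g i) b +
          (ordMono E b : ℝ) / r)) = q * (∑ k, (b k : ℝ) - wtZ b α) -
          q * ∑ i, (c i : ℝ) * minWt (g i) b - q * ((ordMono E b : ℝ) / r) := by ring
      rw [h5] at h4
      linarith) (fun j => (c₀ j : ℝ)) (fun j hj => by exact_mod_cast hc₀ j hj)
      (fun j hj => by
        have := hc₀' j hj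
        simp [this])
    refine ⟨γ, hγ, ?_⟩
    rw [← hpairR a _ hcaR γ, ← hpairR a _ hcaR ℓ] at hlt
    have h1 : ∑ i, γ i * a i < k * ∑ i, ℓ i * a i := by exact_mod_cast hlt
    refine lt_of_lt_of_le h1 ?_
    exact mul_le_mul_of_nonneg_left (htop a ℓ hℓ) (by positivity)

end Vale.Agent.P283.Z647
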