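import Vale.Agent.P283.Z647.Defs
import Vale.Agent.P283.H647.Init

/-!
Values of polynomials and initial forms, for integral weights.
-/

set_option linter.all false

namespace Vale.Agent.P283.Z647

open MvPolynomial Finset

variable {N : ℕ}

/-- `m` is the least weight of a term of `f`. -/
def IsMinZ (f : MvPolynomial (Fin N) ℂ) (b : Fin N → ℤ) (m : ℤ) : Prop :=
  (∃ α ∈ f.support, wtZ b α = m) ∧ ∀ β ∈ f.support, m ≤ wtZ b β

theorem exists_isMinZ {f : MvPolynomial (Fin N) ℂ} (hf : f ≠ 0) (b : Fin N → ℤ) :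
    ∃ m, IsMinZ f b m := by
  obtain ⟨α, hα, hmin⟩ := f.support.exists_min_image (fun e => wtZ b e)
    (Finset.nonempty_iff_ne_empty.2 fun h => hf (support_eq_empty.1 h))
  exact ⟨wtZ b α, ⟨α, hα, rfl⟩, hmin⟩

theorem IsMinZ.unique {f : MvPolynomial (Fin N) ℂ} {b : Fin N → ℤ} {m m' : ℤ}
    (h : IsMinZ f b m) (h' : IsMinZ f b m') : m = m' := by
  obtain ⟨⟨α, hα, hα'⟩, h1⟩ := h
  obtain ⟨⟨β, hβ, hβ'⟩, h2⟩ := h'
  exact le_antisymm (hβ' ▸ h1 β hβ) (hα' ▸ h2 α hα)

theorem wtZ_add (b : Fin N → ℤ) (α β : Fin N →₀ ℕ) : wtZ b (α + β) = wtZ b α + wtZ b β := by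
  unfold wtZ
  rw [← Finset.sum_add_distrib]
  exact Finset.sum_congr rfl fun i _ => by rw [Finsupp.add_apply]; push_cast; ring

theorem wtZ_zero (b : Fin N → ℤ) : wtZ b 0 = 0 := by simp [wtZ]

theorem coeff_inFormZ {f : MvPolynomial (Fin N) ℂ} {b : Fin N → ℤ} {m : ℤ} (hm : IsMinZ f b m)
    (α : Fin N →₀ ℕ) : (inFormZ f b).coeff α = if wtZ b α = m then f.coeff α else 0 := by
  classical
  unfold inFormZ
  rw [coeff_sum]
  simp only [coeff_monomial, Finset.sum_ite_eq']
  obtain ⟨⟨β, hβ, hβ'⟩, hmin⟩ := hm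
  by_cases hα : α ∈ f.support
  · by_cases hw : wtZ b α = m
    · rw [if_pos hw, if_pos]
      rw [Finset.mem_filter]
      exact ⟨hα, fun γ hγ => by rw [hw]; exact hmin γ hγ⟩
    · rw [if_neg hw, if_neg]
      rw [Finset.mem_filter]
      rintro ⟨-, h⟩
      exact hw (le_antisymm (by rw [← hβ']; exact h β hβ) (hmin α hα))
  · rw [notMem_support_iff.1 hα, if_neg, ite_self]
    rw [Finset.mem_filter]; exact fun h => hα h.1

/-- All terms have weight `m`. -/
def HomogZ (b : Fin N → ℤ) (P : MvPolynomial (Fin N) ℂ) (m : ℤ) : Prop :=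
  ∀ α ∈ P.support, wtZ b α = m

/-- All terms have weight at least `m`. -/
def AtLeastZ (b : Fin N → ℤ) (P : MvPolynomial (Fin N) ℂ) (m : ℤ) : Prop :=
  ∀ α ∈ P.support, m ≤ wtZ b α

theorem HomogZ.atLeast {b : Fin N → ℤ} {P : MvPolynomial (Fin N) ℂ} {m : ℤ} (h : HomogZ b P m) :
    AtLeastZ b P m := fun α hα => (h α hα).ge

theorem HomogZ.mul {b : Fin N → ℤ} {P Q : MvPolynomial (Fin N) ℂ} {m n : ℤ} (h : HomogZ b P m)
    (h' : HomogZ b Q n) : HomogZ b (P * Q) (m + n) := by
  classical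
  intro α hα
  obtain ⟨β, hβ, γ, hγ, rfl⟩ := Finset.mem_add.1 (support_mul P Q hα)
  rw [wtZ_add, h β hβ, h' γ hγ]

theorem HomogZ.one (b : Fin N → ℤ) : HomogZ b (1 : MvPolynomial (Fin N) ℂ) 0 := by
  classical
  intro α hα
  have h1 : α = 0 := by
    by_contra hne
    rw [mem_support_iff, MvPolynomial.coeff_one, if_neg (fun h => hne h.symm)] at hα
    exact hα rfl
  rw [h1, wtZ_zero]

theorem HomogZ.zero (b : Fin N → ℤ) (m : ℤ) : HomogZ b (0 : MvPolynomial (Fin N) ℂ) m := by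
  intro α hα
  simp at hα

theorem HomogZ.add {b : Fin N → ℤ} {P Q : MvPolynomial (Fin N) ℂ} {m : ℤ} (h : HomogZ b P m)
    (h' : HomogZ b Q m) : HomogZ b (P + Q) m := by
  classical
  intro α hα
  rcases Finset.mem_union.1 (support_add hα) with h1 | h1
  · exact h α h1
  · exact h' α h1

theorem HomogZ.smul {b : Fin N → ℤ} {P : MvPolynomial (Fin N) ℂ} {m : ℤ} (h : HomogZ b P m)
    (u : ℤˣ) : HomogZ b (u • P) m := by
  intro α hα
  apply h α
  rw [mem_support_iff] at hα ⊢
  intro h0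
  apply hα
  rcases Int.units_eq_one_or u with rfl | rfl
  · rw [one_smul]; exact h0
  · rw [Units.neg_smul, one_smul, coeff_neg, h0, neg_zero]

theorem HomogZ.prod {κ : Type} (s : Finset κ) {b : Fin N → ℤ} {P : κ → MvPolynomial (Fin N) ℂ}
    {m : κ → ℤ} (h : ∀ i ∈ s, HomogZ b (P i) (m i)) : HomogZ b (∏ i ∈ s, P i) (∑ i ∈ s, m i) := by
  classical
  induction s using Finset.induction_on with
  | empty => simpa using HomogZ.one b
  | insert a s ha ih =>
    rw [Finset.prod_insert ha, Finset.sum_insert ha]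
    exact (h a (Finset.mem_insert_self _ _)).mul (ih fun i hi => h i (Finset.mem_insert_of_mem hi))

theorem HomogZ.sum {κ : Type} (s : Finset κ) {b : Fin N → ℤ} {P : κ → MvPolynomial (Fin N) ℂ}
    {m : ℤ} (h : ∀ i ∈ s, HomogZ b (P i) m) : HomogZ b (∑ i ∈ s, P i) m := by
  classical
  induction s using Finset.induction_on with
  | empty => simpa using HomogZ.zero b m
  | insert a s ha ih =>
    rw [Finset.sum_insert ha]
    exact (h a (Finset.mem_insert_self _ _)).add (ih fun i hi => h i (Finset.mem_insert_of_mem hi))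

theorem HomogZ.det {n : ℕ} {b : Fin N → ℤ} {M : Matrix (Fin n) (Fin n) (MvPolynomial (Fin N) ℂ)}
    {ρ : Fin n → ℤ} (h : ∀ i j, HomogZ b (M i j) (ρ i)) : HomogZ b M.det (∑ i, ρ i) := by
  classical
  rw [Matrix.det_apply']
  refine HomogZ.sum _ fun σ _ => ?_
  have h1 : HomogZ b (∏ i, M (σ i) i) (∑ i, ρ i) := by
    have h2 := HomogZ.prod (b := b) Finset.univ (P := fun i => M (σ i) i) (m := fun i => ρ (σ i))
      fun i _ => h _ _
    rw [Equiv.sum_comp σ ρ] at h2
    exact h2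
  have h2 : ((Equiv.Perm.sign σ : ℤ) : MvPolynomial (Fin N) ℂ) * ∏ i, M (σ i) i =
      (Equiv.Perm.sign σ) • ∏ i, M (σ i) i := by
    rw [Units.smul_def, zsmul_eq_mul]
  rw [h2]
  exact h1.smul _

theorem inFormZ_homog {f : MvPolynomial (Fin N) ℂ} {b : Fin N → ℤ} {m : ℤ} (hm : IsMinZ f b m) :
    HomogZ b (inFormZ f b) m := by
  intro α hα
  by_contra h
  rw [mem_support_iff, coeff_inFormZ hm, if_neg h] at hα
  exact hα rfl

theorem logd_inFormZ_homog {f : MvPolynomial (Fin N) ℂ} {b : Fin N → ℤ} {m : ℤ}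
    (hm : IsMinZ f b m) (i : Fin N) : HomogZ b (X i * pderiv i (inFormZ f b)) m := by
  intro α hα
  by_contra h
  rw [mem_support_iff, H647.coeff_logd, coeff_inFormZ hm, if_neg h, mul_zero] at hα
  exact hα rfl

theorem diff_atLeastZ {f : MvPolynomial (Fin N) ℂ} {b : Fin N → ℤ} {m : ℤ} (hm : IsMinZ f b m) :
    AtLeastZ b (f - inFormZ f b) (m + 1) := by
  intro α hα
  rw [mem_support_iff, coeff_sub, coeff_inFormZ hm] at hα
  by_cases h : wtZ b α = m
  · rw [if_pos h, sub_self] at hα; exact absurd rfl hα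
  · rw [if_neg h, sub_zero] at hα
    have := hm.2 α (mem_support_iff.2 hα)
    omega

theorem logd_diff_atLeastZ {f : MvPolynomial (Fin N) ℂ} {b : Fin N → ℤ} {m : ℤ}
    (hm : IsMinZ f b m) (i : Fin N) :
    AtLeastZ b (X i * pderiv i f - X i * pderiv i (inFormZ f b)) (m + 1) := by
  intro α hα
  rw [mem_support_iff, coeff_sub, H647.coeff_logd, H647.coeff_logd, coeff_inFormZ hm] at hα
  by_cases h : wtZ b α = m
  · rw [if_pos h, sub_self] at hα; exact absurd rfl hα
  · rw [if_neg h, mul_zero, sub_zero] at hα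
    have := hm.2 α (mem_support_iff.2 (right_ne_zero_of_mul hα))
    omega

theorem logd_atLeastZ {f : MvPolynomial (Fin N) ℂ} {b : Fin N → ℤ} {m : ℤ}
    (hm : IsMinZ f b m) (i : Fin N) : AtLeastZ b (X i * pderiv i f) m := by
  intro α hα
  rw [mem_support_iff, H647.coeff_logd] at hα
  exact hm.2 α (mem_support_iff.2 (right_ne_zero_of_mul hα))

section Val

variable {L : Type} [Field L] [Algebra ℂ L] (w : AddValuation L (WithTop ℤ))
  (hc : ∀ c : ℂ, c ≠ 0 → w (algebraMap ℂ L c) = 0) (x : Fin N → L) (b : Fin N → ℤ)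
  (hb : ∀ j, w (x j) = (b j : WithTop ℤ))
include hc hb

theorem val_monoZ (α : Fin N →₀ ℕ) : w (∏ i, x i ^ α i) = (wtZ b α : WithTop ℤ) := by
  have h0 : ∀ j, x j ≠ 0 := fun j => ne_zero_of_eq w (hb j)
  have h1 : ∀ j, ov w (x j) = b j := fun j => ov_eq_of w (hb j)
  have hp : (∏ i, x i ^ α i) ≠ 0 := Finset.prod_ne_zero_iff.2 fun i _ => pow_ne_zero _ (h0 i)
  rw [← coe_ov w hp, ov_prod _ _ fun i _ => pow_ne_zero _ (h0 i)]
  congr 1
  unfold wtZ
  refine Finset.sum_congr rfl fun i _ => ?_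
  rw [ov_pow w (h0 i), h1]; ring

theorem val_lowerZ {P : MvPolynomial (Fin N) ℂ} {m : ℤ} (hP : AtLeastZ b P m) :
    (m : WithTop ℤ) ≤ w (aeval x P) := by
  rw [P.as_sum, map_sum]
  refine AddValuation.map_le_sum w fun α hα => ?_
  rw [aeval_monomial, Finsupp.prod_fintype _ _ (by simp), AddValuation.map_mul,
    hc _ (mem_support_iff.1 hα), zero_add, val_monoZ w hc x b hb]
  exact_mod_cast hP α hα

/-- If weighted homogeneous polynomials have no common zero in the torus, then one of them has the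
least possible value. -/
theorem init_existsZ (hn : ∃ t, w t = 1) {κ : Type} (P : κ → MvPolynomial (Fin N) ℂ) (m : κ → ℤ)
    (hP : ∀ k, HomogZ b (P k) (m k)) (hno : ∀ ξ : Fin N → ℂ, (∀ i, ξ i ≠ 0) →
      ∃ k, eval ξ (P k) ≠ 0) : ∃ k, w (aeval x (P k)) = (m k : WithTop ℤ) := by
  classical
  by_contra hcon
  push Not at hcon
  obtain ⟨t, ht⟩ := hn
  have ht0 : t ≠ 0 := ne_zero_of_eq w (n := 1) (by simpa using ht)
  have hto : ov w t = 1 := ov_eq_of w (n := 1) (by simpa using ht)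
  have hx0 : ∀ j, x j ≠ 0 := fun j => ne_zero_of_eq w (hb j)
  have hxo : ∀ j, ov w (x j) = b j := fun j => ov_eq_of w (hb j)
  set ξ : Fin N → L := fun j => x j * (t ^ b j)⁻¹ with hξ
  have hξ0 : ∀ j, ξ j ≠ 0 := fun j => mul_ne_zero (hx0 j) (inv_ne_zero (zpow_ne_zero _ ht0))
  have hξv : ∀ j, w (ξ j) = (((fun _ => 0) : Fin N → ℤ) j : WithTop ℤ) := by
    intro j
    rw [← coe_ov w (hξ0 j), hξ, ov_mul w (hx0 j) (inv_ne_zero (zpow_ne_zero _ ht0)), ov_inv,
      ov_zpow w ht0, hto, hxo]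
    simp
  have hnn : ∀ Q : MvPolynomial (Fin N) ℂ, 0 ≤ w (aeval ξ Q) := by
    intro Q
    have := val_lowerZ w hc ξ (fun _ => 0) hξv (P := Q) (m := 0) (fun α _ => by simp [wtZ])
    simpa using this
  -- homogeneity
  have hhom : ∀ k, aeval x (P k) = t ^ m k * aeval ξ (P k) := by
    intro k
    have h1 : aeval x (P k) = ∑ α ∈ (P k).support, algebraMap ℂ L ((P k).coeff α) * ∏ i, x i ^ α i := by
      conv_lhs => rw [(P k).as_sum, map_sum]
      refine Finset.sum_congr rfl fun α _ => ?_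
      rw [aeval_monomial, Finsupp.prod_fintype _ _ (by simp)]
    have h2 : aeval ξ (P k) = ∑ α ∈ (P k).support, algebraMap ℂ L ((P k).coeff α) * ∏ i, ξ i ^ α i := by
      conv_lhs => rw [(P k).as_sum, map_sum]
      refine Finset.sum_congr rfl fun α _ => ?_
      rw [aeval_monomial, Finsupp.prod_fintype _ _ (by simp)]
    rw [h1, h2, Finset.mul_sum]
    refine Finset.sum_congr rfl fun α hα => ?_
    have h3 : ∏ i, x i ^ α i = t ^ m k * ∏ i, ξ i ^ α i := by
      have h4 : ∏ i, x i ^ α i = (∏ i, (t ^ b i) ^ α i) * ∏ i, ξ i ^ α i := by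
        rw [← Finset.prod_mul_distrib]
        refine Finset.prod_congr rfl fun i _ => ?_
        rw [← mul_pow, hξ]
        congr 1
        have := zpow_ne_zero (b i) ht0
        field_simp
      rw [h4]
      congr 1
      have h5 : ∏ i, (t ^ b i) ^ α i = t ^ wtZ b α := by
        unfold wtZ
        have h6 : ∀ s : Finset (Fin N), t ^ (∑ i ∈ s, b i * (α i : ℤ)) =
            ∏ i ∈ s, (t ^ b i) ^ α i := by
          intro s
          induction s using Finset.induction_on with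
          | empty => simp
          | insert a s ha ih =>
            rw [Finset.sum_insert ha, Finset.prod_insert ha, zpow_add₀ ht0, ih, zpow_mul,
              zpow_natCast]
        exact (h6 _).symm
      rw [h5, hP k α hα]
    rw [h3]; ring
  -- the ideal of polynomials with positive value
  let I : Ideal (MvPolynomial (Fin N) ℂ) :=
    { carrier := {Q | 0 < w (aeval ξ Q)}
      zero_mem' := by simp
      add_mem' := by
        intro a b ha hb
        simp only [Set.mem_setOf_eq] at ha hb ⊢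
        rw [map_add]
        exact lt_of_lt_of_le (lt_min ha hb) (AddValuation.map_add w _ _)
      smul_mem' := by
        intro c a ha
        simp only [Set.mem_setOf_eq] at ha ⊢
        rw [smul_eq_mul, map_mul, AddValuation.map_mul]
        exact lt_of_lt_of_le ha (le_add_of_nonneg_left (hnn c)) }
  have hPI : ∀ k, P k ∈ I := by
    intro k
    show 0 < w (aeval ξ (P k))
    have h1 : (m k : WithTop ℤ) ≤ w (aeval x (P k)) :=
      val_lowerZ w hc x b hb (hP k).atLeast
    have h2 := lt_of_le_of_ne h1 (Ne.symm (hcon k))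
    by_cases h0 : aeval ξ (P k) = 0
    · rw [h0, AddValuation.map_zero]; exact WithTop.coe_lt_top 0
    · have h3 : aeval x (P k) ≠ 0 := by
        rw [hhom]; exact mul_ne_zero (zpow_ne_zero _ ht0) h0
      rw [← coe_ov w h3, WithTop.coe_lt_coe, hhom, ov_mul w (zpow_ne_zero _ ht0) h0,
        ov_zpow w ht0, hto] at h2
      rw [← coe_ov w h0]
      have h4 : 0 < ov w (aeval ξ (P k)) := by
        have : (m k : ℤ) < (m k : ℤ) * 1 + ov w (aeval ξ (P k)) := h2
        omega
      exact_mod_cast h4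
  -- Nullstellensatz
  have hrad : (∏ i, X i : MvPolynomial (Fin N) ℂ) ∈ (Ideal.span (Set.range P)).radical := by
    rw [← MvPolynomial.vanishingIdeal_zeroLocus_eq_radical (K := ℂ)]
    rw [MvPolynomial.mem_vanishingIdeal_iff]
    intro ξ' hξ'
    rw [MvPolynomial.mem_zeroLocus_iff] at hξ'
    rw [map_prod]
    by_contra hne
    rw [← ne_eq, Finset.prod_ne_zero_iff] at hne
    obtain ⟨k, hk⟩ := hno ξ' (fun i => by
      have := hne i (Finset.mem_univ i)
      simpa using this)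
    apply hk
    have := hξ' (P k) (Ideal.subset_span ⟨k, rfl⟩)
    simpa using this
  obtain ⟨T, hT⟩ := hrad
  have h1 : Ideal.span (Set.range P) ≤ I := by
    rw [Ideal.span_le]
    rintro _ ⟨k, rfl⟩
    exact hPI k
  have h2 : 0 < w (aeval ξ ((∏ i, X i : MvPolynomial (Fin N) ℂ) ^ T)) := h1 hT
  have h3 : aeval ξ ((∏ i, X i : MvPolynomial (Fin N) ℂ) ^ T) = (∏ i, ξ i) ^ T := by
    rw [map_pow, map_prod]; simp
  have h4 : (∏ i, ξ i) ≠ 0 := Finset.prod_ne_zero_iff.2 fun i _ => hξ0 i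
  have h5 : ∀ j, ov w (ξ j) = 0 := fun j => by
    have := ov_eq_of w (hξv j)
    simpa using this
  rw [h3, ← coe_ov w (pow_ne_zero _ h4), ov_pow w h4, ov_prod _ _ fun i _ => hξ0 i] at h2
  simp only [h5, Finset.sum_const_zero, mul_zero] at h2
  exact absurd h2 (by simp)

end Val

end Vale.Agent.P283.Z647
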