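import Vale.Agent.P283.H647.Lim2

/-!
The uniform Kronecker theorem and the compactness theorem for arbitrary subgroups of `ℤ^ι`.
-/

set_option linter.all false

namespace Vale.Agent.P283.Z647

open Filter
open Finset hiding val
open Vale.Agent.P283.H647

variable {ι : Type} [Fintype ι]

/-- A vector outside a subgroup is outside a subgroup of finite index. -/
theorem exists_modulus (M : AddSubgroup (ι → ℤ)) (m : ι → ℤ) (hm : m ∉ M) : ∃ r : ℕ, 0 < r ∧
    ∀ r' : ℕ, r ∣ r' → ∀ u : ι → ℤ, m - (r' : ℤ) • u ∉ M := by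
  classical
  obtain ⟨n, snf⟩ := Submodule.smithNormalForm (Pi.basisFun ℤ ι) (AddSubgroup.toIntSubmodule M)
  let c : ι → ℤ := fun i => snf.bM.repr m i
  let A : ℕ := ∏ i ∈ Finset.univ.filter (fun i => snf.a i ≠ 0), (snf.a i).natAbs
  let B : ℕ := 1 + ∑ i, (c i).natAbs
  have hA : 0 < A := Finset.prod_pos fun i hi => Int.natAbs_pos.2 (Finset.mem_filter.1 hi).2
  refine ⟨A * B, Nat.mul_pos hA (by omega), ?_⟩
  rintro r' ⟨s, rfl⟩ u hu
  apply hm
  set w : ι → ℤ := m - ((A * B * s : ℕ) : ℤ) • u with hw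
  let wN : AddSubgroup.toIntSubmodule M := ⟨w, hu⟩
  let U : ι → ℤ := fun i => snf.bM.repr u i
  have hcw : ∀ i, snf.bM.repr w i = c i - ((A * B * s : ℕ) : ℤ) * U i := by
    intro i
    rw [hw, map_sub, map_zsmul]
    simp only [Finsupp.coe_sub, Pi.sub_apply, Finsupp.coe_smul, Pi.smul_apply, smul_eq_mul, c, U]
  -- the coordinates of `m`
  have h1 : ∀ i, i ∉ Set.range snf.f → c i = 0 := by
    intro i hi
    have h2 := snf.repr_eq_zero_of_notMem_range wN hi
    have h3 : snf.bM.repr w i = 0 := h2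
    rw [hcw] at h3
    have h4 : (B : ℤ) ∣ c i := ⟨A * s * U i, by push_cast at h3; linarith⟩
    have h5 : (c i).natAbs < B := by
      have : (c i).natAbs ≤ ∑ i, (c i).natAbs :=
        Finset.single_le_sum (f := fun i => (c i).natAbs) (fun _ _ => Nat.zero_le _)
          (Finset.mem_univ i)
      omega
    by_contra hne
    have h6 := Int.natAbs_dvd_natAbs.2 h4
    rw [Int.natAbs_natCast] at h6
    have := Nat.le_of_dvd (Int.natAbs_pos.2 hne) h6
    omega
  have h2 : ∀ k : Fin n, ∃ z : ℤ, c (snf.f k) = snf.a k * z := by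
    intro k
    by_cases ha : snf.a k = 0
    · exfalso
      have h3 := snf.snf k
      rw [ha, zero_smul] at h3
      exact snf.bN.ne_zero k (Subtype.ext h3)
    have h3 := snf.repr_apply_embedding_eq_repr_smul (m := wN) (i := k)
    rw [map_smul, Finsupp.smul_apply, smul_eq_mul] at h3
    have h4 : snf.bM.repr w (snf.f k) = snf.a k * (snf.bN.repr wN k) := h3
    rw [hcw] at h4
    have h5 : snf.a k ∣ ((A : ℕ) : ℤ) := by
      have h6 : (snf.a k).natAbs ∣ A :=
        Finset.dvd_prod_of_mem (fun i => (snf.a i).natAbs) (Finset.mem_filter.2 ⟨Finset.mem_univ k, ha⟩)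
      rw [← Int.natAbs_dvd_natAbs, Int.natAbs_natCast]
      exact h6
    obtain ⟨t, ht⟩ := h5
    refine ⟨snf.bN.repr wN k + t * B * s * U (snf.f k), ?_⟩
    have h7 : (((A * B * s : ℕ) : ℤ)) = snf.a k * t * B * s := by
      push_cast; rw [ht]
    rw [h7] at h4
    linear_combination h4
  choose z hz using h2
  have h3 : m = ∑ k : Fin n, z k • ((snf.bN k : AddSubgroup.toIntSubmodule M) : ι → ℤ) := by
    conv_lhs => rw [← snf.bM.sum_repr m]
    have h4 : ∀ i, i ∉ Finset.univ.map snf.f → c i • snf.bM i = 0 := by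
      intro i hi
      rw [h1 i (by
        rintro ⟨k, rfl⟩
        exact hi (Finset.mem_map.2 ⟨k, Finset.mem_univ _, rfl⟩)), zero_smul]
    have h5 : ∑ i, snf.bM.repr m i • snf.bM i = ∑ i ∈ Finset.univ.map snf.f, c i • snf.bM i :=
      (Finset.sum_subset (Finset.subset_univ _) fun i _ hi => h4 i hi).symm
    rw [h5, Finset.sum_map]
    refine Finset.sum_congr rfl fun k _ => ?_
    rw [hz k, snf.snf k, smul_smul, mul_comm]
  have h4 : m ∈ AddSubgroup.toIntSubmodule M := by
    rw [h3]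
    exact Submodule.sum_mem _ fun k _ => Submodule.smul_mem _ _ (snf.bN k).2
  exact h4

/-- Uniform Kronecker theorem for arbitrary subgroups. -/
theorem kron' {η : ℝ} (hη : 0 < η) : ∃ K : ℕ, ∀ (M : AddSubgroup (ι → ℤ)) (t : ι → ℝ),
    (∀ m ∈ M, (∀ j, |m j| ≤ K) → ∃ z : ℤ, ∑ j, t j * m j = z) →
    ∃ y : ι → ℝ, (∀ m ∈ M, ∃ z : ℤ, ∑ j, y j * m j = z) ∧ ∀ j, |y j - t j| < η := by
  classical
  obtain ⟨K, hK⟩ := kron (ι := ι) hη
  refine ⟨K, fun M t ht => ?_⟩
  have hfin := (box_int (ι := ι) K)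
  choose! rr hrr using exists_modulus M
  let r : ℕ := ∏ m ∈ hfin.toFinset.filter (fun m => m ∉ M), rr m
  have hr : 0 < r := Finset.prod_pos fun m hm => (hrr m (Finset.mem_filter.1 hm).2).1
  let M' : AddSubgroup (ι → ℤ) :=
    { carrier := {x | ∃ u : ι → ℤ, x - (r : ℤ) • u ∈ M}
      zero_mem' := ⟨0, by simpa using M.zero_mem⟩
      add_mem' := by
        rintro a b ⟨u, hu⟩ ⟨v, hv⟩
        refine ⟨u + v, ?_⟩
        have := M.add_mem hu hv
        have h1 : a + b - (r : ℤ) • (u + v) = a - (r : ℤ) • u + (b - (r : ℤ) • v) := by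
          rw [smul_add]; abel
        rw [h1]; exact this
      neg_mem' := by
        rintro a ⟨u, hu⟩
        refine ⟨-u, ?_⟩
        have := M.neg_mem hu
        have h1 : -a - (r : ℤ) • (-u) = -(a - (r : ℤ) • u) := by
          rw [smul_neg]; abel
        rw [h1]; exact this }
  obtain ⟨y, hy1, hy2⟩ := hK M' r hr (fun u => ⟨u, by rw [sub_self]; exact M.zero_mem⟩) t (by
    rintro m ⟨u, hu⟩ hmK
    refine ht m ?_ hmK
    by_contra hno
    have h1 := (hrr m hno).2 r (Finset.dvd_prod_of_mem rr (Finset.mem_filter.2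
      ⟨(Set.Finite.mem_toFinset hfin).2 hmK, hno⟩)) u
    exact h1 hu)
  exact ⟨y, fun m hm => hy1 m ⟨0, by simpa using hm⟩, hy2⟩

/-- The closedness step. -/
theorem limit_step' (q : ℕ) (hq : 0 < q) (κ : ι → ℕ) {ε : ℝ} (hε : 0 < ε) (U : Ultrafilter ℕ)
    (S : ℕ → Finset (ι → ℕ)) (M : ℕ → AddSubgroup (ι → ℤ))
    (hSM : ∀ i, ∀ α ∈ S i, ∀ β ∈ S i, (fun j => (α j : ℤ) - β j) ∈ M i)
    (hh : ∀ i, ∀ a : ι → ℝ, (∀ j, 0 < a j) → (∀ m ∈ M i, ∃ z : ℤ, ∑ j, a j * m j = z) →
      ∃ α ∈ S i, q * ε ≤ val q κ α a)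
    (α₀ : ι → ℕ) (hα₀ : ∀ᶠ i in U, α₀ ∈ S i) (A : Finset (ι → ℕ))
    (hA : ∀ α ∈ A, ∀ᶠ i in U, α ∈ S i)
    (hA' : ∀ α : ι → ℕ, (∀ᶠ i in U, α ∈ S i) → ∃ β ∈ A, β ≤ α)
    (a : ι → ℝ) (ha : ∀ j, 0 < a j) :
    ∃ e : Option ι → ℕ, (fun j => (e (some j) : ℤ) - e none * κ j + e none * (q * α₀ j)) ∈
      limLat U M ∧ ∃ α ∈ A, ∑ j, (e (some j) : ℝ) * a j < e none * val q κ α a := by
  classical
  by_contra hcon
  push Not at hcon
  -- the maximal value
  have hAne : A.Nonempty := by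
    obtain ⟨β, hβ, -⟩ := hA' α₀ hα₀
    exact ⟨β, hβ⟩
  obtain ⟨α₁, hα₁, hmax⟩ := A.exists_max_image (fun α => val q κ α a) hAne
  set V : ℝ := val q κ α₁ a with hV
  have hVle : ∀ α : ι → ℕ, (∀ᶠ i in U, α ∈ S i) → val q κ α a ≤ V := by
    intro α hα
    obtain ⟨β, hβ, hle⟩ := hA' α hα
    refine le_trans ?_ (hmax β hβ)
    unfold val
    refine Finset.sum_le_sum fun j _ => mul_le_mul_of_nonneg_left ?_ (ha j).le
    have h1 : (β j : ℝ) ≤ α j := by exact_mod_cast hle j
    have h2 : (0 : ℝ) ≤ q := by positivity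
    nlinarith
  -- integral Farkas
  let Λ : AddSubgroup (Option ι → ℤ) :=
    { carrier := {x | (fun j => x (some j) - x none * κ j + x none * (q * α₀ j)) ∈ limLat U M}
      zero_mem' := by
        have : (fun j : ι => (0 : Option ι → ℤ) (some j) - (0 : Option ι → ℤ) none * κ j +
            (0 : Option ι → ℤ) none * (q * α₀ j)) = 0 := by
          ext j; simp
        show _ ∈ limLat U M
        rw [this]; exact (limLat U M).zero_mem
      add_mem' := by
        intro x y hx hy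
        have : (fun j : ι => (x + y) (some j) - (x + y) none * κ j +
            (x + y) none * (q * α₀ j)) =
            (fun j => x (some j) - x none * κ j + x none * (q * α₀ j)) +
            (fun j => y (some j) - y none * κ j + y none * (q * α₀ j)) := by
          ext j; simp only [Pi.add_apply]; ring
        show _ ∈ limLat U M
        rw [this]; exact (limLat U M).add_mem hx hy
      neg_mem' := by
        intro x hx
        have : (fun j : ι => (-x) (some j) - (-x) none * κ j + (-x) none * (q * α₀ j)) =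
            -(fun j => x (some j) - x none * κ j + x none * (q * α₀ j)) := by
          ext j; simp only [Pi.neg_apply]; ring
        show _ ∈ limLat U M
        rw [this]; exact (limLat U M).neg_mem hx }
  obtain ⟨y, hy1, hy2⟩ := int_farkas Λ (fun o => o.elim (-V) a) (by
    intro x hx hx0
    have h1 := hcon (fun o => (x o).toNat) (by
      have h2 : ∀ o, ((x o).toNat : ℤ) = x o := fun o => Int.toNat_of_nonneg (hx0 o)
      simp only [h2]
      exact hx) α₁ hα₁
    have h2 : ∀ o, (((x o).toNat : ℕ) : ℝ) = x o := fun o => by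
      have := Int.toNat_of_nonneg (hx0 o)
      exact_mod_cast this
    simp only [h2] at h1
    rw [Fintype.sum_option]
    simp only [Option.elim]
    linarith)
  set v : ι → ℝ := fun j => y (some j) with hv
  set c₀ : ℝ := - y none with hc₀
  have hc₀V : V ≤ c₀ := by
    have := hy2 none
    simp only [Option.elim] at this
    linarith
  have hvM : ∀ m ∈ limLat U M, ∑ j, v j * m j = 0 := by
    intro m hm
    have h1 := hy1 (fun o => o.elim 0 m) (by
      show (fun j => m j - 0 * (κ j : ℤ) + 0 * (q * (α₀ j : ℤ))) ∈ limLat U M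
      have : (fun j => m j - 0 * (κ j : ℤ) + 0 * (q * (α₀ j : ℤ))) = m := by
        ext j; ring
      rw [this]; exact hm)
    rw [Fintype.sum_option] at h1
    simp only [Option.elim, Int.cast_zero, zero_mul, zero_add] at h1
    rw [← h1]
    exact Finset.sum_congr rfl fun j _ => mul_comm _ _
  have hvα₀ : val q κ α₀ v = c₀ := by
    have h1 := hy1 (fun o => o.elim 1 (fun j => (κ j : ℤ) - q * α₀ j)) (by
      show (fun j => ((κ j : ℤ) - q * α₀ j) - 1 * (κ j : ℤ) + 1 * (q * (α₀ j : ℤ))) ∈ limLat U M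
      have : (fun j => ((κ j : ℤ) - q * α₀ j) - 1 * (κ j : ℤ) + 1 * (q * (α₀ j : ℤ))) = 0 := by
        ext j; simp
      rw [this]; exact (limLat U M).zero_mem)
    rw [Fintype.sum_option] at h1
    simp only [Option.elim, Int.cast_one, one_mul] at h1
    unfold val
    rw [hc₀]
    have h2 : ∑ j, v j * ((κ j : ℝ) - q * α₀ j) =
        ∑ j, (((κ j : ℤ) - q * α₀ j : ℤ) : ℝ) * y (some j) := by
      refine Finset.sum_congr rfl fun j _ => ?_
      push_cast; ring
    rw [h2]
    linarith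
  have hvα : ∀ α : ι → ℕ, (∀ᶠ i in U, α ∈ S i) → val q κ α v = c₀ := by
    intro α hα
    have h1 : (fun j => (α j : ℤ) - α₀ j) ∈ limLat U M := by
      show ∀ᶠ i in U, _ ∈ M i
      filter_upwards [hα, hα₀] with i h2 h3
      exact hSM i α h2 α₀ h3
    have h2 := hvM _ h1
    rw [← hvα₀]
    unfold val
    have h3 : ∑ j, v j * ((κ j : ℝ) - q * α j) = ∑ j, v j * ((κ j : ℝ) - q * α₀ j) -
        q * ∑ j, v j * (((α j : ℤ) - α₀ j : ℤ) : ℝ) := by
      rw [Finset.mul_sum, ← Finset.sum_sub_distrib]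
      refine Finset.sum_congr rfl fun j _ => ?_
      push_cast; ring
    rw [h3, h2]; ring
  set z : ι → ℝ := fun j => a j - v j with hz
  have hz0 : ∀ j, 0 ≤ z j := fun j => by
    have := hy2 (some j)
    simp only [Option.elim] at this
    simp only [hz, hv]; linarith
  have hzα : ∀ α : ι → ℕ, (∀ᶠ i in U, α ∈ S i) → val q κ α z ≤ 0 := by
    intro α hα
    have h1 := val_add q κ α z v
    have h2 : (fun j => z j + v j) = a := by ext j; simp [hz]
    rw [h2, hvα α hα] at h1
    linarith [hVle α hα]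
  obtain ⟨δ, η₂, z', R, hη₂, hmain⟩ := approx_point q hq κ hε v z hz0
    (fun j => by simp only [hz]; linarith [ha j]) c₀
  obtain ⟨K, hK⟩ := kron' (ι := ι) hη₂
  have e1 := ultra_finite U (fun i (α : ι → ℕ) => α ∈ S i) _ (box_nat (ι := ι) R)
  have e2 := ultra_finite U (fun i (m : ι → ℤ) => m ∈ M i) _ (box_int (ι := ι) K)
  obtain ⟨i, hi1, hi2⟩ := (e1.and e2).exists
  obtain ⟨y', hy'1, hy'2⟩ := hK (M i) (fun j => δ * v j) (by
    intro m hm hmK
    refine ⟨0, ?_⟩
    have h1 : m ∈ limLat U M := (hi2 m hmK).1 hm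
    have h2 := hvM m h1
    have h3 : ∑ j, δ * v j * (m j : ℝ) = δ * ∑ j, v j * (m j : ℝ) := by
      rw [Finset.mul_sum]; exact Finset.sum_congr rfl fun j _ => by ring
    rw [h3, h2]; simp)
  obtain ⟨hpos, hval⟩ := hmain y' hy'2
  obtain ⟨α, hαS, hα⟩ := hh i (fun j => (z' j : ℝ) + y' j) hpos (by
    intro m hm
    obtain ⟨n, hn⟩ := hy'1 m hm
    refine ⟨(∑ j, z' j * m j) + n, ?_⟩
    push_cast
    rw [← hn, ← Finset.sum_add_distrib]
    exact Finset.sum_congr rfl fun j _ => by ring)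
  obtain ⟨hαR, hnot⟩ := hval α hα
  have hαU : ∀ᶠ i' in U, α ∈ S i' := (hi1 α hαR).1 hαS
  exact hnot ⟨hzα α hαU, hvα α hαU⟩

/-- The compactness theorem for a fixed `κ`. -/
theorem cvx_fixed' (q : ℕ) (hq : 0 < q) (κ : ι → ℕ) {ε : ℝ} (hε : 0 < ε) :
    ∃ k₀ : ℕ, 0 < k₀ ∧ ∀ (S : Finset (ι → ℕ)) (M : AddSubgroup (ι → ℤ)),
      (∀ α ∈ S, ∀ β ∈ S, (fun j => (α j : ℤ) - β j) ∈ M) →
      (∀ a : ι → ℝ, (∀ j, 0 < a j) → (∀ m ∈ M, ∃ z : ℤ, ∑ j, a j * m j = z) →
        ∃ α ∈ S, q * ε ≤ val q κ α a) →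
      ∀ k : ℕ, k₀ ∣ k → 0 < k → ∃ E : Finset (ι → ℕ),
        (∀ e ∈ E, ∀ α ∈ S, (fun j => (e j : ℤ) - k * κ j + k * (q * α j)) ∈ M) ∧
        ∀ a : ι → ℝ, (∀ j, 0 < a j) → ∃ e ∈ E, ∃ α ∈ S,
          ∑ j, (e j : ℝ) * a j < k * val q κ α a := by
  classical
  by_contra hcon
  push Not at hcon
  have hcon' := fun i : ℕ => hcon (i + 1).factorial (Nat.factorial_pos _)
  choose S M hSM hh k hk hkpos hE using hcon'
  set U : Ultrafilter ℕ := hyperfilter ℕ with hU
  have hUtop : (U : Filter ℕ) ≤ atTop := by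
    rw [← Nat.cofinite_eq_atTop]; exact hyperfilter_le_cofinite
  -- Fact 0
  obtain ⟨α₀, hα₀⟩ : ∃ α₀ : ι → ℕ, ∀ᶠ i in U, α₀ ∈ S i := by
    set R : ℕ := ∑ j, κ j with hR
    have h1 : ∀ i, ∃ α ∈ S i, ∀ j, α j ≤ R := by
      intro i
      obtain ⟨α, hα, hα'⟩ := hh i (fun _ => 1) (fun _ => one_pos) (fun m _ => ⟨∑ j, m j, by
        push_cast; exact Finset.sum_congr rfl fun j _ => one_mul _⟩)
      refine ⟨α, hα, fun j => ?_⟩
      unfold val at hα'
      simp only [one_mul, Finset.sum_sub_distrib] at hα'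
      have h2 : (q : ℝ) * α j ≤ ∑ l, (q : ℝ) * α l :=
        Finset.single_le_sum (f := fun l => (q : ℝ) * α l) (fun l _ => by positivity)
          (Finset.mem_univ j)
      have h3 : (0 : ℝ) < q * ε := mul_pos (by exact_mod_cast hq) hε
      have h4 : (1 : ℝ) ≤ q := by exact_mod_cast hq
      have h5 : (α j : ℝ) ≤ q * α j := by
        have : (0 : ℝ) ≤ α j := by positivity
        nlinarith
      have h6 : (α j : ℝ) ≤ ∑ l, (κ l : ℝ) := by linarith
      rw [hR]; exact_mod_cast h6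
    have h2 : ∀ᶠ i in (U : Filter ℕ), ∃ α ∈ {α : ι → ℕ | ∀ j, α j ≤ R}, α ∈ S i :=
      Eventually.of_forall fun i => by
        obtain ⟨α, h3, h4⟩ := h1 i
        exact ⟨α, h4, h3⟩
    obtain ⟨α₀, -, h3⟩ := (Ultrafilter.eventually_exists_mem_iff (box_nat (ι := ι) R)).1 h2
    exact ⟨α₀, h3⟩
  obtain ⟨A, hA, hA'⟩ := dickson {α : ι → ℕ | ∀ᶠ i in U, α ∈ S i}
  -- the semigroup
  let H : AddSubmonoid (Option ι → ℕ) :=
    { carrier := {e | (fun j => (e (some j) : ℤ) - e none * κ j + e none * (q * α₀ j)) ∈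
        limLat U M}
      zero_mem' := by
        have : (fun j : ι => (((0 : Option ι → ℕ) (some j) : ℕ) : ℤ) -
            (((0 : Option ι → ℕ) none : ℕ) : ℤ) * κ j +
            (((0 : Option ι → ℕ) none : ℕ) : ℤ) * (q * α₀ j)) = 0 := by
          ext j; simp
        show _ ∈ limLat U M
        rw [this]; exact (limLat U M).zero_mem
      add_mem' := by
        intro x y hx hy
        have : (fun j : ι => (((x + y) (some j) : ℕ) : ℤ) - (((x + y) none : ℕ) : ℤ) * κ j +
            (((x + y) none : ℕ) : ℤ) * (q * α₀ j)) =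
            (fun j => (x (some j) : ℤ) - x none * κ j + x none * (q * α₀ j)) +
            (fun j => (y (some j) : ℤ) - y none * κ j + y none * (q * α₀ j)) := by
          ext j; simp only [Pi.add_apply]; push_cast; ring
        show _ ∈ limLat U M
        rw [this]; exact (limLat U M).add_mem hx hy }
  have hHmem : ∀ e : Option ι → ℕ, e ∈ H ↔
      (fun j => (e (some j) : ℤ) - e none * κ j + e none * (q * α₀ j)) ∈ limLat U M :=
    fun e => Iff.rfl
  obtain ⟨Gen, hGen⟩ : H.FG := AddSubmonoid.fg_of_subtractive (by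
    intro x hx y hxy
    rw [hHmem] at hx hxy ⊢
    have h1 := (limLat U M).sub_mem hxy hx
    have h2 : (fun j : ι => (((x + y) (some j) : ℕ) : ℤ) - (((x + y) none : ℕ) : ℤ) * κ j +
            (((x + y) none : ℕ) : ℤ) * (q * α₀ j)) -
            (fun j => (x (some j) : ℤ) - x none * κ j + x none * (q * α₀ j)) =
            (fun j => (y (some j) : ℤ) - y none * κ j + y none * (q * α₀ j)) := by
      ext j; simp only [Pi.add_apply, Pi.sub_apply]; push_cast; ring
    rwa [h2] at h1)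
  have hGenH : ∀ g ∈ Gen, g ∈ H := fun g hg => by
    rw [← hGen]; exact AddSubmonoid.subset_closure hg
  -- a generator works
  have hgen : ∀ a : ι → ℝ, (∀ j, 0 < a j) → ∃ g ∈ Gen, ∃ α ∈ A,
      ∑ j, (g (some j) : ℝ) * a j < g none * val q κ α a := by
    intro a ha
    obtain ⟨e, he, α, hα, hlt⟩ := limit_step' q hq κ hε U S M hSM hh α₀ hα₀ A
      (fun α hα => hA α hα) (fun α hα => hA' α hα) a ha
    by_contra hno
    push Not at hno
    have hall : ∀ e ∈ H, (e none : ℝ) * val q κ α a ≤ ∑ j, (e (some j) : ℝ) * a j := by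
      intro e he
      rw [← hGen] at he
      induction he using AddSubmonoid.closure_induction with
      | mem g hg => exact hno g hg α hα
      | zero => simp
      | add x y _ _ hx hy =>
        simp only [Pi.add_apply]
        push_cast
        simp only [add_mul, Finset.sum_add_distrib]
        linarith
    linarith [hall e he]
  -- a common multiple
  set ks : ℕ := ∏ g ∈ Gen.filter (fun g => 0 < g none), g none with hks
  have hkspos : 0 < ks := Finset.prod_pos fun g hg => (Finset.mem_filter.1 hg).2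
  have hdvd : ∀ g ∈ Gen, 0 < g none → g none ∣ ks := fun g hg h0 =>
    Finset.dvd_prod_of_mem (fun g : Option ι → ℕ => g none) (Finset.mem_filter.2 ⟨hg, h0⟩)
  have ev1 : ∀ᶠ i in (U : Filter ℕ), ks ≤ i := hUtop (eventually_ge_atTop ks)
  have ev2 : ∀ᶠ i in (U : Filter ℕ), ∀ α ∈ A, α ∈ S i := by
    rw [Filter.eventually_all_finset]
    exact fun α hα => hA α hα
  have ev3 : ∀ᶠ i in (U : Filter ℕ), ∀ g ∈ Gen,
      (fun j => (g (some j) : ℤ) - g none * κ j + g none * (q * α₀ j)) ∈ M i := by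
    rw [Filter.eventually_all_finset]
    exact fun g hg => (hHmem g).1 (hGenH g hg)
  obtain ⟨i, ⟨⟨hi1, hi2⟩, hi3⟩, hi4⟩ := (((ev1.and ev2).and ev3).and hα₀).exists
  have hksk : ks ∣ k i := by
    refine dvd_trans ?_ (hk i)
    exact Nat.dvd_factorial hkspos (by omega)
  -- the set of exponents
  set E : Finset (ι → ℕ) := (Gen.filter (fun g => 0 < g none)).image
    (fun g j => (k i / g none) * g (some j)) with hEdef
  obtain ⟨a, ha, hbad⟩ := hE i E (by
    intro e he α hα
    rw [hEdef, Finset.mem_image] at he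
    obtain ⟨g, hg, rfl⟩ := he
    obtain ⟨hg1, hg2⟩ := Finset.mem_filter.1 hg
    obtain ⟨c, hc⟩ := (hdvd g hg1 hg2).trans hksk
    have hdiv : k i / g none = c := by rw [hc]; exact Nat.mul_div_cancel_left c hg2
    have h1 := (M i).zsmul_mem (hi3 g hg1) (c : ℤ)
    have h2 := (M i).zsmul_mem (hSM i α hα α₀ hi4) ((k i : ℤ) * q)
    have h3 := (M i).add_mem h1 h2
    have h4 : (fun j => (((k i / g none) * g (some j) : ℕ) : ℤ) - k i * κ j +
        k i * (q * α j)) =
        (c : ℤ) • (fun j => (g (some j) : ℤ) - g none * κ j + g none * (q * α₀ j)) +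
        ((k i : ℤ) * q) • (fun j => (α j : ℤ) - α₀ j) := by
      ext j
      simp only [Pi.add_apply, Pi.smul_apply, smul_eq_mul, hdiv]
      rw [hc]
      push_cast
      ring
    rw [h4]
    exact h3)
  obtain ⟨g, hg, α, hα, hlt⟩ := hgen a ha
  have hgpos : 0 < g none := by
    rcases Nat.eq_zero_or_pos (g none) with h | h
    · exfalso
      rw [h] at hlt
      simp only [Nat.cast_zero, zero_mul] at hlt
      have : 0 ≤ ∑ j, (g (some j) : ℝ) * a j :=
        Finset.sum_nonneg fun j _ => mul_nonneg (by positivity) (ha j).le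
      linarith
    · exact h
  obtain ⟨c, hc⟩ := (hdvd g hg hgpos).trans hksk
  have hdiv : k i / g none = c := by rw [hc]; exact Nat.mul_div_cancel_left c hgpos
  have hcpos : 0 < c := by
    rcases Nat.eq_zero_or_pos c with h | h
    · rw [h, mul_zero] at hc
      have := hkpos i
      omega
    · exact h
  have h5 := hbad (fun j => (k i / g none) * g (some j))
    (Finset.mem_image.2 ⟨g, Finset.mem_filter.2 ⟨hg, hgpos⟩, rfl⟩) α (hi2 α hα)
  have h6 : ∑ j, (((k i / g none) * g (some j) : ℕ) : ℝ) * a j =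
      c * ∑ j, (g (some j) : ℝ) * a j := by
    rw [Finset.mul_sum, hdiv]
    exact Finset.sum_congr rfl fun j _ => by push_cast; ring
  rw [h6, hc] at h5
  push_cast at h5
  have h7 : (0 : ℝ) < c := by exact_mod_cast hcpos
  nlinarith

end Vale.Agent.P283.Z647
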