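import Vale.Agent.P283.Z647.Sec
import Vale.Agent.P283.F647.Conc

/-!
Bounded klt complements for pairs with a Galois cover by a non-degenerate hypersurface of a toric
variety.
-/

set_option linter.all false

namespace Vale.Agent.P283.Z647

open MvPolynomial Finset
open Vale.Agent.P283.H647 (ResForm HypData order_exists order_unique order_transfer exists_ext
  isAlgebraic_of_fix toE toE_apply exists_shift ov_algebraMap)

theorem ov_comap' {L : Type} [Field L] [Algebra ℂ L] (w : AddValuation L (WithTop ℤ))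
    (τ : L ≃ₐ[ℂ] L) (a : L) : ov (w.comap (τ : L →+* L)) a = ov w (τ a) := rfl

namespace IsHypCover

variable {J d N s M : ℕ} {K L : Type} [Field K] [Field L] [Algebra ℂ K] [Algebra ℂ L]
  [Algebra K L] {y : Fin (d + 1) → L} {f : MvPolynomial (Fin (d + 1)) ℂ}
  {g : Fin s → MvPolynomial (Fin (d + 1)) ℂ} {v : Fin N → Fin (d + 1) → ℤ}
  {G : Subgroup (L ≃ₐ[ℂ] L)} {A : Subalgebra ℂ K} (H : IsHypCover J y f g v G A)
include H

theorem hyp : HypData y f where
  gen := by
    intro g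
    have h1 : g ∈ IntermediateField.adjoin ℂ (Set.range y) := by rw [H.generate]; trivial
    rw [IntermediateField.mem_adjoin_range_iff] at h1
    obtain ⟨P, Q, h2⟩ := h1
    by_cases hQ : aeval y Q = 0
    · exact ⟨0, 1, by simp, by rw [h2, hQ]; simp⟩
    · exact ⟨P, Q, hQ, h2⟩
  ker := H.equation
  f0 := H.nonzero
  x0 := H.coordinate

theorem fixK {τ : L ≃ₐ[ℂ] L} (hτ : τ ∈ G) (g : K) : τ (algebraMap K L g) = algebraMap K L g :=
  (H.field _).1 ⟨g, rfl⟩ τ hτ

theorem inCone [IsScalarTower ℂ K L] {w : AddValuation L (WithTop ℤ)}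
    (hA : ∀ a ∈ A, 0 ≤ w (algebraMap K L a)) : InCone v (wts w y) := by
  apply cone_dual
  intro u hu
  have h1 := nonneg_of_integral hA (H.finiteCover u hu)
  have h2 : (∏ k, y k ^ u k) = monoT y u := rfl
  rw [h2, ← coe_ov w (monoT_ne_zero H.coordinate u), H647.ov_monoT w H.coordinate] at h1
  have h3 : 0 ≤ ∑ j, u j * ov w (y j) := by exact_mod_cast h1
  refine le_trans h3 (le_of_eq (Finset.sum_congr rfl fun j _ => ?_))
  unfold wts; ring

theorem nonneg_A {w : AddValuation L (WithTop ℤ)}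
    (hc : ∀ c : ℂ, c ≠ 0 → w (algebraMap ℂ L c) = 0) (hx : InCone v (wts w y)) :
    ∀ a ∈ A, 0 ≤ w (algebraMap K L a) := by
  intro a ha
  have h1 := H.cover a ha
  refine nonneg_of_integral (K := L) (L := L) ?_ h1
  intro b hb
  show 0 ≤ w b
  induction hb using Algebra.adjoin_induction with
  | mem z hz =>
    obtain ⟨u, hu, rfl⟩ := hz
    have h2 : (∏ k, y k ^ u k) = monoT y u := rfl
    rw [h2, ← coe_ov w (monoT_ne_zero H.coordinate u), H647.ov_monoT w H.coordinate]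
    have h3 := hx.pair hu
    have h4 : 0 ≤ ∑ j, u j * ov w (y j) := by
      refine le_trans h3 (le_of_eq (Finset.sum_congr rfl fun j _ => ?_))
      unfold wts; ring
    exact_mod_cast h4
  | algebraMap c =>
    by_cases h0 : c = 0
    · rw [h0, map_zero, AddValuation.map_zero]; exact le_top
    · rw [hc c h0]
  | add x z _ _ hx hz => exact le_trans (le_min hx hz) (AddValuation.map_add w _ _)
  | mul x z _ _ hx hz => rw [AddValuation.map_mul]; exact add_nonneg hx hz

/-- The norm of a function. -/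
theorem exists_norm (F : L) (hF0 : F ≠ 0) :
    ∃ φ : K, φ ≠ 0 ∧ ∀ (w : AddValuation L (WithTop ℤ)) (v : AddValuation K (WithTop ℤ)) (e : ℕ),
      (∀ f : K, w (algebraMap K L f) = e • v f) →
      (∀ b : ℚ, (∀ τ ∈ G, b ≤ ov w (τ F)) → (J.factorial : ℚ) * b ≤ e * ov v φ) ∧
      (∀ b : ℚ, (∀ τ ∈ G, (ov w (τ F) : ℚ) < b) → (e : ℚ) * ov v φ < (J.factorial : ℚ) * b) := by
  classical
  haveI : Finite G := H.finite
  letI : Fintype G := Fintype.ofFinite _
  let P : L := ∏ τ : G, (τ : L ≃ₐ[ℂ] L) F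
  have hP0 : P ≠ 0 := Finset.prod_ne_zero_iff.2 fun c _ => by
    simpa using hF0
  have hPinv : ∀ τ ∈ G, τ P = P := by
    intro τ hτ
    simp only [P]
    rw [map_prod]
    exact Fintype.prod_equiv (Equiv.mulLeft (⟨τ, hτ⟩ : G)) _ _ fun c => rfl
  set j : ℕ := Nat.card G with hj
  have hj0 : 0 < j := Nat.card_pos
  have hjJ : j ≤ J := H.card
  obtain ⟨M, hM⟩ : j ∣ J.factorial := Nat.dvd_factorial hj0 hjJ
  have hM0 : 0 < M := by
    rcases Nat.eq_zero_or_pos M with h | h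
    · rw [h, mul_zero] at hM
      exact absurd hM (Nat.factorial_ne_zero J)
    · exact h
  obtain ⟨φ, hφ⟩ := (H.field (P ^ M)).2 fun τ hτ => by rw [map_pow, hPinv τ hτ]
  have hφ0 : φ ≠ 0 := by
    rintro rfl
    rw [map_zero] at hφ
    exact pow_ne_zero M hP0 hφ.symm
  refine ⟨φ, hφ0, ?_⟩
  intro w v e hvw
  have key : (e : ℚ) * ov v φ = M * ∑ c : G, (ov w ((c : L ≃ₐ[ℂ] L) F) : ℚ) := by
    have h1 := hvw φ
    have h2 : ov w (algebraMap K L φ) = e * ov v φ := by
      apply ov_eq_of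
      rw [h1, ← coe_ov v hφ0, ← WithTop.coe_nsmul]
      simp
    have h3 : (e : ℤ) * ov v φ = M * ∑ c : G, ov w ((c : L ≃ₐ[ℂ] L) F) := by
      rw [← h2, hφ, ov_pow w hP0]
      congr 1
      exact ov_prod _ _ fun c _ => by simpa using hF0
    exact_mod_cast h3
  have hcard : (Fintype.card G : ℚ) = j := by
    rw [hj, Nat.card_eq_fintype_card]
  have hMJ : (J.factorial : ℚ) = M * j := by
    rw [hM]; push_cast; ring
  constructor
  · intro b hb
    rw [key, hMJ, mul_assoc]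
    apply mul_le_mul_of_nonneg_left _ (by positivity)
    rw [← hcard]
    have := Finset.card_nsmul_le_sum (Finset.univ : Finset G)
      (fun c => (ov w ((c : L ≃ₐ[ℂ] L) F) : ℚ)) b fun c _ => hb _ c.2
    simpa using this
  · intro b hb
    rw [key, hMJ, mul_assoc]
    apply mul_lt_mul_of_pos_left _ (by exact_mod_cast hM0)
    rw [← hcard]
    haveI : Nonempty G := ⟨1⟩
    have := Finset.sum_lt_sum_of_nonempty (s := (Finset.univ : Finset G))
      (f := fun c : G => (ov w ((c : L ≃ₐ[ℂ] L) F) : ℚ)) (g := fun _ => b) Finset.univ_nonempty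
      fun c _ => hb _ c.2
    simpa using this

end IsHypCover

section Pair

variable {J d N s M : ℕ} {K L : Type} [Field K] [Field L] [Algebra ℂ K] [Algebra ℂ L]
  [Algebra K L] [IsScalarTower ℂ K L] {y : Fin (d + 1) → L} {f : MvPolynomial (Fin (d + 1)) ℂ}
  {g : Fin s → MvPolynomial (Fin (d + 1)) ℂ} {v : Fin N → Fin (d + 1) → ℤ}
  {G : Subgroup (L ≃ₐ[ℂ] L)} {A : Subalgebra ℂ K} (H : IsHypCover J y f g v G A)
  {D : Fin d → Derivation ℂ K K} {D' : Fin d → Derivation ℂ L L}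
  (hD' : ∀ (i : Fin d) (g : K), D' i (algebraMap K L g) = algebraMap K L (D i g))
  {h : L} (R : ResForm y f D' h)
  {𝒞 : Set (Subalgebra ℂ K)} {B : ∀ C : Subalgebra ℂ K, Q.QDivisor C} {r : ℕ}
  {ψ : Subalgebra ℂ K → K} (hP : H207.IsPair D A 𝒞 B r ψ)
  {c : Fin s → ℚ} {E : Fin (M + 1) → Fin (d + 1) → ℤ}
  (hgen : IsGeneratedM y f g c E D 𝒞 r ψ)
include H hD' R hP hgen

omit hP in
theorem gen_value {C : Subalgebra ℂ K} (hC : C ∈ 𝒞) {u : AddValuation K (WithTop ℤ)}
    (hu : Q.IsDivisorial d u) (hover : Q.IsOver C u) {w : AddValuation L (WithTop ℤ)} {e : ℕ}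
    (he : 0 < e) (hw1 : ∃ z, w z = 1) (huw : ∀ z : K, w (algebraMap K L z) = e • u z)
    (hψ : ψ C ≠ 0) : (e : ℚ) * ov u (ψ C) =
      r * (ov w h + ∑ i, c i * ov w (aeval y (g i))) + ordMono E (wts w y) :=
  hgen D' h hD' R.res C hC u w e _ _ _ _ hu hover he hw1 huw (coe_ov u hψ).symm
    (coe_ov w R.h0).symm (fun k => (coe_ov w (H.coordinate k)).symm)
    (fun i => (coe_ov w (H.divisor i)).symm)

theorem lcZ (hd : 0 < d) (hD : ∃ z, Q.jac D z ≠ 0) {ε : ℝ} (hε : 0 < ε)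
    (hlc : ∀ C ∈ 𝒞, Q.IsEpsLC D (B C) ε) : LcZ v y D' h g c r E ε := by
  intro w m' hw hcone hm'
  haveI := H.finite
  haveI : Algebra.IsAlgebraic K L := isAlgebraic_of_fix H.finite H.field
  haveI := H.hyp.ess
  haveI := H.hyp.essK (K := K) inferInstance
  have htrK := H.hyp.trdegK (K := K) inferInstance
  obtain ⟨u, e, he, hu', huw⟩ := exists_restriction (K := K) d w (divisorial_iff.1 hw)
  have hu : Q.IsDivisorial d u := divisorial_iff.2 hu'
  obtain ⟨m, hm⟩ := order_exists hd htrK D hD hu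
  have htr := order_transfer hd htrK H.hyp.trdeg hD hD' hu hw.normalized he huw hm hm'
  have hover : Q.IsOver A u := by
    intro a
    have h1 := H.nonneg_A hw.const hcone a a.2
    rw [huw] at h1
    by_contra hneg
    push Not at hneg
    have h2 : (a : K) ≠ 0 := by
      intro h0
      rw [h0, AddValuation.map_zero] at hneg
      exact absurd hneg (by simp)
    rw [← coe_ov u h2] at h1 hneg
    rw [← WithTop.coe_nsmul] at h1
    have h3 : 0 ≤ e • ov u (a : K) := by exact_mod_cast h1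
    have h4 : ov u (a : K) < 0 := by exact_mod_cast hneg
    rw [nsmul_eq_mul] at h3
    have h5 : (0 : ℤ) < e := by exact_mod_cast he
    have := mul_neg_of_pos_of_neg h5 h4
    omega
  obtain ⟨C, hC, hoverC⟩ := hP.proper u hu hover
  have hcart := hP.cartier C hC
  have hr : 0 < r := hcart.1
  have hψ : ψ C ≠ 0 := hcart.2.1
  have h1 := (hlc C hC).2 u (centreIdeal C u hoverC) r (ψ C) m (ov u (ψ C)) hu hoverC
    (fun _ => Iff.rfl) ⟨hr, hψ, fun u' p m k h1 _ h3 h4 => hcart.2.2 u' p m k h1 le_top h3 h4⟩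
    hm (coe_ov u hψ).symm
  have h2 := gen_value H hD' R hgen hC hu hoverC he hw.normalized huw hψ
  have heR : (1 : ℝ) ≤ e := by exact_mod_cast he
  have hrR : (0 : ℝ) < r := by exact_mod_cast hr
  have h3 : (e : ℝ) * ov u (ψ C) =
      r * (ov w h + ∑ i, (c i : ℝ) * ov w (aeval y (g i))) + ordMono E (wts w y) := by
    have := congrArg (Rat.cast : ℚ → ℝ) h2
    push_cast at this
    exact this
  have h4 : (1 : ℝ) + m' = e * (1 + m) := by exact_mod_cast htr
  have h5 : (e : ℝ) * ε ≤ e * (1 + (m : ℝ) - (ov u (ψ C) : ℝ) / r) :=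
    mul_le_mul_of_nonneg_left h1 (by linarith)
  have h6 : (e : ℝ) * (1 + (m : ℝ) - (ov u (ψ C) : ℝ) / r) =
      1 + m' - ov w h - ∑ i, (c i : ℝ) * ov w (aeval y (g i)) - (ordMono E (wts w y) : ℝ) / r := by
    have h7 : (e : ℝ) * ((ov u (ψ C) : ℝ) / r) =
        ov w h + ∑ i, (c i : ℝ) * ov w (aeval y (g i)) + (ordMono E (wts w y) : ℝ) / r := by
      rw [← mul_div_assoc, h3]
      field_simp
    rw [mul_sub, h7, ← h4]; ring
  rw [h6] at h5
  have h7 : ε ≤ e * ε := by nlinarith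
  linarith

end Pair

theorem coreZ (d : ℕ) (hd : 0 < d) (J q : ℕ) (hq : 0 < q) (ε : ℝ) (hε : 0 < ε) :
    ∃ c₀ : ℕ, 0 < c₀ ∧ ∀ n : ℕ, 0 < n → c₀ ∣ n →
    ∀ (K L : Type) [Field K] [Field L] [Algebra ℂ K] [Algebra ℂ L] [Algebra K L]
      [IsScalarTower ℂ K L] (s M N : ℕ) (y : Fin (d + 1) → L) (f : MvPolynomial (Fin (d + 1)) ℂ)
      (g : Fin s → MvPolynomial (Fin (d + 1)) ℂ) (v : Fin N → Fin (d + 1) → ℤ)
      (G : Subgroup (L ≃ₐ[ℂ] L)) (A : Subalgebra ℂ K), IsHypCover J y f g v G A →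
    ∀ D : Fin d → Derivation ℂ K K, (∃ z, Q.jac D z ≠ 0) →
    ∀ (𝒞 : Set (Subalgebra ℂ K)) (B : ∀ C : Subalgebra ℂ K, Q.QDivisor C) (r : ℕ)
      (ψ : Subalgebra ℂ K → K), H207.IsPair D A 𝒞 B r ψ →
    ∀ (c : Fin s → ℚ), (∀ i, 0 ≤ c i ∧ c i < 1 ∧ ∃ z : ℤ, (q : ℚ) * c i = z) →
    ∀ (E : Fin (M + 1) → Fin (d + 1) → ℤ), IsGeneratedM y f g c E D 𝒞 r ψ →
      IsSubdivision v E →
      (∀ j, 0 ≤ toricDisc f g c r E (v j) ∧ toricDisc f g c r E (v j) ≤ 1 ∧
        ∃ z : ℤ, (q : ℚ) * toricDisc f g c r E (v j) = z) →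
      (∀ C ∈ 𝒞, Q.IsEpsLC D (B C) ε) → H207.HasGlobalKltComplement D 𝒞 B n := by
  classical
  obtain ⟨e, rfl⟩ : ∃ e, d = e + 1 := ⟨d - 1, by omega⟩
  obtain ⟨k₀, hk₀, hmain⟩ := F647.exists_exposF e q hq hε
  have hJ : 0 < J.factorial := J.factorial_pos
  refine ⟨2 * k₀ * q * J.factorial, by positivity, ?_⟩
  rintro n hn ⟨t, rfl⟩ K L _ _ _ _ _ _ s M N y f g v G A H D hD 𝒞 B r ψ hP c hc E hgen hsub hdisc hlc
  have ht : 0 < t := by
    rcases Nat.eq_zero_or_pos t with h | h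
    · rw [h, mul_zero] at hn
      exact absurd hn (lt_irrefl 0)
    · exact h
  set k : ℕ := 2 * k₀ * t with hk
  have hk0 : 0 < k := by positivity
  have hk2 : 2 ≤ k := by
    have : 1 ≤ k₀ * t := Nat.mul_pos hk₀ ht
    have h2 : k = 2 * (k₀ * t) := by rw [hk]; ring
    omega
  have hkd : k₀ ∣ k := ⟨2 * t, by rw [hk]; ring⟩
  have hnn : 2 * k₀ * q * J.factorial * t = k * q * J.factorial := by rw [hk]; ring
  rw [hnn]
  have hqQ : (0 : ℚ) < q := by exact_mod_cast hq
  -- the coefficients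
  have hcqex : ∀ i, ∃ cq : ℕ, (cq : ℚ) = q * c i ∧ cq < q := by
    intro i
    obtain ⟨h1, h2, z, hz⟩ := hc i
    have hz0 : 0 ≤ z := by
      have h3 : (0 : ℚ) ≤ z := by rw [← hz]; exact mul_nonneg hqQ.le h1
      exact_mod_cast h3
    refine ⟨z.toNat, ?_, ?_⟩
    · rw [hz]
      have : ((z.toNat : ℤ) : ℚ) = z := by rw [Int.toNat_of_nonneg hz0]
      rw [← this, Int.cast_natCast]
    · have h3 : (z : ℚ) < q := by
        rw [← hz]
        calc (q : ℚ) * c i < q * 1 := mul_lt_mul_of_pos_left h2 hqQ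
          _ = q := mul_one _
      have h4 : z < q := by exact_mod_cast h3
      omega
  choose cq hcq hcqlt using hcqex
  have hκex : ∀ j, ∃ κ : ℕ, (κ : ℚ) = q * toricDisc f g c r E (v j) ∧ κ ≤ q := by
    intro j
    obtain ⟨h1, h2, z, hz⟩ := hdisc j
    have hz0 : 0 ≤ z := by
      have h3 : (0 : ℚ) ≤ z := by rw [← hz]; exact mul_nonneg hqQ.le h1
      exact_mod_cast h3
    refine ⟨z.toNat, ?_, ?_⟩
    · rw [hz]
      have : ((z.toNat : ℤ) : ℚ) = z := by rw [Int.toNat_of_nonneg hz0]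
      rw [← this, Int.cast_natCast]
    · have h3 : (z : ℚ) ≤ q := by
        rw [← hz]
        calc (q : ℚ) * toricDisc f g c r E (v j) ≤ q * 1 := mul_le_mul_of_nonneg_left h2 hqQ.le
          _ = q := mul_one _
      have h4 : z ≤ q := by exact_mod_cast h3
      omega
  choose κ hκ hκq using hκex
  -- the form upstairs
  haveI := H.finite
  haveI : Algebra.IsAlgebraic K L := isAlgebraic_of_fix H.finite H.field
  haveI := H.hyp.ess
  haveI := H.hyp.essK (K := K) inferInstance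
  haveI := H.hyp.finDim (K := K) inferInstance
  haveI : CharZero K := charZero_of_injective_algebraMap (algebraMap ℂ K).injective
  have htrK := H.hyp.trdegK (K := K) inferInstance
  obtain ⟨D', hD'⟩ := exists_ext (K := K) (L := L) H.hyp.trdeg D
  have hj : ∃ g, Q.jac D' g ≠ 0 := by
    obtain ⟨g, hg⟩ := hD
    exact ⟨_, by rw [H647.jac_map hD']; exact (map_ne_zero _).2 hg⟩
  obtain ⟨h, R⟩ := H.hyp.exists_resForm hj
  by_cases hne : 𝒞.Nonempty
  swap
  · refine ⟨1, one_ne_zero, fun C hC => absurd ⟨C, hC⟩ hne⟩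
  obtain ⟨C₀, hC₀⟩ := hne
  have hr : 0 < r := (hP.cartier C₀ hC₀).1
  have hrQ : (0 : ℚ) < r := by exact_mod_cast hr
  have hlcZ := lcZ H hD' R hP hgen hd hD hε hlc
  obtain ⟨Ee, hEe, hE1, hE2⟩ := hmain L y f g v H.hyp D' h R H.divisor
    (fun a ha => H.nondegenerate.reg ha) c cq hcq r hr E hsub κ hκ hκq hlcZ k hkd hk0
  obtain ⟨σ, -, hσ⟩ := exists_shift Ee (fun γ => γ)
  obtain ⟨S, hS1, hS2⟩ := exists_genericZ v f g H.nondegenerate
    (Ee.image fun γ => toE (σ + γ)) (hEe.image _)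
  have hS0 : S ≠ 0 := by
    intro h0
    rw [h0, support_zero] at hS1
    exact (hEe.image _).ne_empty hS1.symm
  have hwt : ∀ a, ∀ γ ∈ Ee, wtZ a (toE (σ + γ)) - ∑ i, σ i * a i = ∑ i, γ i * a i := by
    intro a γ hγ
    unfold wtZ
    rw [← Finset.sum_sub_distrib]
    refine Finset.sum_congr rfl fun i _ => ?_
    rw [toE_apply (hσ γ hγ) i, Pi.add_apply]; ring
  have hxS := aeval_neZ H.hyp hS0 hS2
  obtain ⟨φ, hφ0, hφ⟩ := H.exists_norm (phiOne y h g k q cq S σ)
    (phiOne_ne H.coordinate R.h0 H.divisor hxS σ)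
  have hnQ : (0 : ℚ) < ((k * q * J.factorial : ℕ) : ℚ) := by
    have : 0 < k * q * J.factorial := by positivity
    exact_mod_cast this
  refine ⟨φ, hφ0, ?_⟩
  intro C hC
  have hψ : ψ C ≠ 0 := (hP.cartier C hC).2.1
  constructor
  · intro u p m k' hup hm hk'
    have hu := hup.1
    have hoverC := hup.2.1
    obtain ⟨w, e₁, he₁, hw1, hvw⟩ := exists_extension (L := L) u hu.normalized
    have he₁Q : (0 : ℚ) < e₁ := by exact_mod_cast he₁
    have hloc := (hP.cartier C hC).2.2 u p m (ov u (ψ C)) hup le_top hm (coe_ov u hψ).symm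
    have h1 := (hφ w u e₁ hvw).1 ((k : ℚ) * q * (e₁ * ov u (ψ C) / r)) (by
      intro τ hτ
      have hvw' : ∀ g : K, (w.comap (τ : L →+* L)) (algebraMap K L g) = e₁ • u g := by
        intro g
        rw [comap_apply', H.fixK hτ, hvw]
      have hw1' := comap_normalized hw1 τ
      have hw' : Q.IsDivisorial (e + 1) (w.comap (τ : L →+* L)) :=
        divisorial_iff.2 (isDivisorial_of_ext (divisorial_iff.1 hu) hw1' hvw')
      have hcone : InCone v (wts (w.comap (τ : L →+* L)) y) := by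
        apply H.inCone
        intro a ha
        rw [hvw']
        exact nsmul_nonneg (hoverC ⟨a, hP.le C hC ha⟩) _
      have h2 := eff_phiZ H.hyp R H.divisor hS0 hS2 (k := k) (q := q) (cq := cq) (σ := σ)
        (B := (k : ℚ) * q * ((ordMono E (wts (w.comap (τ : L →+* L)) y) : ℚ) / r)) hw'.const (by
        intro γ' hγ'
        rw [hS1] at hγ'
        obtain ⟨γ, hγ, rfl⟩ := Finset.mem_image.1 hγ'
        rw [hwt _ γ hγ]
        exact hE1 γ hγ _ hcone (nonMono_of_zeroZ hw'.const H.hyp.f0 H.hyp.eqn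
          (fun j => (coe_ov _ (H.coordinate j)).symm)))
      rw [ov_comap' w τ (phiOne y h g k q cq S σ)] at h2
      have h3 := gen_value H hD' R hgen hC hu hoverC he₁ hw1' hvw' hψ
      rw [h3]
      have h4 : ∑ i, (cq i : ℚ) * (ov (w.comap (τ : L →+* L)) (aeval y (g i)) : ℚ) =
          q * ∑ i, c i * (ov (w.comap (τ : L →+* L)) (aeval y (g i)) : ℚ) := by
        rw [Finset.mul_sum]
        exact Finset.sum_congr rfl fun i _ => by rw [hcq]; ring
      rw [h4] at h2
      refine le_trans (le_of_eq ?_) h2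
      field_simp)
    have h2 : ov u φ = k' := ov_eq_of u hk'
    rw [h2] at h1
    have h3 : (ov u (ψ C) : ℚ) / r ≤ (k' : ℚ) / ((k * q * J.factorial : ℕ) : ℚ) := by
      rw [div_le_div_iff₀ hrQ hnQ]
      have h4 : (J.factorial : ℚ) * ((k : ℚ) * q * (e₁ * ov u (ψ C) / r)) * r =
          e₁ * (ov u (ψ C) * ((k * q * J.factorial : ℕ) : ℚ)) := by
        push_cast
        field_simp
      have h5 := mul_le_mul_of_nonneg_right h1 hrQ.le
      rw [h4] at h5
      have h6 : (e₁ : ℚ) * (ov u (ψ C) * ((k * q * J.factorial : ℕ) : ℚ)) ≤ e₁ * (k' * r) := by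
        linarith
      exact le_of_mul_le_mul_left h6 he₁Q
    have h4 : (ov u (ψ C) : ℚ) / r = m + (B C).coeff p := by
      rw [hloc]; field_simp
    rw [h4] at h3
    have h5 := hP.effective C hC p
    constructor <;> linarith
  · intro u m k' hu hoverC hm hk'
    obtain ⟨w, e₁, he₁, hw1, hvw⟩ := exists_extension (L := L) u hu.normalized
    have he₁Q : (0 : ℚ) < e₁ := by exact_mod_cast he₁
    have h1 := (hφ w u e₁ hvw).2 ((k : ℚ) * q * (e₁ * (1 + m))) (by
      intro τ hτ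
      have hvw' : ∀ g : K, (w.comap (τ : L →+* L)) (algebraMap K L g) = e₁ • u g := by
        intro g
        rw [comap_apply', H.fixK hτ, hvw]
      have hw1' := comap_normalized hw1 τ
      have hw' : Q.IsDivisorial (e + 1) (w.comap (τ : L →+* L)) :=
        divisorial_iff.2 (isDivisorial_of_ext (divisorial_iff.1 hu) hw1' hvw')
      obtain ⟨m', hm'⟩ := order_exists hd H.hyp.trdeg D' hj hw'
      have htr := order_transfer hd htrK H.hyp.trdeg hD hD' hu hw1' he₁ hvw' hm hm'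
      have hcone : InCone v (wts (w.comap (τ : L →+* L)) y) := by
        apply H.inCone
        intro a ha
        rw [hvw']
        exact nsmul_nonneg (hoverC ⟨a, hP.le C hC ha⟩) _
      have h2 := klt_phiZ H.hyp H.nondegenerate R H.divisor hS0 hS2 hk2 hq hcqlt (σ := σ) (by
        intro a ha ha0 hnm
        obtain ⟨γ, hγ, hlt⟩ := hE2 a ha ha0 hnm
        refine ⟨toE (σ + γ), by rw [hS1]; exact Finset.mem_image_of_mem _ hγ, ?_⟩
        rw [hwt a γ hγ]
        exact hlt) hw' hcone hm'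
      rw [ov_comap' w τ (phiOne y h g k q cq S σ)] at h2
      have h3 : ((ov w (τ (phiOne y h g k q cq S σ)) : ℤ) : ℚ) <
          ((k * q * (1 + m') : ℤ) : ℚ) := by exact_mod_cast h2
      rw [htr] at h3
      push_cast at h3
      exact h3)
    have h2 : ov u φ = k' := ov_eq_of u hk'
    rw [h2] at h1
    have h3 : (e₁ : ℚ) * k' < e₁ * (((k * q * J.factorial : ℕ) : ℚ) * (1 + m)) := by
      push_cast
      calc (e₁ : ℚ) * k' < _ := h1
        _ = _ := by ring
    have h4 := lt_of_mul_lt_mul_left h3 he₁Q.le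
    have h6 : (k' : ℚ) / ((k * q * J.factorial : ℕ) : ℚ) < 1 + m := by
      rw [div_lt_iff₀ hnQ, mul_comm]; exact h4
    linarith

end Vale.Agent.P283.Z647
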