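import Vale.Agent.P283.Z647.Init
import Vale.Agent.P283.H647.Val

/-!
Lower bounds for log discrepancies: several functions.
-/

set_option linter.all false

namespace Vale.Agent.P283.Z647

open MvPolynomial Finset
open Vale.Agent.P283.H647 (ResForm order_log ov_lt_of)

section LinAlg

/-- An independent family can be completed by unit vectors. -/
theorem extend_unit {m : ℕ} (n : ℕ) : ∀ (S : Finset (Fin m)) (F : Fin m → (Fin m → ℂ)),
    (Finset.univ \ S).card = n → LinearIndepOn ℂ F (S : Set (Fin m)) →
    ∃ c : Fin m → Fin m, LinearIndependent ℂ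
      (fun i => if i ∈ S then F i else (Pi.single (c i) 1 : Fin m → ℂ)) := by
  classical
  induction n with
  | zero =>
    intro S F hn hF
    have hS : S = Finset.univ := by
      rw [Finset.card_eq_zero, Finset.sdiff_eq_empty_iff_subset] at hn
      exact Finset.univ_subset_iff.1 hn
    subst hS
    refine ⟨id, ?_⟩
    simp only [Finset.mem_univ, if_true]
    rw [Finset.coe_univ, linearIndepOn_univ] at hF
    exact hF
  | succ n ih =>
    intro S F hn hF
    obtain ⟨i₀, hi₀⟩ : (Finset.univ \ S).Nonempty := by
      rw [← Finset.card_pos]; omega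
    have hi₀S : i₀ ∉ S := (Finset.mem_sdiff.1 hi₀).2
    obtain ⟨c₀, hc₀⟩ : ∃ c₀ : Fin m, (Pi.single c₀ 1 : Fin m → ℂ) ∉
        Submodule.span ℂ (F '' (S : Set (Fin m))) := by
      by_contra hno
      push Not at hno
      have htop : Submodule.span ℂ (F '' (S : Set (Fin m))) = ⊤ := by
        rw [eq_top_iff, ← (Pi.basisFun ℂ (Fin m)).span_eq, Submodule.span_le]
        rintro _ ⟨c, rfl⟩
        rw [Pi.basisFun_apply]
        exact hno c
      have h1 : Module.finrank ℂ (Submodule.span ℂ (F '' (S : Set (Fin m)))) ≤ S.card := by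
        have h2 : F '' (S : Set (Fin m)) = ((S.image F : Finset (Fin m → ℂ)) : Set _) := by
          rw [Finset.coe_image]
        rw [h2]
        exact (finrank_span_finset_le_card (R := ℂ) (S.image F)).trans Finset.card_image_le
      rw [htop, finrank_top, Module.finrank_fin_fun] at h1
      have h2 : S.card < m := by
        have h3 : S ⊂ Finset.univ := by
          rw [Finset.ssubset_univ_iff]
          rintro rfl
          exact hi₀S (Finset.mem_univ _)
        have := Finset.card_lt_card h3
        rwa [Finset.card_univ, Fintype.card_fin] at this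
      omega
    have hne : ∀ i ∈ (S : Set (Fin m)), Function.update F i₀ (Pi.single c₀ 1) i = F i := by
      intro i hi
      rw [Function.update_of_ne]
      rintro rfl
      exact hi₀S hi
    have hF1 : LinearIndepOn ℂ (Function.update F i₀ (Pi.single c₀ 1)) (S : Set (Fin m)) :=
      hF.congr fun i hi => (hne i hi).symm
    have himg : Function.update F i₀ (Pi.single c₀ 1) '' (S : Set (Fin m)) =
        F '' (S : Set (Fin m)) := Set.image_congr hne
    have hF2 : LinearIndepOn ℂ (Function.update F i₀ (Pi.single c₀ 1))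
        ((insert i₀ S : Finset (Fin m)) : Set (Fin m)) := by
      rw [Finset.coe_insert]
      refine hF1.insert ?_
      rw [himg, Function.update_self]
      exact hc₀
    obtain ⟨c', hc'⟩ := ih (insert i₀ S) _ (by
      have h1 : Finset.univ \ S = insert i₀ (Finset.univ \ insert i₀ S) := by
        ext i
        simp only [Finset.mem_sdiff, Finset.mem_univ, true_and, Finset.mem_insert]
        by_cases h : i = i₀
        · subst h; simp [hi₀S]
        · simp [h]
      rw [h1, Finset.card_insert_of_notMem (by simp)] at hn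
      omega) hF2
    refine ⟨Function.update c' i₀ c₀, ?_⟩
    convert hc' using 2 with i
    by_cases h : i = i₀
    · subst h
      simp [hi₀S]
    · by_cases hiS : i ∈ S
      · simp [hiS, h]
      · simp [hiS, h]

end LinAlg

section DetDiff

variable {L : Type} [Field L] (w : AddValuation L (WithTop ℤ))

theorem prod_lower {κ : Type} (s : Finset κ) (a : κ → L) (ρ : κ → ℤ)
    (h : ∀ i ∈ s, (ρ i : WithTop ℤ) ≤ w (a i)) : ((∑ i ∈ s, ρ i : ℤ) : WithTop ℤ) ≤ w (∏ i ∈ s, a i) := by
  classical
  induction s using Finset.induction_on with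
  | empty => simp
  | insert j s hj ih =>
    rw [Finset.prod_insert hj, Finset.sum_insert hj, AddValuation.map_mul]
    push_cast
    refine add_le_add (h j (Finset.mem_insert_self _ _)) ?_
    have := ih fun i hi => h i (Finset.mem_insert_of_mem hi)
    push_cast at this
    exact this

theorem prod_diff {κ : Type} (s : Finset κ) (a b : κ → L) (ρ : κ → ℤ)
    (h : ∀ i ∈ s, (ρ i : WithTop ℤ) ≤ w (a i))
    (h' : ∀ i ∈ s, ((ρ i + 1 : ℤ) : WithTop ℤ) ≤ w (b i - a i)) :
    ((∑ i ∈ s, ρ i + 1 : ℤ) : WithTop ℤ) ≤ w (∏ i ∈ s, b i - ∏ i ∈ s, a i) := by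
  classical
  induction s using Finset.induction_on with
  | empty => simp
  | insert j s hj ih =>
    rw [Finset.prod_insert hj, Finset.prod_insert hj, Finset.sum_insert hj]
    have e1 : b j * ∏ i ∈ s, b i - a j * ∏ i ∈ s, a i =
        (b j - a j) * (∏ i ∈ s, b i) + a j * (∏ i ∈ s, b i - ∏ i ∈ s, a i) := by ring
    rw [e1]
    have hb : ∀ i ∈ s, (ρ i : WithTop ℤ) ≤ w (b i) := by
      intro i hi
      have e2 : b i = (b i - a i) + a i := by ring
      rw [e2]
      refine AddValuation.map_le_add w (le_trans ?_ (h' i (Finset.mem_insert_of_mem hi)))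
        (h i (Finset.mem_insert_of_mem hi))
      exact_mod_cast (by omega : ρ i ≤ ρ i + 1)
    refine AddValuation.map_le_add w ?_ ?_
    · rw [AddValuation.map_mul]
      have h1 := add_le_add (h' j (Finset.mem_insert_self _ _)) (prod_lower w s b ρ hb)
      refine le_trans (le_of_eq ?_) h1
      rw [← WithTop.coe_add]
      congr 1
      ring
    · rw [AddValuation.map_mul]
      have h1 := add_le_add (h j (Finset.mem_insert_self _ _))
        (ih (fun i hi => h i (Finset.mem_insert_of_mem hi))
          fun i hi => h' i (Finset.mem_insert_of_mem hi))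
      refine le_trans (le_of_eq ?_) h1
      rw [← WithTop.coe_add]
      congr 1
      ring

theorem det_diff {n : ℕ} (A B : Matrix (Fin n) (Fin n) L) (ρ : Fin n → ℤ)
    (h : ∀ i j, (ρ i : WithTop ℤ) ≤ w (A i j))
    (h' : ∀ i j, ((ρ i + 1 : ℤ) : WithTop ℤ) ≤ w (B i j - A i j)) :
    ((∑ i, ρ i + 1 : ℤ) : WithTop ℤ) ≤ w (B.det - A.det) := by
  classical
  rw [Matrix.det_apply', Matrix.det_apply', ← Finset.sum_sub_distrib]
  refine AddValuation.map_le_sum w fun σ _ => ?_
  rw [← mul_sub, AddValuation.map_mul]
  have h1 : w (((Equiv.Perm.sign σ : ℤ) : L)) = 0 := by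
    rcases Int.units_eq_one_or (Equiv.Perm.sign σ) with h2 | h2
    · rw [h2]; simp
    · rw [h2]; simp [AddValuation.map_neg]
  rw [h1, zero_add]
  have h2 := prod_diff w Finset.univ (fun i => A (σ i) i) (fun i => B (σ i) i) (fun i => ρ (σ i))
    (fun i _ => h _ _) (fun i _ => h' _ _)
  rw [Equiv.sum_comp σ ρ] at h2
  exact h2

end DetDiff

section Bound

variable {d : ℕ} {L : Type} [Field L] [Algebra ℂ L]

/-- The gradients are independent (in terms of coefficients). -/
def GradIndep {m : ℕ} {ι : Type} (ξ : Fin m → ℂ) (f : MvPolynomial (Fin m) ℂ)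
    (P : ι → MvPolynomial (Fin m) ℂ) (I : Finset ι) : Prop :=
  ∀ (c₀ : ℂ) (c : ι → ℂ), (∀ k, c₀ * eval ξ (pderiv k f) +
    ∑ l ∈ I, c l * eval ξ (pderiv k (P l)) = 0) → c₀ = 0 ∧ ∀ l ∈ I, c l = 0

theorem multi_bound_fin [Algebra.EssFiniteType ℂ L] (hd : 0 < d)
    (htr : Algebra.trdeg ℂ L = (d : ℕ)) {x : Fin (d + 1) → L}
    {f : MvPolynomial (Fin (d + 1)) ℂ} {D' : Fin d → Derivation ℂ L L} {h : L}
    (H : ResForm x f D' h) {w : AddValuation L (WithTop ℤ)} (hw : Q.IsDivisorial d w) {m' : ℤ}
    (hm' : Q.FormOrder w D' m') {b : Fin (d + 1) → ℤ} (hb : ∀ j, w (x j) = (b j : WithTop ℤ))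
    {m : ℤ} (hm : IsMinZ f b m) (P : Fin d → MvPolynomial (Fin (d + 1)) ℂ) (I : Finset (Fin d))
    (μ : Fin d → ℤ) (hμ : ∀ l ∈ I, IsMinZ (P l) b (μ l)) (hP : ∀ l ∈ I, aeval x (P l) ≠ 0)
    (hex : ∀ l ∈ I, μ l < ov w (aeval x (P l)))
    (hLI : ∀ ξ : Fin (d + 1) → ℂ, (∀ i, ξ i ≠ 0) → eval ξ (inFormZ f b) = 0 →
      (∀ l ∈ I, eval ξ (inFormZ (P l) b) = 0) →
      GradIndep ξ (inFormZ f b) (fun l => inFormZ (P l) b) I) :
    ov w h + ∑ j, b j - m + ∑ l ∈ I, (ov w (aeval x (P l)) - μ l) ≤ 1 + m' := by
  classical
  have hc := hw.const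
  have hn := hw.normalized
  -- the matrices
  let M : (Fin d → Fin (d + 1)) → Matrix (Fin (d + 1)) (Fin (d + 1)) (MvPolynomial (Fin (d + 1)) ℂ) :=
    fun c => Matrix.of (Fin.cons (fun k => X k * pderiv k (inFormZ f b))
      (fun l k => if l ∈ I then X k * pderiv k (inFormZ (P l) b) else if k = c l then 1 else 0))
  let M' : (Fin d → Fin (d + 1)) → Matrix (Fin (d + 1)) (Fin (d + 1)) (MvPolynomial (Fin (d + 1)) ℂ) :=
    fun c => Matrix.of (Fin.cons (fun k => X k * pderiv k f)
      (fun l k => if l ∈ I then X k * pderiv k (P l) else if k = c l then 1 else 0))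
  let ρ : Fin (d + 1) → ℤ := Fin.cons m (fun l => if l ∈ I then μ l else 0)
  have hρ : ∑ i, ρ i = m + ∑ l ∈ I, μ l := by
    rw [Fin.sum_univ_succ]
    simp only [ρ, Fin.cons_zero, Fin.cons_succ]
    rw [Finset.sum_ite_mem, Finset.univ_inter]
  have hM : ∀ c i j, HomogZ b (M c i j) (ρ i) := by
    intro c i j
    refine Fin.cases ?_ (fun l => ?_) i
    · simp only [M, ρ, Matrix.of_apply, Fin.cons_zero]
      exact logd_inFormZ_homog hm j
    · simp only [M, ρ, Matrix.of_apply, Fin.cons_succ]
      by_cases hl : l ∈ I
      · rw [if_pos hl, if_pos hl]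
        exact logd_inFormZ_homog (hμ l hl) j
      · rw [if_neg hl, if_neg hl]
        split_ifs
        · exact HomogZ.one b
        · exact HomogZ.zero b 0
  have hM' : ∀ c i j, AtLeastZ b (M' c i j - M c i j) (ρ i + 1) := by
    intro c i j
    refine Fin.cases ?_ (fun l => ?_) i
    · simp only [M, M', ρ, Matrix.of_apply, Fin.cons_zero]
      exact logd_diff_atLeastZ hm j
    · simp only [M, M', ρ, Matrix.of_apply, Fin.cons_succ]
      by_cases hl : l ∈ I
      · rw [if_pos hl, if_pos hl, if_pos hl]
        exact logd_diff_atLeastZ (hμ l hl) j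
      · rw [if_neg hl, if_neg hl, if_neg hl, sub_self]
        intro α hα
        simp at hα
  obtain ⟨k, hk⟩ := init_existsZ w hc x b hb hn (κ := Option (Fin d) ⊕ (Fin d → Fin (d + 1)))
    (Sum.elim (fun o => o.elim (inFormZ f b) (fun l => if l ∈ I then inFormZ (P l) b
      else inFormZ f b)) (fun c => (M c).det))
    (Sum.elim (fun o => o.elim m (fun l => if l ∈ I then μ l else m)) (fun _ => ∑ i, ρ i)) (by
      rintro ((_ | l) | c)
      · exact inFormZ_homog hm
      · simp only [Sum.elim_inl, Option.elim]
        by_cases hl : l ∈ I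
        · rw [if_pos hl, if_pos hl]; exact inFormZ_homog (hμ l hl)
        · rw [if_neg hl, if_neg hl]; exact inFormZ_homog hm
      · exact HomogZ.det (hM c)) (by
      intro ξ hξ
      by_cases h0 : eval ξ (inFormZ f b) = 0
      · by_cases h1 : ∀ l ∈ I, eval ξ (inFormZ (P l) b) = 0
        · have hLI' := hLI ξ hξ h0 h1
          let F : Fin (d + 1) → (Fin (d + 1) → ℂ) := Fin.cons
            (fun k => ξ k * eval ξ (pderiv k (inFormZ f b)))
            (fun l k => ξ k * eval ξ (pderiv k (inFormZ (P l) b)))
          let S : Finset (Fin (d + 1)) := insert 0 (I.map (Fin.succEmb d))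
          have hS0 : (0 : Fin (d + 1)) ∉ I.map (Fin.succEmb d) := by
            rw [Finset.mem_map]
            rintro ⟨l, -, hl⟩
            exact Fin.succ_ne_zero l hl
          have hSm : ∀ l : Fin d, l.succ ∈ S ↔ l ∈ I := by
            intro l
            rw [Finset.mem_insert, Finset.mem_map]
            constructor
            · rintro (h | ⟨l', hl', h⟩)
              · exact absurd h (Fin.succ_ne_zero l)
              · have : l' = l := Fin.succ_injective _ h
                rwa [← this]
            · intro h; exact Or.inr ⟨l, h, rfl⟩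
          have hF : LinearIndepOn ℂ F (S : Set (Fin (d + 1))) := by
            rw [linearIndepOn_finset_iff]
            intro g hg
            rw [Finset.sum_insert hS0, Finset.sum_map] at hg
            have h2 := hLI' (g 0) (fun l => g l.succ) (fun k => by
              have h3 := congrFun hg k
              rw [Pi.add_apply, Finset.sum_apply] at h3
              simp only [F, Pi.smul_apply, smul_eq_mul, Fin.cons_zero, Fin.coe_succEmb,
                Fin.cons_succ, Pi.zero_apply] at h3
              have h4 : ξ k * (g 0 * eval ξ (pderiv k (inFormZ f b)) +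
                  ∑ l ∈ I, g l.succ * eval ξ (pderiv k (inFormZ (P l) b))) = 0 := by
                rw [← h3, mul_add, Finset.mul_sum]
                congr 1
                · ring
                · exact Finset.sum_congr rfl fun l _ => by ring
              exact (mul_eq_zero.1 h4).resolve_left (hξ k))
            intro i hi
            rw [Finset.mem_insert, Finset.mem_map] at hi
            rcases hi with rfl | ⟨l, hl, rfl⟩
            · exact h2.1
            · exact h2.2 l hl
          obtain ⟨c, hc'⟩ := extend_unit _ S F rfl hF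
          refine ⟨Sum.inr (fun l => c l.succ), ?_⟩
          simp only [Sum.elim_inr]
          rw [RingHom.map_det]
          have hmat : (eval ξ).mapMatrix (M fun l => c l.succ) =
              Matrix.of (fun i => if i ∈ S then F i else (Pi.single (c i) 1 : Fin (d + 1) → ℂ)) := by
            ext i j
            rw [RingHom.mapMatrix_apply, Matrix.map_apply, Matrix.of_apply]
            refine Fin.cases ?_ (fun l => ?_) i
            · rw [if_pos (Finset.mem_insert_self _ _)]
              simp only [M, F, Matrix.of_apply, Fin.cons_zero, map_mul, eval_X]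
            · simp only [M, F, Matrix.of_apply, Fin.cons_succ]
              by_cases hl : l ∈ I
              · rw [if_pos hl, if_pos ((hSm l).2 hl)]
                simp only [map_mul, eval_X]
              · rw [if_neg hl, if_neg (fun h => hl ((hSm l).1 h)), Pi.single_apply]
                split_ifs <;> simp
          rw [hmat]
          have h5 := (Matrix.linearIndependent_rows_iff_isUnit (A := Matrix.of
            (fun i => if i ∈ S then F i else (Pi.single (c i) 1 : Fin (d + 1) → ℂ)))).1 hc'
          rw [Matrix.isUnit_iff_isUnit_det] at h5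
          exact h5.ne_zero
        · push Not at h1
          obtain ⟨l, hl, h1⟩ := h1
          refine ⟨Sum.inl (some l), ?_⟩
          simp only [Sum.elim_inl, Option.elim, hl, if_true]
          exact h1
      · exact ⟨Sum.inl none, h0⟩)
  have hf0 : w (aeval x (inFormZ f b)) ≠ (m : WithTop ℤ) := by
    intro hk
    have h1 := val_lowerZ w hc x b hb (diff_atLeastZ hm)
    have h2 : aeval x (inFormZ f b) + aeval x (f - inFormZ f b) = 0 := by
      rw [← map_add, add_sub_cancel, H.eqn]
    have h3 := ov_lt_of hk h1
    rw [h2, AddValuation.map_zero] at h3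
    exact WithTop.top_ne_coe h3
  rcases k with (_ | l) | c
  · exact absurd hk hf0
  · simp only [Sum.elim_inl, Option.elim] at hk
    by_cases hl : l ∈ I
    · rw [if_pos hl, if_pos hl] at hk
      exfalso
      have h1 := val_lowerZ w hc x b hb (diff_atLeastZ (hμ l hl))
      have h2 : aeval x (inFormZ (P l) b) + aeval x (P l - inFormZ (P l) b) = aeval x (P l) := by
        rw [← map_add, add_sub_cancel]
      have h3 := ov_lt_of hk h1
      rw [h2] at h3
      have h4 := ov_eq_of w h3
      have h5 := hex l hl
      omega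
    · rw [if_neg hl, if_neg hl] at hk
      exact absurd hk hf0
  · simp only [Sum.elim_inr] at hk
    -- the determinant of the full matrix
    let A : Matrix (Fin (d + 1)) (Fin (d + 1)) L := (M c).map (aeval x)
    let A' : Matrix (Fin (d + 1)) (Fin (d + 1)) L := (M' c).map (aeval x)
    have hA : A.det = aeval x (M c).det := (AlgHom.map_det (aeval x) (M c)).symm
    have hA' : A'.det = aeval x (M' c).det := (AlgHom.map_det (aeval x) (M' c)).symm
    have hdiff := det_diff w A A' ρ (fun i j => val_lowerZ w hc x b hb (hM c i j).atLeast)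
      (fun i j => by
        have h1 := val_lowerZ w hc x b hb (hM' c i j)
        rw [map_sub] at h1
        exact h1)
    have hdet : w A'.det = ((m + ∑ l ∈ I, μ l : ℤ) : WithTop ℤ) := by
      have h1 : A'.det = A.det + (A'.det - A.det) := by ring
      rw [h1]
      rw [hρ] at hdiff hk
      rw [← hA] at hk
      exact ov_lt_of hk hdiff
    have hdet0 : A'.det ≠ 0 := ne_zero_of_eq w hdet
    have hdetv := ov_eq_of w hdet
    -- the functions
    let g : Fin d → L := fun l => if l ∈ I then aeval x (P l) else x (c l)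
    have hg0 : ∀ l, g l ≠ 0 := by
      intro l
      simp only [g]
      split_ifs with hl
      · exact hP l hl
      · exact H.x0 _
    let s : Fin d → L := fun l => if l ∈ I then (aeval x (P l))⁻¹ else 1
    have hs0 : ∀ l, s l ≠ 0 := by
      intro l
      simp only [s]
      split_ifs with hl
      · exact inv_ne_zero (hP l hl)
      · exact one_ne_zero
    let U : Fin d → Fin (d + 1) → L := fun l j => s l * A' l.succ j
    have hform := H.formula g U (fun l k => by
      simp only [U, g, s]
      by_cases hl : l ∈ I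
      · rw [if_pos hl, if_pos hl, H647.der_aeval (D' k) x (P l), Finset.mul_sum]
        refine Finset.sum_congr rfl fun j _ => ?_
        have e1 : A' l.succ j = x j * aeval x (pderiv j (P l)) := by
          simp only [A', M', Matrix.map_apply, Matrix.of_apply, Fin.cons_succ, if_pos hl, map_mul,
            aeval_X]
        rw [e1]
        field_simp [H.x0 j, hP l hl]
      · rw [if_neg hl, if_neg hl]
        have e1 : ∀ j, A' l.succ j = if j = c l then 1 else 0 := by
          intro j
          simp only [A', M', Matrix.map_apply, Matrix.of_apply, Fin.cons_succ, if_neg hl]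
          split_ifs <;> simp
        simp only [e1, one_mul, ite_mul, zero_mul, Finset.sum_ite_eq', Finset.mem_univ, if_true]
        field_simp [H.x0 (c l)])
    have hrows : (Matrix.of (Fin.cons (fun j => x j * aeval x (pderiv j f)) U :
        Fin (d + 1) → Fin (d + 1) → L)).det = (∏ l, s l) * A'.det := by
      have h1 : (Matrix.of (Fin.cons (fun j => x j * aeval x (pderiv j f)) U :
          Fin (d + 1) → Fin (d + 1) → L)) =
          Matrix.of (fun i j => (Fin.cons 1 s : Fin (d + 1) → L) i * A' i j) := by
        ext i j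
        refine Fin.cases ?_ (fun l => ?_) i
        · simp only [Matrix.of_apply, Fin.cons_zero, one_mul, A', M', Matrix.map_apply, map_mul,
            aeval_X]
        · simp only [Matrix.of_apply, Fin.cons_succ, U]
      rw [h1, Matrix.det_mul_column, Fin.prod_univ_succ]
      simp only [Fin.cons_zero, Fin.cons_succ, one_mul]
    rw [hrows] at hform
    have hx0 : (∏ j, x j) ≠ 0 := Finset.prod_ne_zero_iff.2 fun j _ => H.x0 j
    have hgp : (∏ l, g l) ≠ 0 := Finset.prod_ne_zero_iff.2 fun j _ => hg0 j
    have hsp : (∏ l, s l) ≠ 0 := Finset.prod_ne_zero_iff.2 fun j _ => hs0 j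
    have hj : Q.jac D' g ≠ 0 := by
      intro h0
      rw [h0, mul_zero] at hform
      exact mul_ne_zero hgp (mul_ne_zero hsp hdet0) hform.symm
    have h1 := congrArg (ov w) hform
    rw [ov_mul w (mul_ne_zero H.h0 hx0) hj, ov_mul w H.h0 hx0, ov_mul w hgp
      (mul_ne_zero hsp hdet0), ov_mul w hsp hdet0, hdetv, ov_prod _ _ fun j _ => H.x0 j,
      ov_prod _ _ fun j _ => hg0 j, ov_prod _ _ fun j _ => hs0 j] at h1
    have h2 := order_log hd htr hw hm' g hg0 hj
    have h3 : ∑ l, ov w (s l) = - ∑ l ∈ I, ov w (aeval x (P l)) := by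
      have h4 : ∀ l, ov w (s l) = if l ∈ I then - ov w (aeval x (P l)) else 0 := by
        intro l
        simp only [s]
        split_ifs with hl
        · exact ov_inv w
        · exact ov_eq_of w (by rw [AddValuation.map_one]; rfl)
      rw [Finset.sum_congr rfl fun l _ => h4 l, Finset.sum_ite_mem, Finset.univ_inter,
        Finset.sum_neg_distrib]
    have h5 : ∑ j, ov w (x j) = ∑ j, b j := Finset.sum_congr rfl fun j _ => ov_eq_of w (hb j)
    rw [Finset.sum_sub_distrib]
    rw [h3, h5] at h1
    omega

theorem multi_bound [Algebra.EssFiniteType ℂ L] (hd : 0 < d)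
    (htr : Algebra.trdeg ℂ L = (d : ℕ)) {x : Fin (d + 1) → L}
    {f : MvPolynomial (Fin (d + 1)) ℂ} {D' : Fin d → Derivation ℂ L L} {h : L}
    (H : ResForm x f D' h) {w : AddValuation L (WithTop ℤ)} (hw : Q.IsDivisorial d w) {m' : ℤ}
    (hm' : Q.FormOrder w D' m') {b : Fin (d + 1) → ℤ} (hb : ∀ j, w (x j) = (b j : WithTop ℤ))
    {m : ℤ} (hm : IsMinZ f b m) {ι : Type} (P : ι → MvPolynomial (Fin (d + 1)) ℂ) (I : Finset ι)
    (μ : ι → ℤ) (hμ : ∀ l ∈ I, IsMinZ (P l) b (μ l)) (hP : ∀ l ∈ I, aeval x (P l) ≠ 0)
    (hex : ∀ l ∈ I, μ l < ov w (aeval x (P l)))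
    (hLI : ∀ ξ : Fin (d + 1) → ℂ, (∀ i, ξ i ≠ 0) → eval ξ (inFormZ f b) = 0 →
      (∀ l ∈ I, eval ξ (inFormZ (P l) b) = 0) →
      GradIndep ξ (inFormZ f b) (fun l => inFormZ (P l) b) I) :
    ov w h + ∑ j, b j - m + ∑ l ∈ I, (ov w (aeval x (P l)) - μ l) ≤ 1 + m' := by
  classical
  by_cases hcard : I.card ≤ d
  · let j : I ↪ Fin d := (I.equivFin.toEmbedding).trans (Fin.castLEEmb hcard)
    let P' : Fin d → MvPolynomial (Fin (d + 1)) ℂ := Function.extend j (fun i : I => P i.1) 0
    let μ' : Fin d → ℤ := Function.extend j (fun i : I => μ i.1) 0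
    have hP' : ∀ i : I, P' (j i) = P i.1 := fun i => j.injective.extend_apply _ _ i
    have hμ' : ∀ i : I, μ' (j i) = μ i.1 := fun i => j.injective.extend_apply _ _ i
    have h1 := multi_bound_fin hd htr H hw hm' hb hm P' (Finset.univ.map j) μ'
      (by
        intro l hl
        obtain ⟨i, -, rfl⟩ := Finset.mem_map.1 hl
        rw [hP', hμ']; exact hμ i.1 i.2)
      (by
        intro l hl
        obtain ⟨i, -, rfl⟩ := Finset.mem_map.1 hl
        rw [hP']; exact hP i.1 i.2)
      (by
        intro l hl
        obtain ⟨i, -, rfl⟩ := Finset.mem_map.1 hl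
        rw [hP', hμ']; exact hex i.1 i.2)
      (by
        intro ξ hξ h0 hall c₀ c hc
        have h2 := hLI ξ hξ h0 (fun l hl => by
          have := hall (j ⟨l, hl⟩) (Finset.mem_map_of_mem j (Finset.mem_univ _))
          rw [hP'] at this
          exact this) c₀ (fun i => if hi : i ∈ I then c (j ⟨i, hi⟩) else 0) (fun k => by
            have h3 := hc k
            rw [Finset.sum_map] at h3
            rw [← h3]
            congr 1
            rw [← Finset.sum_attach]
            refine Finset.sum_congr rfl fun i _ => ?_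
            rw [dif_pos i.2]
            show _ = c (j i) * (eval ξ) ((pderiv k) (inFormZ (P' (j i)) b))
            rw [hP' i])
        refine ⟨h2.1, ?_⟩
        intro l hl
        obtain ⟨i, -, rfl⟩ := Finset.mem_map.1 hl
        have h3 := h2.2 i.1 i.2
        rw [dif_pos i.2] at h3
        exact h3)
    rw [Finset.sum_map] at h1
    have h2 : ∑ i : I, (ov w (aeval x (P' (j i))) - μ' (j i)) =
        ∑ l ∈ I, (ov w (aeval x (P l)) - μ l) := by
      rw [← Finset.sum_coe_sort I (fun l => ov w (aeval x (P l)) - μ l)]
      refine Finset.sum_congr rfl fun i _ => ?_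
      rw [hP' i, hμ' i]
    rw [h2] at h1
    exact h1
  · exfalso
    push Not at hcard
    obtain ⟨k, hk⟩ := init_existsZ w hw.const x b hb hw.normalized (κ := Option I)
      (fun o => o.elim (inFormZ f b) (fun l => inFormZ (P l.1) b))
      (fun o => o.elim m (fun l => μ l.1)) (by
        rintro (_ | l)
        · exact inFormZ_homog hm
        · exact inFormZ_homog (hμ l.1 l.2)) (by
        intro ξ hξ
        by_contra hno
        push Not at hno
        have h0 := hno none
        have h1 : ∀ l ∈ I, eval ξ (inFormZ (P l) b) = 0 := fun l hl => hno (some ⟨l, hl⟩)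
        have hLI' := hLI ξ hξ h0 h1
        let F : Option I → (Fin (d + 1) → ℂ) := fun o => o.elim
          (fun k => eval ξ (pderiv k (inFormZ f b)))
          (fun l k => eval ξ (pderiv k (inFormZ (P l.1) b)))
        have hF : LinearIndependent ℂ F := by
          rw [Fintype.linearIndependent_iff]
          intro g hg
          have h2 := hLI' (g none) (fun l => if hl : l ∈ I then g (some ⟨l, hl⟩) else 0)
            (fun k => by
              have h3 := congrFun hg k
              rw [Fintype.sum_option, Pi.add_apply, Finset.sum_apply] at h3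
              simp only [F, Pi.smul_apply, smul_eq_mul, Option.elim, Pi.zero_apply] at h3
              rw [← h3]
              congr 1
              rw [← Finset.sum_coe_sort I]
              refine Finset.sum_congr rfl fun i _ => ?_
              rw [dif_pos i.2])
          rintro (_ | l)
          · exact h2.1
          · have h3 := h2.2 l.1 l.2
            rw [dif_pos l.2] at h3
            exact h3
        have h2 := hF.fintype_card_le_finrank
        rw [Fintype.card_option, Fintype.card_coe, Module.finrank_fin_fun] at h2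
        omega)
    rcases k with _ | l
    · simp only [Option.elim] at hk
      have h1 := val_lowerZ w hw.const x b hb (diff_atLeastZ hm)
      have h2 : aeval x (inFormZ f b) + aeval x (f - inFormZ f b) = 0 := by
        rw [← map_add, add_sub_cancel, H.eqn]
      have h3 := ov_lt_of hk h1
      rw [h2, AddValuation.map_zero] at h3
      exact WithTop.top_ne_coe h3
    · simp only [Option.elim] at hk
      have h1 := val_lowerZ w hw.const x b hb (diff_atLeastZ (hμ l.1 l.2))
      have h2 : aeval x (inFormZ (P l.1) b) + aeval x (P l.1 - inFormZ (P l.1) b) =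
          aeval x (P l.1) := by
        rw [← map_add, add_sub_cancel]
      have h3 := ov_lt_of hk h1
      rw [h2] at h3
      have h4 := ov_eq_of w h3
      have h5 := hex l.1 l.2
      omega

/-- The bound for valuations whose centre lies in the torus. -/
theorem torus_boundZ {x : Fin (d + 1) → L}
    {f : MvPolynomial (Fin (d + 1)) ℂ} {D' : Fin d → Derivation ℂ L L} {h : L}
    (H : ResForm x f D' h) (hf0 : f ≠ 0) {w : AddValuation L (WithTop ℤ)}
    (hf : ∀ ξ : Fin (d + 1) → ℂ, (∀ i, ξ i ≠ 0) → eval ξ (inFormZ f 0) = 0 →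
      ∃ i, eval ξ (pderiv i (inFormZ f 0)) ≠ 0)
    (hw : Q.IsDivisorial d w) {m' : ℤ} (hm' : Q.FormOrder w D' m')
    (hb : ∀ j, w (x j) = 0) : ov w h ≤ m' := by
  have hm : IsMinZ f 0 0 := by
    obtain ⟨m, hm⟩ := exists_isMinZ hf0 0
    obtain ⟨⟨α, hα, hα'⟩, h2⟩ := hm
    have : m = 0 := by rw [← hα']; simp [wtZ]
    subst this
    exact ⟨⟨α, hα, hα'⟩, h2⟩
  have hb' : ∀ j, w (x j) = (((0 : Fin (d + 1) → ℤ) j : ℤ) : WithTop ℤ) := fun j => by
    rw [hb j]; rfl
  obtain ⟨i, hi⟩ : ∃ i, w (x i * aeval x (pderiv i f)) = ((0 : ℤ) : WithTop ℤ) := by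
    obtain ⟨k, hk⟩ := init_existsZ w hw.const x 0 hb' hw.normalized (κ := Option (Fin (d + 1)))
      (fun o => o.elim (inFormZ f 0) (fun i => X i * pderiv i (inFormZ f 0))) (fun _ => 0) (by
        rintro (_ | i)
        · exact inFormZ_homog hm
        · exact logd_inFormZ_homog hm i) (by
        intro ξ hξ
        by_cases h0 : eval ξ (inFormZ f 0) = 0
        · obtain ⟨i, hi⟩ := hf ξ hξ h0
          refine ⟨some i, ?_⟩
          simp only [Option.elim, map_mul, eval_X]
          exact mul_ne_zero (hξ i) hi
        · exact ⟨none, h0⟩)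
    rcases k with _ | i
    · exfalso
      simp only [Option.elim] at hk
      have h1 := val_lowerZ w hw.const x 0 hb' (diff_atLeastZ hm)
      have h2 : aeval x (inFormZ f 0) + aeval x (f - inFormZ f 0) = 0 := by
        rw [← map_add, add_sub_cancel, H.eqn]
      have h3 := ov_lt_of hk h1
      rw [h2, AddValuation.map_zero] at h3
      exact WithTop.top_ne_coe h3
    · refine ⟨i, ?_⟩
      simp only [Option.elim] at hk
      have h1 := val_lowerZ w hw.const x 0 hb' (logd_diff_atLeastZ hm i)
      have h2 : aeval x (X i * pderiv i (inFormZ f 0)) +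
          aeval x (X i * pderiv i f - X i * pderiv i (inFormZ f 0)) =
          x i * aeval x (pderiv i f) := by
        rw [← map_add, add_sub_cancel, map_mul, aeval_X]
      rw [← h2]
      exact ov_lt_of hk h1
  have h1 : x i * aeval x (pderiv i f) ≠ 0 := ne_zero_of_eq w hi
  have h2 := right_ne_zero_of_mul h1
  have h3 := H.res i
  have hs : ((-1 : L) ^ (i : ℕ)) ≠ 0 := pow_ne_zero _ (by norm_num)
  have hsv : ov w ((-1 : L) ^ (i : ℕ)) = 0 := by
    rw [ov_pow w (by norm_num)]
    have h5 : ov w (-1 : L) = 0 := by
      apply ov_eq_of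
      rw [AddValuation.map_neg, AddValuation.map_one]; rfl
    rw [h5, mul_zero]
  have h4 : Q.jac D' (x ∘ i.succAbove) ≠ 0 := by
    intro h0
    rw [h0, mul_zero] at h3
    exact mul_ne_zero hs h2 h3.symm
  have h5 := congrArg (ov w) h3
  rw [ov_mul w H.h0 h4, ov_mul w hs h2, hsv, zero_add] at h5
  have h6 := ov_eq_of w hi
  rw [ov_mul w (H.x0 i) h2] at h6
  have h7 : ov w (x i) = 0 := ov_eq_of w (by rw [hb i]; rfl)
  have h8 := H647.order_regular hm' (x ∘ i.succAbove) (fun l => (hb _).ge) h4
  omega

end Bound

end Vale.Agent.P283.Z647
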